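import Vale.Agent.P236K.Core.Nd

/-!
# P236K, block Core: from tables to the facts on `d₅`

* `Tb`: the tables (dimensions, tests, matrices), `Itf j c A`: their meaning;
* `ctxB A Γ ks`: the hypotheses of a certificate follow from the tables;
* `OutD`, `outB`: the output of a certificate;
* `facts_of`: the facts `F10`, `F14`, `F18`.
-/

set_option linter.unusedSectionVars false

noncomputable section

namespace Vale.Agent.P236K.Core

open Vale.Agent.P251.F Vale.Agent.P236K.SS Vale.Agent.P236K.Alg Vale.Agent.P236K.Cert D5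
open Vale.Agent.P251.I (IsT1 bcls)

/-- the degrees of the operators `v₁, t, b, h₁, β'₂, b₁` -/
def oS : ℕ → ℕ
  | 0 => 0
  | 1 => 1
  | 2 => 2
  | 3 => 1
  | 4 => 1
  | _ + 5 => 2

/-- the weights of the operators, divided by two -/
def oT : ℕ → ℕ
  | 0 => 1
  | 1 => 1
  | 2 => 3
  | 3 => 3
  | 4 => 7
  | _ + 5 => 9

/-- the images of the operators -/
def oX : ℕ → Bi F3
  | 0 => vP _ 1
  | 1 => -tB _ 1
  | 2 => -bB _ 1
  | 3 => tB _ 3
  | 4 => be1 3 _ 0 (bt2 _)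
  | _ + 5 => bB _ 3

/-- matrices -/
abbrev Mz : Type := List (List ℕ)

/-- the tables -/
structure Tb where
  /-- bound for the degrees -/
  S : ℕ
  /-- bound for the weights -/
  T : ℕ
  /-- the dimensions -/
  nd : ℕ → ℕ → ℕ
  /-- test for injectivity -/
  injB : ℕ → ℕ → Bool
  /-- test for surjectivity -/
  surB : ℕ → ℕ → Bool
  /-- the matrices `(k, s, t, P)` -/
  rows : List (ℕ × ℕ × ℕ × Mz)

/-- `P` is the matrix of the operator `k` at the node `(s, t)` -/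
def MxK (c : ∀ s : ℕ, ℤ → (Cob Laz s →+ V)) (k s t : ℕ) (P : Mz) : Prop :=
  ∀ y : Cob Laz (oS k), Op (oS k) (2 * (oT k : ℤ)) (oX k) y →
    Mx c y s t (s + oS k) (t + oT k) P

/-- the meaning of the tables -/
structure Itf (j : ℕ) (c : ∀ s : ℕ, ℤ → (Cob Laz s →+ V)) (A : Tb) : Prop where
  nd : ∀ s < A.S, ∀ t ≤ A.T, Nd j c s t
  dim : ∀ s < A.S, ∀ t ≤ A.T, ∀ z k, A.nd s t ≤ k → c s (2 * (t : ℤ)) z k = 0
  sur : ∀ s t, A.surB s t = true → ∀ x : V, (∀ k, A.nd s t ≤ k → x k = 0) →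
    x ∈ imC (2 * (t : ℤ)) (c s (2 * (t : ℤ)))
  inj : ∀ s t, A.injB s t = true → InjC (2 * (t : ℤ)) (c s (2 * (t : ℤ)))
  mx : ∀ r ∈ A.rows, MxK c r.1 r.2.1 r.2.2.1 r.2.2.2
  mx0 : ∀ k s t, s + oS k < A.S → t + oT k ≤ A.T → A.nd s t = 0 → MxK c k s t []

/-- search in the list of the matrices -/
def fnd (k s t : ℕ) : List (ℕ × ℕ × ℕ × Mz) → Option Mz
  | [] => none
  | r :: L => cond (Nat.beq r.2.2.1 t && (Nat.beq r.2.1 s && Nat.beq r.1 k)) (some r.2.2.2)
      (fnd k s t L)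

theorem mem_of_fnd {k s t : ℕ} {L : List (ℕ × ℕ × ℕ × Mz)} {P : Mz} (h : fnd k s t L = some P) :
    (k, s, t, P) ∈ L := by
  induction L with
  | nil => exact absurd h (by simp [fnd])
  | cons r L ih =>
    rw [fnd] at h
    cases h1 : Nat.beq r.2.2.1 t && (Nat.beq r.2.1 s && Nat.beq r.1 k) with
    | false => exact List.mem_cons_of_mem _ (ih (by rwa [h1] at h))
    | true =>
      rw [h1, cond_true, Option.some.injEq] at h
      simp only [Bool.and_eq_true, Nat.beq_eq] at h1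
      obtain ⟨rfl, rfl, rfl⟩ := h1
      subst h
      exact List.mem_cons_self

/-- equality of vectors -/
def eqV (a b : List ℕ) : Bool := zeroL (axL 2 a b)

theorem vec_eqV {a b : List ℕ} (h : eqV a b = true) : vec a = vec b := by
  have h1 := vec_zeroL h
  rw [vec_axL, show ((2 : ℕ) : F) = -1 from rfl, neg_one_smul, neg_add_eq_zero] at h1
  exact h1

/-- equality of linear maps -/
def eqM : Mz → Mz → Bool
  | [], Q => Q.all zeroL
  | r :: P, [] => zeroL r && eqM P []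
  | r :: P, r' :: Q => eqV r r' && eqM P Q

theorem mat_eqM {P Q : Mz} (h : eqM P Q = true) (x : V) : mat P x = mat Q x := by
  induction P generalizing Q x with
  | nil =>
    induction Q generalizing x with
    | nil => rfl
    | cons r Q ih =>
      rw [eqM, List.all_cons, Bool.and_eq_true] at h
      rw [mat_cons, vec_zeroL h.1, smul_zero, zero_add, ← ih h.2, mat_nil, mat_nil]
  | cons r P ih =>
    cases Q with
    | nil =>
      rw [eqM, Bool.and_eq_true] at h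
      rw [mat_cons, vec_zeroL h.1, smul_zero, zero_add, ih h.2, mat_nil, mat_nil]
    | cons r' Q =>
      rw [eqM, Bool.and_eq_true] at h
      rw [mat_cons, mat_cons, vec_eqV h.1, ih h.2]

/-- the product of two matrices -/
def mulM (P Q : Mz) : Mz := P.map fun r => vm r Q

namespace Tb

variable (A : Tb)

/-- the node is in the range -/
def inR (s t : ℕ) : Bool := Nat.blt s A.S && Nat.ble t A.T

/-- the matrix of the operator `k` -/
def M (k s t : ℕ) : Mz := (fnd k s t A.rows).getD []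

/-- the matrix is known -/
def ok (k s t : ℕ) : Bool := (fnd k s t A.rows).isSome || (A.inR (s + oS k) (t + oT k) &&
  (Nat.beq (A.nd s t) 0 || Nat.beq (A.nd (s + oS k) (t + oT k)) 0))

/-- the matrix of `b ^ 3 t` -/
def M3 (s t : ℕ) : Mz :=
  mulM (mulM (mulM (A.M 2 s t) (A.M 2 (s + 2) (t + 3))) (A.M 2 (s + 4) (t + 6)))
    (A.M 1 (s + 6) (t + 9))

/-- it is known -/
def ok3 (s t : ℕ) : Bool :=
  A.ok 2 s t && (A.ok 2 (s + 2) (t + 3) && (A.ok 2 (s + 4) (t + 6) && A.ok 1 (s + 6) (t + 9)))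

/-- the test of a Leibniz constraint -/
def edB (e : Ed) (k : ℕ) : Bool :=
  (Nat.beq e.s' (e.s + oS k) && (Nat.beq e.t' (e.t + oT k) && A.inR (e.s' + 5) (e.t' + 1))) &&
    ((A.ok k e.s e.t && eqM e.P (A.M k e.s e.t)) &&
      ((A.ok k (e.s + 5) (e.t + 1) && eqM e.Q (A.M k (e.s + 5) (e.t + 1))) &&
        cond (Nat.ble 5 k) (A.ok3 e.s e.t &&
          eqM e.R ((A.M3 e.s e.t).map fun r => axL (e.s % 2 + 1) r [])) (eqM e.R [])))

/-- the test of the constraints, with the numbers of their operators -/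
def edsB : List Ed → List ℕ → Bool
  | [], _ => true
  | _ :: _, [] => false
  | e :: E, k :: K => A.edB e k && edsB E K

/-- the test of the hypotheses of a certificate -/
def ctxB (Γ : Ctx) (ks : List ℕ) : Bool :=
  (Γ.dims.all fun p => A.inR p.1 p.2.1 && Nat.ble (A.nd p.1 p.2.1) p.2.2) &&
    ((Γ.surs.all fun p => A.surB p.1 p.2.1 && Nat.ble p.2.2 (A.nd p.1 p.2.1)) &&
      ((Γ.dds.all fun p => A.inR (p.1 + 10) (p.2 + 2)) &&
        ((Γ.maps.all fun p => A.inR (p.1 + 5) (p.2 + 1)) && A.edsB Γ.eds ks)))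

variable {A}

theorem of_inR {s t : ℕ} (h : A.inR s t = true) : s < A.S ∧ t ≤ A.T := by
  simpa only [inR, Bool.and_eq_true, Nat.blt_eq, Nat.ble_eq] using h

end Tb

/-- the output of the certificate for one of the levels `14`, `18` -/
structure Lvl where
  /-- the first source -/
  x : List ℕ
  /-- the second source -/
  y : List ℕ
  /-- the third class -/
  z : List ℕ
  /-- the value of `d` on `x` -/
  dx : List ℕ
  /-- the value of `d` on `y` -/
  dy : List ℕ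
  /-- the functional -/
  l : List ℕ
  /-- the indeterminacy -/
  A : Mz
  /-- the main term -/
  r : List ℕ

/-- its meaning -/
structure Lvl.Ok (o : Lvl) (S : Sys) (s t s' t' : ℕ) : Prop where
  v1 : S.Val s t o.x o.dx
  v2 : S.Val (s + 4) t o.y o.dy
  kill : S.Kill s' t' [o.l]
  nz : S.NZ (s' + 5) (t' + 1) o.l o.A o.r

/-- the tests common to the two levels -/
def Lvl.chk (o : Lvl) (A : Tb) (s t : ℕ) : Bool :=
  (A.ok 1 (s + 4) t && (A.ok 1 (s + 8) t && A.ok 2 (s + 8) t)) &&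
    ((eqV o.dx (vm o.y (A.M 1 (s + 4) t)) && eqV o.dy (vm o.z (A.M 1 (s + 8) t))) &&
      ((A.surB (s + 8) t && Nat.ble o.z.length (A.nd (s + 8) t)) &&
        (A.injB (s + 5) (t + 1) && A.injB (s + 9) (t + 1))))

/-- the test of the output -/
def outB (A : Tb) (E : Mz) (o o' : Lvl) : Bool :=
  (A.inR 23 86 && (A.injB 10 83 && (A.ok 0 10 82 && E.all fun l => zeroL (mv (A.M 0 10 82) l)))) &&
    ((o.chk A 4 81 && (A.injB 14 84 && (A.ok 1 13 83 &&
      (eqM o.A (A.M 1 13 83) && eqV o.r (vm o.z (A.M 2 12 81)))))) &&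
    (o'.chk A 6 79 && (A.injB 18 85 && ((A.ok 1 15 81 && A.ok 2 16 82) &&
      (eqM o'.A (mulM (A.M 1 15 81) (A.M 2 16 82)) &&
        eqV o'.r (vm (vm o'.z (A.M 2 14 79)) (A.M 2 16 82)))))))

theorem val_congr {S : Sys} {s t : ℕ} {a b b' : List ℕ} (h : S.Val s t a b)
    (e : eqV b b' = true) : S.Val s t a b' := ⟨h.1, vec_eqV e ▸ h.2⟩

theorem nz_congr {S : Sys} {s t : ℕ} {l r r' : List ℕ} {P P' : Mz} (h : S.NZ s t l P r)
    (e : eqM P P' = true) (e' : eqV r r' = true) : S.NZ s t l P' r' := fun x c hc => by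
  rw [← mat_eqM e, ← vec_eqV e']
  exact h x c hc

theorem edge_congr {S : Sys} {e : Ed} {P Q W : Mz} (h : S.Edge ⟨e.s, e.t, e.s', e.t', P, Q, W⟩)
    (h1 : eqM e.P P = true) (h2 : eqM e.Q Q = true) (h3 : eqM e.R W = true) : S.Edge e :=
  fun x hx => by
    rw [mat_eqM h1, mat_eqM h2, mat_eqM h3]
    exact h x hx

namespace Itf

variable {j : ℕ} {c : ∀ s : ℕ, ℤ → (Cob Laz s →+ V)} {A : Tb} (I : Itf j c A)

include I

theorem mxK {k s t : ℕ} (h : A.ok k s t = true) : MxK c k s t (A.M k s t) := by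
  rw [Tb.M]
  cases h1 : fnd k s t A.rows with
  | some P => exact I.mx _ (mem_of_fnd h1)
  | none =>
    simp only [Tb.ok, h1, Option.isSome_none, Bool.false_or, Bool.and_eq_true, Bool.or_eq_true,
      Nat.beq_eq] at h
    obtain ⟨h2, h3⟩ := Tb.of_inR h.1
    rcases h.2 with h4 | h4
    · exact I.mx0 k s t h2 h3 h4
    · exact fun y _ => ⟨rfl, fun z _ => funext fun i => I.dim _ h2 _ h3 _ i (by omega)⟩

variable {t₀ : Cob Laz 1} (ht : IsT1 3 t₀)

include ht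

theorem mx_t {s t : ℕ} (h : A.ok 1 s t = true) : Mx c t₀ s t (s + 1) (t + 1) (A.M 1 s t) :=
  I.mxK h t₀ (op_t ht)

theorem mx_b {s t : ℕ} (h : A.ok 2 s t = true) :
    Mx c (bcls 3 t₀) s t (s + 2) (t + 3) (A.M 2 s t) := I.mxK h _ (op_b ht)

theorem mx3 {s t : ℕ} (h : A.ok3 s t = true) :
    Mx c (b3tW ht).1 s t (s + 7) (t + 10) (A.M3 s t) := by
  simp only [Tb.ok3, Bool.and_eq_true] at h
  exact (((I.mx_b ht h.1).comp (I.mx_b ht h.2.1) (ρ := 4) rfl (τ := 3) rfl (cy_b ht)).comp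
    (I.mx_b ht h.2.2.1) (ρ := 6) rfl (τ := 6) rfl
      ((cy_b ht).cup (cy_b ht) rfl (by norm_num))).comp (I.mx_t ht h.2.2.2) rfl (τ := 9) rfl
        (cy_b3 ht)

variable {R : Rel} (X : D5Ax R) {d : ℕ → ℤ → V →ₗ[F] V} (H : Spec R j c d) {u : ℤ}
  {hu : u = 1 ∨ u = -1} {y : Cob Laz 2} (hy : Op 2 (2 * ((9 : ℕ) : ℤ)) (bB _ 3) y)
  (hd : R 2 7 (2 * ((9 : ℕ) : ℤ)) (2 * (9 : ℕ) + 2) y (u • (b3tW ht).1))

include X H hy hd

theorem edge {e : Ed} {k : ℕ} (h : A.edB e k = true) : (sysOf c d u hu).Edge e := by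
  simp only [Tb.edB, Bool.and_eq_true, Nat.beq_eq] at h
  obtain ⟨⟨h1, h2, h3⟩, ⟨h4, h5⟩, ⟨h6, h7⟩, h8⟩ := h
  obtain ⟨h9, h10⟩ := Tb.of_inR h3
  have n1 := I.nd e.s (by omega) e.t (by omega)
  have n2 := I.nd (e.s + 5) (by omega) (e.t + 1) (by omega)
  have n3 := I.nd e.s' (by omega) e.t' (by omega)
  have n4 := I.nd _ h9 _ h10
  have m1 := I.mxK h4
  have m2 := I.mxK h6
  rw [MxK, ← h1, ← h2] at m1
  rw [MxK, Nat.add_right_comm, ← h1, Nat.add_right_comm e.t, ← h2] at m2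
  have key : k < 5 → (∃ y, Op0 R (oS k) (oT k) (oX k) y) → (sysOf c d u hu).Edge e := by
    rintro hk ⟨y, hy⟩
    rw [show Nat.ble 5 k = false by rw [← Bool.not_eq_true, Nat.ble_eq]; omega] at h8
    exact edge_congr (H.edge0 X hy.d h2.symm n1 n2 n3 n4 (m1 y hy.op) (m2 y hy.op)) h5 h7 h8
  rcases k with _ | _ | _ | _ | _ | k
  · exact key (by omega) ⟨_, op0_vj X 1⟩
  · exact key (by omega) ⟨_, op0_t X ht⟩
  · exact key (by omega) ⟨_, op0_b X ht⟩
  · exact key (by omega) (exists_op0_h1 X)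
  · exact key (by omega) (exists_op0_bt2 X)
  · rw [show Nat.ble 5 (k + 1 + 1 + 1 + 1 + 1) = true by rw [Nat.ble_eq]; omega, cond_true,
      Bool.and_eq_true] at h8
    have m3 := I.mx3 ht h8.1
    rw [show e.s + 7 = e.s' + 5 from by rw [h1]; rfl,
      show e.t + 10 = e.t' + 1 from by rw [h2]; rfl] at m3
    exact edge_congr (H.edge1 X rfl hd h2.symm n1 n2 n3 n4 (m1 y hy) (m2 y hy) m3) h5 h7 h8.2

theorem edges {E : List Ed} {K : List ℕ} (h : A.edsB E K = true) :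
    ∀ e ∈ E, (sysOf c d u hu).Edge e := by
  induction E generalizing K with
  | nil => exact fun _ h => absurd h (by simp)
  | cons e E ih =>
    cases K with
    | nil => exact absurd h (by simp [Tb.edsB])
    | cons k K =>
      rw [Tb.edsB, Bool.and_eq_true] at h
      intro e' he'
      rcases List.mem_cons.1 he' with rfl | he'
      · exact I.edge ht X H hy hd h.1
      · exact ih h.2 e' he'

theorem ctx {Γ : Ctx} {K : List ℕ} (h : A.ctxB Γ K = true) : Γ.Ok (sysOf c d u hu) := by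
  simp only [Tb.ctxB, Bool.and_eq_true, List.all_eq_true, Nat.ble_eq] at h
  obtain ⟨h1, h2, h3, h4, h5⟩ := h
  refine ⟨fun p hp => ?_, fun p hp => ?_, fun p hp => ?_, fun p hp => ?_,
    I.edges ht X H hy hd h5⟩
  · obtain ⟨h6, h7⟩ := Tb.of_inR (h1 p hp).1
    exact sysOf_dim fun z k hk => I.dim _ h6 _ h7 z k ((h1 p hp).2.trans hk)
  · exact fun i hi => sysOf_sur (I.sur _ _ (h2 p hp).1) i (hi.trans_le (h2 p hp).2)
  · obtain ⟨h6, h7⟩ := Tb.of_inR (h3 p hp)
    have n1 := I.nd p.1 (by omega) p.2 (by omega)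
    have n2 := I.nd (p.1 + 5) (by omega) (p.2 + 1) (by omega)
    exact ⟨H.map X n1 n2, H.dD X n1 n2 (I.nd _ h6 _ h7)⟩
  · obtain ⟨h6, h7⟩ := Tb.of_inR (h4 p hp)
    exact H.map X (I.nd p.1 (by omega) p.2 (by omega)) (I.nd _ h6 _ h7)

end Itf

/-- **The facts on `d₅` from the tables and a certificate.** -/
theorem facts_of (hJ : J1Alg) {j : ℕ} {c : ∀ s : ℕ, ℤ → (Cob Laz s →+ V)} {A : Tb}
    (I : Itf j c A) {Γ : Ctx} {K : List ℕ} (hΓ : A.ctxB Γ K = true) {E : Mz} {o o' : Lvl}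
    (ho : outB A E o o' = true)
    (h : ∀ S : Sys, Γ.Ok S → S.Kill 5 82 E ∧ o.Ok S 4 81 9 83 ∧ o'.Ok S 6 79 13 84)
    (R : Rel) (X : D5Ax R) (t : Cob Laz 1) (ht : IsT1 3 t) : F10 R ∧ F14 R t ∧ F18 R t := by
  obtain ⟨y, u, hu, hy, hd⟩ := exists_op_seed X hJ ht
  obtain ⟨d, H⟩ := X.exists_spec j c
  obtain ⟨k1, k2, k3⟩ := h _ (I.ctx ht X H (hu := hu) hy hd hΓ)
  have L := H.lk X (hu := hu)
  simp only [outB, Lvl.chk, Bool.and_eq_true, Nat.ble_eq] at ho
  obtain ⟨⟨a0, a1, a2, a3⟩, ⟨⟨⟨b1, b2, b3⟩, ⟨b4, b5⟩, ⟨b6, b7⟩, b8, b9⟩, b10, b11, b12, b13⟩,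
    ⟨⟨c1, c2, c3⟩, ⟨c4, c5⟩, ⟨c6, c7⟩, c8, c9⟩, c10, ⟨c11, c12⟩, c13, c14⟩ := ho
  obtain ⟨hS, hT⟩ := Tb.of_inR a0
  have n : ∀ s t, s ≤ 23 → t ≤ 86 → Nd j c s t := fun s t h1 h2 => I.nd s (by omega) t (by omega)
  refine ⟨L.f10 (n 5 82 (by omega) (by omega)) (n 10 83 (by omega) (by omega))
      (n 15 84 (by omega) (by omega)) (I.inj _ _ a1) (I.mxK a2 _ (op_vj 1)).2 k1 a3,
    L.f14 ht (n 4 81 (by omega) (by omega)) (n 9 82 (by omega) (by omega))
      (n 8 81 (by omega) (by omega)) (n 13 82 (by omega) (by omega))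
      (n 9 83 (by omega) (by omega)) (n 14 84 (by omega) (by omega))
      (n 19 85 (by omega) (by omega)) (I.inj _ _ b8) (I.inj _ _ b9) (I.inj _ _ b10)
      (I.mx_t ht b1).2 (I.mx_t ht b2).2 (I.mx_t ht b11).2 (I.mx_b ht b3).2 (val_congr k2.v1 b4)
      (val_congr k2.v2 b5) ((sysOf_sur (I.sur _ _ b6)).vec_mem b7) k2.kill
      (nz_congr k2.nz b12 b13),
    L.f18 ht (n 6 79 (by omega) (by omega)) (n 11 80 (by omega) (by omega))
      (n 10 79 (by omega) (by omega)) (n 15 80 (by omega) (by omega))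
      (n 13 84 (by omega) (by omega)) (n 18 85 (by omega) (by omega))
      (n 23 86 (by omega) (by omega)) (I.inj _ _ c8) (I.inj _ _ c9) (I.inj _ _ c10)
      (I.mx_t ht c1).2 (I.mx_t ht c2).2 (I.mx_t ht c11).2 (I.mx_b ht c3).2 (I.mx_b ht c12).2
      (val_congr k3.v1 c4) (val_congr k3.v2 c5) ((sysOf_sur (I.sur _ _ c6)).vec_mem c7) k3.kill
      (nz_congr k3.nz c13 c14)⟩

end Vale.Agent.P236K.Core
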