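import Vale.Agent.P236K.Core.Tab
import Vale.Agent.P236K.Core.Glue

/-!
# P236K, block Core: `J1Alg`, `EndAlg` and the two facts for `J2Alg` from the tables

`A.finB` is the test.
-/

set_option linter.unusedSectionVars false

noncomputable section

namespace Vale.Agent.P236K.Core

open Vale.Agent.P251.F Vale.Agent.P236K.SS D5
open Vale.Agent.P251.I (IsT1 bcls)

namespace Tb

variable (A : Tb)

/-- the matrix of `b` at the node is known -/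
def hasB (s t : ℕ) : Bool := A.inR (s + 2) (t + 3) && A.ok 2 s t

/-- the test for `ASurj` -/
def surT (s t : ℕ) : Bool := A.hasB s t && A.surB s t && A.injB (s + 2) (t + 3) &&
  surM (A.nd s t) (A.nd (s + 2) (t + 3)) (A.M 2 s t)

/-- the test for `AInj` -/
def injT (s t : ℕ) : Bool :=
  A.hasB s t && A.injB s t && injM (A.nd s t) (A.nd (s + 2) (t + 3)) (A.M 2 s t)

/-- the test for the vanishing of the products -/
def kilT (s t : ℕ) : Bool := A.hasB s t && A.injB (s + 2) (t + 3) && (A.M 2 s t).all zeroL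

/-- the test -/
def finB : Bool :=
  A.inR 2 9 && A.injB 2 9 && Nat.ble (A.nd 2 9) 1 && A.surT 5 28 && A.injT 6 28 && A.surT 10 68 &&
    A.surT 12 71 && A.surT 14 74 && A.surT 16 77 && A.surT 14 69 && A.injT 15 69 &&
    A.surT 3 16 && A.kilT 1 18

end Tb

namespace Itf

variable {j : ℕ} {c : ∀ s : ℕ, ℤ → (Cob Laz s →+ V)} {A : Tb} (I : Itf j c A) {s t : ℕ}

include I

theorem dimC (h : A.inR s t = true) {n : ℕ} (hn : A.nd s t ≤ n) :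
    DimC n (2 * (t : ℤ)) (c s (2 * (t : ℤ))) := by
  rintro _ ⟨z, -, rfl⟩ k hk
  exact I.dim s (Tb.of_inR h).1 t (Tb.of_inR h).2 z k (hn.trans hk)

variable {a : Cob Laz 1} (ha : IsT1 3 a) {w : ℤ} (e : w = 2 * (t : ℤ))

include ha e

theorem surT (h : A.surT s t = true) : ASurj 3 1 1 (bW ha).1 6 s w := by
  simp only [Tb.surT, Tb.hasB, surM, Bool.and_eq_true] at h
  obtain ⟨⟨⟨⟨h1, h2⟩, h3⟩, h4⟩, h5, h6⟩ := h
  have e' : 2 * ((t + 3 : ℕ) : ℤ) = 2 * (t : ℤ) + 6 := by push_cast; ring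
  subst e
  refine aSurj_of_rep (cy_b ha) (c' := c (s + 2) (2 * ((t + 3 : ℕ) : ℤ))) (e' ▸ I.inj _ _ h4)
    (e' ▸ I.dimC h1 le_rfl) (fun q hq => I.sur _ _ h3 _ fun k hk => vec_of_le ?_)
    (I.mx_b ha h2).2 h6
  exact (Nat.le_of_ble_eq_true (List.all_eq_true.1 h5 q hq)).trans hk

theorem injT (h : A.injT s t = true) : AInj 3 1 1 (bW ha).1 6 s w := by
  simp only [Tb.injT, Tb.hasB, Bool.and_eq_true] at h
  obtain ⟨⟨⟨h1, h2⟩, h3⟩, h4⟩ := h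
  obtain ⟨h5, h6⟩ := Tb.of_inR h1
  have e' : 2 * ((t + 3 : ℕ) : ℤ) = 2 * (t : ℤ) + 6 := by push_cast; ring
  subst e
  have h7 : IsNd j _ _ := I.nd _ h5 _ h6
  refine aInj_of_rep (cy_b ha) (c' := c (s + 2) (2 * ((t + 3 : ℕ) : ℤ))) (I.inj _ _ h3) ?_
    (e' ▸ h7) (I.mx_b ha h2).2 h4
  rintro _ ⟨z, -, rfl⟩
  exact I.dim s (by omega) t (by omega) z

theorem kilT (h : A.kilT s t = true) {z : Cob Laz s} (hz : Cy w z) :
    ACob 3 1 (w + 6) (Cob.cup z (bW ha).1) := by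
  simp only [Tb.kilT, Tb.hasB, Bool.and_eq_true] at h
  have e' : 2 * ((t + 3 : ℕ) : ℤ) = 2 * (t : ℤ) + 6 := by push_cast; ring
  subst e
  exact kill_of_rep (cy_b ha) (c' := c (s + 2) (2 * ((t + 3 : ℕ) : ℤ))) (e' ▸ I.inj _ _ h.1.2)
    (I.mx_b ha h.1.1.2).2 h.2 hz

omit ha e

/-- **The three statements.** -/
theorem fin (h : A.finB = true) : J1Alg ∧ (∀ (a : Cob Laz 1) (ha : IsT1 3 a),
    ASurj 3 1 1 (bW ha).1 6 5 56 ∧ AInj 3 1 1 (bW ha).1 6 6 56) ∧ EndAlg := by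
  simp only [Tb.finB, Bool.and_eq_true, Nat.ble_eq] at h
  obtain ⟨⟨⟨⟨⟨⟨⟨⟨⟨⟨⟨⟨h0, h1⟩, h2⟩, h3⟩, h4⟩, h5⟩, h6⟩, h7⟩, h8⟩, h9⟩, h10⟩, h11⟩, h12⟩ := h
  exact ⟨j1Alg_of_crd (I.inj _ _ h1) (I.dimC h0 h2), fun a ha =>
    ⟨I.surT ha rfl h3, I.injT ha rfl h4⟩, fun a ha => ⟨I.surT ha rfl h5, I.surT ha rfl h6,
      I.surT ha rfl h7, I.surT ha rfl h8, I.surT ha rfl h9, I.injT ha rfl h10, I.surT ha rfl h11,
      fun _ hx hd => I.kilT ha rfl h12 ⟨hx, hd⟩⟩⟩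

end Itf

end Vale.Agent.P236K.Core
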