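import Vale.Agent.P236K.Core.RowS
import Vale.Agent.P236K.Cert.FProg

/-!
# P236K, block Core: from the checked products to the matrices of the operators

* `opO k` : the operator `k` as a term, `sem_opO` : its meaning is `opL τ k`;
* `row_of`, `rows_of`, `rowsB`, `rowsB_sound`.
-/

noncomputable section

namespace Vale.Agent.P236K.Core

open Vale.Agent.P236K.Alg Vale.Agent.P236K.Cert MvPolynomial Finset

theorem mon_ex2 {R : Type} [CommSemiring R] {i j : ℕ} (hi : i < 128) (hj : j < 128) :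
    (monomial (ex (i + 128 * j)) 1 : MvPolynomial ℕ R) = X 0 ^ i * X 1 ^ j := by
  rw [ex, show (i + 128 * j) % 128 = i by omega, show (i + 128 * j) / 128 % 128 = j by omega,
    show (i + 128 * j) / 16384 % 128 = 0 by omega, show (i + 128 * j) / 2097152 % 128 = 0 by omega,
    Finsupp.single_zero, Finsupp.single_zero, add_zero, add_zero, X_pow_eq_monomial,
    X_pow_eq_monomial, monomial_mul, mul_one]

theorem mon_ex1 {R : Type} [CommSemiring R] {i : ℕ} (hi : i < 128) :
    (monomial (ex i) 1 : MvPolynomial ℕ R) = X 0 ^ i := by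
  have h := mon_ex2 (R := R) hi (j := 0) (by norm_num)
  rwa [pow_zero, mul_one] at h

/-- the term of `[t₁ ^ a | t₁ ^ b] + [t₁ ^ b | t₁ ^ a]` after `o` -/
def oB (a b : ℕ) (o : Opr) : Opr := .add (.h a (.h b o)) (.h b (.h a o))

/-- the terms of the operators -/
def opO : ℕ → Opr
  | 0 => .v 1 .id
  | 1 => .h 1 .id
  | 2 => oB 2 1 .id
  | 3 => .h 3 .id
  | 4 => .add (.add (.two (.v 128 (.h 3 .id))) (.v 130 (.h 1 .id))) (.v 1 (.h 6 .id))
  | 5 => oB 6 3 .id
  | _ => oB 18 9 .id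

theorem sd_opO : ∀ k, (opO k).sd = opS k
  | 0 | 1 | 2 | 3 | 4 | 5 | _ + 6 => rfl

theorem wt_opO : ∀ k, (opO k).wt = opT k
  | 0 | 1 | 2 | 3 | 4 | 5 | _ + 6 => rfl

variable {n : ℕ} {τ : Tw F3 (Fin n)}

theorem sem_h {a : ℕ} (ha : a < 128) (o : Opr) (u : Fin n → Av F3) :
    (Opr.h a o).sem τ u = τ.Lh a (o.sem τ u) := by
  rw [Opr.sem, mon_ex1 ha, Tw.Lh_apply]

theorem sem_v {i j k : ℕ} (hi : i < 128) (hj : j < 128) (e : i + 128 * j = k) (o : Opr)
    (u : Fin n → Av F3) : (Opr.v k o).sem τ u = (X 0 ^ i * X 1 ^ j : Av F3) • o.sem τ u := by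
  rw [Opr.sem, ← e, mon_ex2 hi hj]

theorem sem_oB {a b : ℕ} (ha : a < 128) (e : 2 * b = a) (o : Opr) (u : Fin n → Av F3) :
    (oB a b o).sem τ u = τ.LB b (o.sem τ u) := by
  have hb : b < 128 := by omega
  rw [oB, Opr.sem, sem_h ha, sem_h hb, sem_h hb, sem_h ha, Tw.LB_apply, e]

theorem sem_id (u : Fin n → Av F3) : Opr.id.sem τ u = u := rfl

theorem sem_add (o o' : Opr) (u : Fin n → Av F3) :
    (Opr.add o o').sem τ u = o.sem τ u + o'.sem τ u := rfl

theorem sem_two (o : Opr) (u : Fin n → Av F3) : (Opr.two o).sem τ u = o.sem τ u + o.sem τ u := rfl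

theorem sem_opO : ∀ (k : ℕ) (u : Fin n → Av F3), (opO k).sem τ u = opL τ k u
  | 0, u => by
    rw [opO, opL, sem_v (i := 1) (j := 0) (by norm_num) (by norm_num) rfl, pow_zero, mul_one,
      sem_id, vs]
  | 1, u => by rw [opO, opL, sem_h (by norm_num), sem_id]
  | 2, u => by rw [opO, opL, sem_oB (a := 2) (b := 1) (by norm_num) rfl, sem_id]
  | 3, u => by rw [opO, opL, sem_h (by norm_num), sem_id]
  | 4, u => by
    rw [opO, opL, sem_add, sem_add, sem_two,
      sem_v (i := 0) (j := 1) (k := 128) (by norm_num) (by norm_num) rfl,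
      sem_v (i := 2) (j := 1) (k := 130) (by norm_num) (by norm_num) rfl,
      sem_v (i := 1) (j := 0) (k := 1) (by norm_num) (by norm_num) rfl, sem_h (by norm_num),
      sem_h (by norm_num), sem_h (by norm_num), sem_id, ← add_smul, ← two_mul]
    simp only [pow_zero, pow_one, one_mul, mul_one]
  | 5, u => by rw [opO, opL, sem_oB (a := 6) (b := 3) (by norm_num) rfl, sem_id]
  | k + 6, u => by
    rw [show opO (k + 6) = oB 18 9 .id from rfl, show opL τ (k + 6) = τ.LB 9 from rfl,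
      sem_oB (a := 18) (b := 9) (by norm_num) rfl, sem_id]

variable {F : FT}

theorem nd_bar (h1 : F.pi = 6) (h2 : F.b = 3) (s t : ℕ) :
    nd (F.bar τ) s t = (F.alv s t).length := by
  rw [nd, ← F.alv_eq τ, FT.m, h1, h2]

theorem rp_bar (h1 : F.pi = 6) (h2 : F.b = 3) (s t : ℕ) : rp (F.bar τ) s t = F.rep τ s t := by
  have h : (F.bar τ).alv 6 3 s t = F.alv s t := by
    rw [← F.alv_eq τ, FT.m, h1, h2]
  rw [rp, h]
  rfl

theorem row_of (h1 : F.pi = 6) (h2 : F.b = 3) {k s t : ℕ} {P : List (List ℕ)}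
    (h : F.Row τ (opO k) s t P) : Row τ (F.bar τ) k s t P := by
  intro i hi
  rw [nd_bar h1 h2] at hi
  have h3 := h i hi
  rw [sem_opO, sd_opO, wt_opO, show F.m = 3 by rw [FT.m, h1, h2]] at h3
  rw [nd_bar h1 h2, rp_bar h1 h2, rp_bar h1 h2]
  exact h3

/-- the test of a list of matrices -/
def rowsB (F : FT) (L : Rows) : Bool :=
  List.rec true (fun q _ r => Bool.rec false r
    (fS q.1 fun k => fS q.2.1 fun s => fS q.2.2.1 fun t => F.prod (opO k) s t q.2.2.2)) L

theorem rowsB_cons (q : ℕ × ℕ × ℕ × List (List ℕ)) (L : Rows) :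
    rowsB F (q :: L) = Bool.rec false (rowsB F L) (fS q.1 fun k => fS q.2.1 fun s =>
      fS q.2.2.1 fun t => F.prod (opO k) s t q.2.2.2) := rfl

theorem rowsB_sound (h1 : F.pi = 6) (h2 : F.b = 3)
    (hP : ∀ o s t P, F.prod o s t P = true → F.Row τ o s t P) {L : Rows}
    (h : rowsB F L = true) : Rows.Ok τ (F.bar τ) L := by
  induction L with
  | nil => exact Rows.Ok.nil _ _
  | cons q L ih =>
    rw [rowsB_cons, fS_eq, fS_eq, fS_eq] at h
    have h4 : ∀ a b : Bool, (Bool.rec false a b : Bool) = true → a = true ∧ b = true := by decide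
    obtain ⟨h5, h6⟩ := h4 _ _ h
    intro r hr
    rcases List.mem_cons.1 hr with rfl | hr
    · exact row_of h1 h2 (hP _ _ _ _ h6)
    · exact ih h5 r hr

end Vale.Agent.P236K.Core
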