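import Vale.Agent.P236K.Core.Tab
import Vale.Agent.P236K.Core.RowB

/-!
# P236K, block Core: the cocycles of the operators and the Leibniz constraints

* `Fam R a y u` : `y k` is a cocycle which acts on `W` by `opL τ k` (no signs), `exists_fam`;
* `Fam.mx`, `Fam.b3t`, `Fam.mx_t`, `Fam.mx_b` : matrices;
* `Fam.edge0`, `Fam.edge1` : the constraints.
-/

set_option linter.unusedSectionVars false

noncomputable section

namespace Vale.Agent.P236K.Core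

open Vale.Agent.P251.F Vale.Agent.P257.H314 Vale.Agent.P236K.SS Vale.Agent.P236K.Alg
  Vale.Agent.P236K.Cert D5 Finset
open Vale.Agent.P251.S (IC)
open Vale.Agent.P251.I (IsT1 bcls)

theorem cupC_neg_right {s σ s' : ℕ} (e : s + σ = s') (z : Cob Laz s) (y : Cob Laz σ) :
    cupC e z (-y) = -cupC e z y := by
  rw [← neg_one_zsmul, cupC_zsmul_right, neg_one_zsmul]

theorem cupC_neg_left {s σ s' : ℕ} (e : s + σ = s') (z : Cob Laz s) (y : Cob Laz σ) :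
    cupC e (-z) y = -cupC e z y := by
  rw [← neg_one_zsmul, cupC_zsmul_left, neg_one_zsmul]

theorem mat_negM (P : List (List ℕ)) (x : V) : mat (negM P) x = -mat P x := by
  rw [negM, mat_map_axL, show ((2 : ℕ) : F) = -1 from rfl, neg_one_smul]

theorem Mx.neg {c : ∀ s : ℕ, ℤ → (Cob Laz s →+ V)} {σ s t s' t' : ℕ} {y : Cob Laz σ}
    {P : List (List ℕ)} (h : Mx c (-y) s t s' t' P) : Mx c y s t s' t' (negM P) := by
  obtain ⟨e, h⟩ := h
  exact ⟨e, fun z hz => by rw [mat_negM, ← h z hz, cupC_neg_right, map_neg, neg_neg]⟩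

theorem Op.neg {σ : ℕ} {v : ℤ} {x : Bi F3} {y : Cob Laz σ} (h : Op σ v (-x) y) : Op σ v x (-y) :=
  ⟨(Op.cy h).neg.wt, (Op.cy h).neg.d, by rw [map_neg, h.cm, neg_neg]⟩

theorem Op0.neg {R : Rel} (X : D5Ax R) {σ τ : ℕ} {x : Bi F3} {y : Cob Laz σ}
    (h : Op0 R σ τ (-x) y) : Op0 R σ τ x (-y) :=
  ⟨Op.neg h.op, by have h1 := X.neg h.d; rwa [neg_zero] at h1⟩

/-- the images of the cocycles -/
def opX : ℕ → Bi F3
  | 0 => vP _ 1
  | 1 => tB _ 1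
  | 2 => bB _ 1
  | 3 => tB _ 3
  | 4 => be1 3 _ 0 (bt2 _)
  | 5 => bB _ 3
  | _ => bB _ 9

theorem Lx_opX {G : Type} [Fintype G] [DecidableEq G] (τ : Tw F3 G) : ∀ (k : ℕ) (u : G → Av F3),
    τ.Lx 3 (opS k) (opX k) u - opL τ k u ∈ JW F3 G (U1 3)
  | 0, u => by rw [opS, opX, opL, Tw.Lx_vP, vs, sub_self]; exact zero_mem _
  | 1, u => by rw [opS, opX, opL, Tw.Lx_tB, sub_self]; exact zero_mem _
  | 2, u => by
    rw [show opS 2 = 2 from rfl, opX, opL, Tw.Lx_bB, sub_self]; exact zero_mem _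
  | 3, u => by rw [opS, opX, opL, Tw.Lx_tB, sub_self]; exact zero_mem _
  | 4, u => by rw [opS, opX, opL, Tw.Lx_be1]; exact Tw.act_bt2_sub u
  | 5, u => by
    rw [show opS 5 = 2 from rfl, opX, opL, Tw.Lx_bB, sub_self]; exact zero_mem _
  | k + 6, u => by
    rw [show opS (k + 6) = 2 from rfl, show opX (k + 6) = bB _ 9 from rfl,
      show opL τ (k + 6) = τ.LB 9 from rfl, Tw.Lx_bB, sub_self]
    exact zero_mem _

/-- the cocycles of the operators -/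
structure Fam (R : Rel) (a : Cob Laz 1) (y : ∀ k, Cob Laz (opS k)) (u : ℤ) : Prop where
  hu : u = 1 ∨ u = -1
  op : ∀ k, Op (opS k) (2 * (opT k : ℤ)) (opX k) (y k)
  d0 : ∀ k < 5, R (opS k) (opS k + 5) (2 * (opT k : ℤ)) (2 * opT k + 2) (y k) 0
  d1 : R 2 7 (2 * ((9 : ℕ) : ℤ)) (2 * (9 : ℕ) + 2) (y 5) (u • cupC (s := 6) (σ := 1) rfl
    (cupC (s := 4) (σ := 2) rfl (cupC (s := 2) (σ := 2) rfl (y 2) (y 2)) (y 2)) (y 1))
  y0 : y 0 = vj 1
  y1 : y 1 = -a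
  y2 : y 2 = -bcls 3 a

/-- the family with given members -/
def famOf (y0 : Cob Laz 0) (y1 : Cob Laz 1) (y2 : Cob Laz 2) (y3 y4 : Cob Laz 1)
    (y5 y6 : Cob Laz 2) : ∀ k, Cob Laz (opS k)
  | 0 => y0
  | 1 => y1
  | 2 => y2
  | 3 => y3
  | 4 => y4
  | 5 => y5
  | _ + 6 => y6

theorem exists_fam {R : Rel} (X : D5Ax R) (hA : J1Alg) {a : Cob Laz 1} (ha : IsT1 3 a) :
    ∃ y u, Fam R a y u := by
  obtain ⟨y3, h3⟩ := exists_op0_h1 X
  obtain ⟨y4, h4⟩ := exists_op0_bt2 X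
  obtain ⟨y5, u, hu, h5, hd⟩ := exists_op_seed X hA ha
  obtain ⟨y6, h6⟩ := exists_op_b2
  have h0 := op0_vj X 1
  have h1 := (op0_t X ha).neg X
  have h2 := (op0_b X ha).neg X
  refine ⟨famOf (vj 1) (-a) (-bcls 3 a) y3 y4 y5 y6, u, hu, fun k => ?_, fun k hk => ?_, ?_,
    rfl, rfl, rfl⟩
  · match k with
    | 0 => exact h0.op
    | 1 => exact h1.op
    | 2 => exact h2.op
    | 3 => exact h3.op
    | 4 => exact h4.op
    | 5 => exact h5
    | _ + 6 => exact h6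
  · match k, hk with
    | 0, _ => exact h0.d
    | 1, _ => exact h1.d
    | 2, _ => exact h2.d
    | 3, _ => exact h3.d
    | 4, _ => exact h4.d
  · simp only [famOf, cupC_neg_left, cupC_neg_right, neg_neg]
    exact hd

namespace Fam

variable {R : Rel} {a : Cob Laz 1} {y : ∀ k, Cob Laz (opS k)} {u : ℤ} (Y : Fam R a y u)

include Y

theorem cy (k : ℕ) : Cy (2 * (opT k : ℤ)) (y k) := Op.cy (Y.op k)

section Tab

variable {G : Type} [Fintype G] [DecidableEq G] {τ : Tw F3 G} {B : Bar G} {N : ℤ}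
  {S T k s t : ℕ} (H : Tab τ B N S T) {P : List (List ℕ)} (hs : s + opS k < S)
  (ht : t + opT k ≤ T) (hl : lenB (nd B (s + opS k) (t + opT k)) P = true)

include H hs ht hl

theorem mx (h : Row τ B k s t P) : Mx (cB τ B) (y k) s t (s + opS k) (t + opT k) P :=
  H.mx hs (by omega) ht rfl (by push_cast; ring) (Y.cy k) hl
    (h.rowT.congr fun w => by rw [(Y.op k).cm]; exact Lx_opX τ k w)

theorem mx_src (h : nd B s t = 0) : Mx (cB τ B) (y k) s t (s + opS k) (t + opT k) P :=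
  Y.mx H hs ht hl fun i hi => absurd hi (by omega)

theorem mx_tgt (h : nd B (s + opS k) (t + opT k) = 0) :
    Mx (cB τ B) (y k) s t (s + opS k) (t + opT k) P :=
  ⟨rfl, H.repC_zero hs ht rfl _ hl h⟩

end Tab

variable {j : ℕ} {c : ∀ s : ℕ, ℤ → (Cob Laz s →+ V)} {d : ℕ → ℤ → V →ₗ[F] V} {s t s' t' : ℕ}
  {P Q P₁ P₂ P₃ P₄ : List (List ℕ)}

theorem mx_v (h : Mx c (y 0) s t s' t' P) : Mx c (vj 1) s t s' t' P := Y.y0 ▸ h

theorem mx_t (h : Mx c (y 1) s t s' t' P) : Mx c a s t s' t' (negM P) := Mx.neg (Y.y1 ▸ h)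

theorem mx_b (h : Mx c (y 2) s t s' t' P) : Mx c (bcls 3 a) s t s' t' (negM P) :=
  Mx.neg (Y.y2 ▸ h)

variable (H : Spec R j c d) (X : D5Ax R)

include H X

theorem edge0 {k : ℕ} (hk : k < 5) (A : Nd j c s t) (B : Nd j c (s + 5) (t + 1))
    (A' : Nd j c (s + opS k) (t + opT k)) (B' : Nd j c (s + opS k + 5) (t + opT k + 1))
    (hP : Mx c (y k) s t (s + opS k) (t + opT k) P)
    (hQ : Mx c (y k) (s + 5) (t + 1) (s + 5 + opS k) (t + 1 + opT k) Q) :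
    (sysOf c d u Y.hu).Edge ⟨s, t, s + opS k, t + opT k, P, Q, []⟩ :=
  H.edge0 X (Y.d0 k hk) rfl A B A' B' hP
    (by rwa [Nat.add_right_comm s 5, Nat.add_right_comm t 1] at hQ)

theorem edge1 (A : Nd j c s t) (B : Nd j c (s + 5) (t + 1)) (A' : Nd j c (s + 2) (t + 9))
    (B' : Nd j c (s + 7) (t + 10)) (hP : Mx c (y 5) s t (s + 2) (t + 9) P)
    (hQ : Mx c (y 5) (s + 5) (t + 1) (s + 7) (t + 10) Q)
    (h₁ : Mx c (y 2) s t (s + 2) (t + 3) P₁) (h₂ : Mx c (y 2) (s + 2) (t + 3) (s + 4) (t + 6) P₂)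
    (h₃ : Mx c (y 2) (s + 4) (t + 6) (s + 6) (t + 9) P₃)
    (h₄ : Mx c (y 1) (s + 6) (t + 9) (s + 7) (t + 10) P₄) :
    (sysOf c d u Y.hu).Edge ⟨s, t, s + 2, t + 9, P, Q,
      (((P₁.map fun r => vm r P₂).map fun r => vm r P₃).map fun r => vm r P₄).map
        fun r => axL (s % 2 + 1) r []⟩ := by
  have c2 := (Y.cy 2).cup (Y.cy 2) (s' := 4) rfl (w' := 2 * ((6 : ℕ) : ℤ)) rfl
  have c3 := c2.cup (Y.cy 2) (s' := 6) rfl (w' := 2 * ((9 : ℕ) : ℤ)) rfl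
  exact H.edge1 X (σ := 2) (σ' := 7) rfl Y.d1 rfl A B A' B' hP hQ
    (((h₁.comp h₂ rfl rfl (Y.cy 2)).comp h₃ rfl rfl c2).comp h₄ rfl rfl c3)

end Fam

end Vale.Agent.P236K.Core
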