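import Vale.Agent.P236K.Core.Glue
import Vale.Agent.P236K.Core.Mid

/-!
# P236K, block Core: the tables of the glue from a barcode and a list of matrices without signs

* `sgM k P`: the matrix with the sign of `oX k`;
* `tbOf F L`: the tables, `itf_of`: their meaning.
-/

set_option linter.unusedSectionVars false

noncomputable section

namespace Vale.Agent.P236K.Core

open Vale.Agent.P251.F Vale.Agent.P236K.SS Vale.Agent.P236K.Alg Vale.Agent.P236K.Cert D5

/-- the matrix with its sign: `t = -h₀`, `b = -b₀` -/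
def sgM (k : ℕ) (P : Mz) : Mz := cond (Nat.beq k 1 || Nat.beq k 2) (negM P) P

/-- the matrices with their signs -/
def sgR (L : Rows) : Rows := L.map fun r => (r.1, r.2.1, r.2.2.1, sgM r.1 r.2.2.2)

/-- the combinatorial part of the barcode -/
def barC (F : FT) : Bar Unit := F.bar0 Unit fun _ _ _ _ => 0

/-- the tables -/
def tbOf (F : FT) (L : Rows) : Tb where
  S := F.S
  T := F.T
  nd := nd (barC F)
  injB s t := Nat.blt s F.S && (Nat.ble t F.T && injB (barC F) s t)
  surB s t := Nat.blt (s + 1) F.S && (Nat.ble t F.T && surB (barC F) s t)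
  rows := sgR L

/-- the shape of the matrices -/
def shB (F : FT) (L : Rows) : Bool :=
  L.all fun r => (Nat.ble r.1 5 && Nat.blt (r.2.1 + oS r.1) F.S) &&
    (Nat.ble (r.2.2.1 + oT r.1) F.T &&
      lenB (nd (barC F) (r.2.1 + oS r.1) (r.2.2.1 + oT r.1)) r.2.2.2)

theorem Tab.mxK {G : Type} [Fintype G] [DecidableEq G] {τ : Tw F3 G} {B : Bar G} {N : ℤ}
    {S T : ℕ} (H : Tab τ B N S T) {k s t : ℕ} {P : Mz} (hk : k ≤ 5) (hs : s + oS k < S)
    (ht : t + oT k ≤ T) (hl : lenB (nd B (s + oS k) (t + oT k)) P = true)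
    (h : Row τ B k s t P) : MxK (cB τ B) k s t (sgM k P) := by
  have key : ∀ k, s + opS k < S → t + opT k ≤ T → lenB (nd B (s + opS k) (t + opT k)) P = true →
      Row τ B k s t P → ∀ y : Cob Laz (opS k), Op (opS k) (2 * (opT k : ℤ)) (opX k) y →
        Mx (cB τ B) y s t (s + opS k) (t + opT k) P := fun k hs ht hl h y hy =>
    H.mx hs (by omega) ht rfl (by push_cast; ring) (Op.cy hy) hl
      (h.rowT.congr fun w => by rw [hy.cm]; exact Lx_opX τ k w)
  intro y hy
  match k, hk with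
  | 0, _ => exact key 0 hs ht hl h y hy
  | 1, _ => exact Mx.neg (key 1 hs ht hl h (-y) (Op.neg hy))
  | 2, _ => exact Mx.neg (key 2 hs ht hl h (-y) (Op.neg hy))
  | 3, _ => exact key 3 hs ht hl h y hy
  | 4, _ => exact key 4 hs ht hl h y hy
  | 5, _ => exact key 5 hs ht hl h y hy

theorem sgM_nil (k : ℕ) : sgM k [] = [] := by
  rw [sgM]
  cases (Nat.beq k 1 || Nat.beq k 2) <;> rfl

theorem mxK_five {c : ∀ s : ℕ, ℤ → (Cob Laz s →+ V)} {s t : ℕ} {P : Mz} (k : ℕ)
    (h : MxK c 5 s t P) : MxK c (k + 5) s t P := h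

/-- **The meaning of the tables.** -/
theorem itf_of {n : ℕ} {τ : Tw F3 (Fin n)} {F : FT} {N : ℤ} (H : Tab τ (F.bar τ) N F.S F.T)
    {L : Rows} (hL : Rows.Ok τ (F.bar τ) L) (hS : shB F L = true) :
    Itf 3 (cB τ (F.bar τ)) (tbOf F L) where
  nd _ hs _ ht := H.node hs ht
  dim _ hs _ ht := H.dim hs ht
  sur s t h := by
    simp only [tbOf, Bool.and_eq_true, Nat.blt_eq, Nat.ble_eq] at h
    exact H.sur h.1 h.2.1 h.2.2
  inj s t h := by
    simp only [tbOf, Bool.and_eq_true, Nat.blt_eq, Nat.ble_eq] at h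
    exact H.injC h.1 h.2.1 h.2.2
  mx r hr := by
    obtain ⟨r, h1, rfl⟩ := List.mem_map.1 hr
    have h := List.all_eq_true.1 hS r h1
    simp only [Bool.and_eq_true, Nat.blt_eq, Nat.ble_eq] at h
    exact H.mxK h.1.1 h.1.2 h.2.1 h.2.2 (hL r h1)
  mx0 k s t hs ht h0 := by
    have key : ∀ k ≤ 5, s + oS k < F.S → t + oT k ≤ F.T → MxK (cB τ (F.bar τ)) k s t [] :=
      fun k hk hs ht => sgM_nil k ▸ H.mxK hk hs ht rfl fun i hi => absurd hi (by
        rw [show nd (F.bar τ) s t = 0 from h0]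
        omega)
    rcases Nat.lt_or_ge k 5 with hk | hk
    · exact key k hk.le hs ht
    · obtain ⟨k, rfl⟩ := Nat.exists_eq_add_of_le' hk
      exact mxK_five k (key 5 le_rfl hs ht)

end Vale.Agent.P236K.Core
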