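import Mathlib.Data.ZMod.Basic
import Mathlib.LinearAlgebra.Pi
import Mathlib.Algebra.Field.ZMod
import Mathlib.Tactic.LinearCombination
import Mathlib.Data.List.GetD

/-!
# P236K / Core / D5C : the linear algebra of the `d₅` differentials, and its checker

`Sys` is a family of linear maps `d s t` on one space `V`, with subspaces `im s t`.
A certificate derives values of `d` from the Leibniz constraints `Edge` and from `d d = 0`.
-/

namespace Vale.Agent.P236K.Core.D5

/-- the ground field -/
abbrev F : Type := ZMod 3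

/-- the space of coordinates -/
abbrev V : Type := ℕ → F

/-- the vector of a list -/
def vec (l : List ℕ) : V := fun i => ((l.getD i 0 : ℕ) : F)

/-- the basis vectors -/
def ee (i : ℕ) : V := Pi.single i 1

/-- the vector of a list, starting at the position `k` -/
def vecA : List ℕ → ℕ → V
  | [], _ => 0
  | c :: l, k => (c : F) • ee k + vecA l (k + 1)

/-- the functional of a list, starting at the position `k` -/
def dotA : List ℕ → ℕ → (V →ₗ[F] F)
  | [], _ => 0
  | c :: l, k => (c : F) • LinearMap.proj k + dotA l (k + 1)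

/-- the linear map of a list of rows, starting at the position `k` -/
def matA : List (List ℕ) → ℕ → (V →ₗ[F] V)
  | [], _ => 0
  | r :: M, k => (LinearMap.proj k : V →ₗ[F] F).smulRight (vec r) + matA M (k + 1)

/-- the functional of a list -/
def dot (l : List ℕ) : V →ₗ[F] F := dotA l 0

/-- the linear map whose value on `ee i` is the row `i` -/
def mat (M : List (List ℕ)) : V →ₗ[F] V := matA M 0

theorem dotA_cons (c : ℕ) (l : List ℕ) (k : ℕ) (x : V) :
    dotA (c :: l) k x = (c : F) * x k + dotA l (k + 1) x := rfl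

theorem matA_cons (r : List ℕ) (M : List (List ℕ)) (k : ℕ) (x : V) :
    matA (r :: M) k x = x k • vec r + matA M (k + 1) x := rfl

theorem vec_nil : vec [] = 0 := funext fun _ => by simp [vec]

theorem vec_cons_zero (c : ℕ) (l : List ℕ) : vec (c :: l) 0 = c := rfl

theorem vec_cons_succ (c : ℕ) (l : List ℕ) (i : ℕ) : vec (c :: l) (i + 1) = vec l i := rfl

theorem vec_of_le {l : List ℕ} {i : ℕ} (h : l.length ≤ i) : vec l i = 0 := by
  simp [vec, List.getD_eq_getElem?_getD, List.getElem?_eq_none h]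

theorem vecA_lt (l : List ℕ) {k i : ℕ} (h : i < k) : vecA l k i = 0 := by
  induction l generalizing k with
  | nil => rfl
  | cons c l ih =>
    rw [vecA, Pi.add_apply, ih (by omega), Pi.smul_apply, ee, Pi.single_eq_of_ne (by omega),
      smul_zero, add_zero]

theorem vecA_add (l : List ℕ) (k i : ℕ) : vecA l k (k + i) = vec l i := by
  induction l generalizing k i with
  | nil => rw [vec_nil]; rfl
  | cons c l ih =>
    rw [vecA, Pi.add_apply, Pi.smul_apply, ee]
    cases i with
    | zero => rw [vecA_lt l (by omega), Nat.add_zero, Pi.single_eq_same, vec_cons_zero]; simp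
    | succ i =>
      rw [Pi.single_eq_of_ne (by omega), smul_zero, zero_add, vec_cons_succ,
        show k + (i + 1) = k + 1 + i by omega, ih]

theorem vecA_zero (l : List ℕ) : vecA l 0 = vec l := funext fun i => by
  rw [← vecA_add l 0 i, Nat.zero_add]

theorem dotA_shift (l : List ℕ) (k : ℕ) (x : V) : dotA l k x = dot l fun i => x (k + i) := by
  have key : ∀ (l : List ℕ) (k m : ℕ), dotA l (k + m) x = dotA l m fun i => x (k + i) := by
    intro l
    induction l with
    | nil => exact fun _ _ => rfl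
    | cons c l ih => intro k m; rw [dotA_cons, dotA_cons, Nat.add_assoc, ih]
  exact key l k 0

theorem dot_nil (x : V) : dot [] x = 0 := rfl

theorem dot_cons (c : ℕ) (l : List ℕ) (x : V) :
    dot (c :: l) x = (c : F) * x 0 + dot l fun i => x (i + 1) := by
  rw [dot, dotA_cons, dotA_shift]
  simp only [Nat.zero_add, Nat.add_comm 1]

theorem mat_nil (x : V) : mat [] x = 0 := rfl

theorem mat_cons (r : List ℕ) (M : List (List ℕ)) (x : V) :
    mat (r :: M) x = x 0 • vec r + mat M fun i => x (i + 1) := by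
  have key : ∀ (M : List (List ℕ)) (m : ℕ), matA M (m + 1) x = matA M m fun i => x (i + 1) := by
    intro M
    induction M with
    | nil => exact fun _ => rfl
    | cons r M ih => intro m; rw [matA_cons, matA_cons, ih]
  rw [mat, matA_cons, key, mat]

theorem dot_eq_sum (l : List ℕ) {n : ℕ} (h : l.length ≤ n) (x : V) :
    dot l x = ∑ i ∈ Finset.range n, vec l i * x i := by
  induction l generalizing n x with
  | nil => simp [dot_nil, vec_nil]
  | cons c l ih =>
    obtain ⟨n, rfl⟩ : ∃ m, n = m + 1 := ⟨n - 1, by simp at h; omega⟩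
    rw [dot_cons, Finset.sum_range_succ', ih (n := n) (by simpa using h), add_comm]
    rfl

theorem mat_eq_sum (M : List (List ℕ)) {n : ℕ} (h : M.length ≤ n) (x : V) :
    mat M x = ∑ i ∈ Finset.range n, x i • vec (M.getD i []) := by
  induction M generalizing n x with
  | nil => simp [mat_nil, vec_nil]
  | cons c l ih =>
    obtain ⟨n, rfl⟩ : ∃ m, n = m + 1 := ⟨n - 1, by simp at h; omega⟩
    rw [mat_cons, Finset.sum_range_succ', ih (n := n) (by simpa using h), add_comm]
    rfl

theorem cast_mod (c : ℕ) : ((c % 3 : ℕ) : F) = c := ZMod.natCast_mod c 3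

/-! ### lists -/

/-- `c * x + y` -/
def axL (c : ℕ) : List ℕ → List ℕ → List ℕ
  | [], y => y
  | a :: x, [] => (c * a % 3) :: axL c x []
  | a :: x, b :: y => ((c * a + b) % 3) :: axL c x y

theorem vec_ext {x y : V} (h0 : x 0 = y 0) (h : ∀ i, x (i + 1) = y (i + 1)) : x = y :=
  funext fun i => by cases i with
    | zero => exact h0
    | succ i => exact h i

theorem vec_axL (c : ℕ) (x y : List ℕ) : vec (axL c x y) = (c : F) • vec x + vec y := by
  induction x generalizing y with
  | nil => rw [vec_nil, smul_zero, zero_add]; rfl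
  | cons a x ih =>
    cases y with
    | nil =>
      refine vec_ext ?_ fun i => ?_
      · simp [axL, vec_cons_zero, vec_nil]
      · simp [axL, vec_cons_succ, vec_nil, ih]
    | cons b y =>
      refine vec_ext ?_ fun i => ?_
      · simp [axL, vec_cons_zero]
      · simp [axL, vec_cons_succ, ih]

theorem dot_congr {l l' : List ℕ} (h : vec l = vec l') (x : V) : dot l x = dot l' x := by
  rw [dot_eq_sum l (le_max_left _ l'.length), dot_eq_sum l' (le_max_right l.length _), h]

theorem dot_axL (c : ℕ) (l l' : List ℕ) (x : V) :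
    dot (axL c l l') x = (c : F) * dot l x + dot l' x := by
  have h1 : l.length ≤ l.length + l'.length + (axL c l l').length := by omega
  have h2 : l'.length ≤ l.length + l'.length + (axL c l l').length := by omega
  have h3 : (axL c l l').length ≤ l.length + l'.length + (axL c l l').length := by omega
  rw [dot_eq_sum _ h1, dot_eq_sum _ h2, dot_eq_sum _ h3, vec_axL, Finset.mul_sum,
    ← Finset.sum_add_distrib]
  refine Finset.sum_congr rfl fun i _ => ?_
  rw [Pi.add_apply, Pi.smul_apply, smul_eq_mul]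
  ring

/-- vector times matrix -/
def vm : List ℕ → List (List ℕ) → List ℕ
  | c :: a, r :: M => axL c r (vm a M)
  | _, _ => []

theorem vec_vm (a : List ℕ) (M : List (List ℕ)) : vec (vm a M) = mat M (vec a) := by
  induction M generalizing a with
  | nil => cases a <;> exact vec_nil
  | cons r M ih =>
    cases a with
    | nil => rw [vec_nil, map_zero]; exact vec_nil
    | cons c a => rw [vm, vec_axL, ih, mat_cons]; rfl

theorem dot_vm (a : List ℕ) (M : List (List ℕ)) {x : V} (h : ∀ l ∈ M, dot l x = 0) :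
    dot (vm a M) x = 0 := by
  induction M generalizing a with
  | nil => cases a <;> rfl
  | cons r M ih =>
    cases a with
    | nil => rfl
    | cons c a =>
      rw [vm, dot_axL, h r (by simp), ih a fun l hl => h l (by simp [hl]), mul_zero, add_zero]

/-- scalar product -/
def dotL : List ℕ → List ℕ → ℕ
  | c :: l, b :: r => (c * b + dotL l r) % 3
  | _, _ => 0

theorem cast_dotL (l r : List ℕ) : (dotL l r : F) = dot l (vec r) := by
  induction l generalizing r with
  | nil => cases r <;> simp [dotL, dot_nil]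
  | cons c l ih =>
    cases r with
    | nil => rw [vec_nil, map_zero]; simp [dotL]
    | cons b r => rw [dotL, cast_mod, dot_cons, Nat.cast_add, Nat.cast_mul, ih]; rfl

/-- matrix times functional -/
def mv (M : List (List ℕ)) (l : List ℕ) : List ℕ := M.map (dotL l)

theorem dot_mv (M : List (List ℕ)) (l : List ℕ) (x : V) : dot (mv M l) x = dot l (mat M x) := by
  induction M generalizing x with
  | nil => rw [mat_nil, map_zero]; rfl
  | cons r M ih =>
    rw [mat_cons, map_add, map_smul, ← ih, mv, List.map_cons, dot_cons, cast_dotL, smul_eq_mul,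
      mul_comm]
    rfl

/-- the list of the basis vector -/
def unit : ℕ → List ℕ
  | 0 => [1]
  | j + 1 => 0 :: unit j

theorem dot_unit (j : ℕ) (x : V) : dot (unit j) x = x j := by
  induction j generalizing x with
  | zero => simp [unit, dot_cons, dot_nil]
  | succ j ih => simp [unit, dot_cons, ih]

theorem vec_unit (j : ℕ) : vec (unit j) = ee j := by
  induction j with
  | zero =>
    refine vec_ext ?_ fun i => ?_
    · simp [unit, vec_cons_zero, ee]
    · simp [unit, vec_cons_succ, ee, vec_nil]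
  | succ j ih =>
    refine vec_ext ?_ fun i => ?_
    · simp [unit, vec_cons_zero, ee]
    · rw [unit, vec_cons_succ, ih]
      simp [ee, Pi.single_apply]

/-- all entries vanish -/
def zeroL (l : List ℕ) : Bool := l.all fun c => Nat.beq (c % 3) 0

theorem cast_eq_zero {c : ℕ} (h : Nat.beq (c % 3) 0 = true) : (c : F) = 0 := by
  rw [← cast_mod, Nat.eq_of_beq_eq_true h, Nat.cast_zero]

theorem vec_zeroL {l : List ℕ} (h : zeroL l = true) : vec l = 0 := by
  induction l with
  | nil => exact vec_nil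
  | cons c l ih =>
    rw [zeroL, List.all_cons, Bool.and_eq_true] at h
    exact vec_ext (cast_eq_zero h.1) fun i => congrFun (ih h.2) i

theorem dot_zeroL {l : List ℕ} (h : zeroL l = true) (x : V) : dot l x = 0 :=
  dot_congr ((vec_zeroL h).trans vec_nil.symm) x

/-! ### linear forms in the unknowns -/

/-- linear forms -/
abbrev Fm : Type := List (ℕ × ℕ)

/-- the value of a form -/
def ev (X : ℕ → F) : Fm → F
  | [] => 0
  | p :: l => (p.2 : F) * X p.1 + ev X l

/-- a new term -/
def cns (v c : ℕ) (l : Fm) : Fm := cond (Nat.beq (c % 3) 0) l ((v, c % 3) :: l)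

/-- one step of the merge -/
def aux (v c : ℕ) (k : Fm → Fm) : Fm → Fm
  | [] => (v, c) :: k []
  | p :: ys => cond (Nat.ble (p.1 + 1) v) (p :: aux v c k ys)
      (cond (Nat.beq p.1 v) (cns v (c + p.2) (k ys)) ((v, c) :: k (p :: ys)))

/-- the sum of two forms -/
def mrg : Fm → Fm → Fm
  | [] => fun ys => ys
  | p :: xs => aux p.1 p.2 (mrg xs)

/-- a multiple of a form -/
def scl (c : ℕ) : Fm → Fm
  | [] => []
  | p :: l => cns p.1 (c * p.2) (scl c l)

/-- the form `∑ j, c φ_j X (b + j)`, followed by `r` -/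
def rowF (c : ℕ) (r : Fm) : List ℕ → ℕ → Fm
  | [], _ => r
  | e :: φ, b => cns b (c * e) (rowF c r φ (b + 1))

/-- the form `∑ i j, a_i φ_j X (b + 32 i + j)` -/
def matF (φ : List ℕ) : List ℕ → ℕ → Fm
  | [], _ => []
  | c :: a, b => cond (Nat.beq (c % 3) 0) (matF φ a (b + 32)) (rowF c (matF φ a (b + 32)) φ b)

/-- the form of `φ (d s t a)` -/
def fD (s t : ℕ) (a φ : List ℕ) : Fm := matF φ a (1 + (s * 128 + t) * 1024)

/-- the form of `φ (d s t a) - c u` -/
def fact (s t : ℕ) (a φ : List ℕ) (c : ℕ) : Fm := cns 0 (2 * c) (fD s t a φ)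

/-- equality test -/
def eqF : Fm → Fm → Bool
  | [], [] => true
  | p :: l, q :: l' => Nat.beq p.1 q.1 && (Nat.beq p.2 q.2 && eqF l l')
  | _, _ => false

section ev

variable (X : ℕ → F)

theorem ev_cns (v c : ℕ) (l : Fm) : ev X (cns v c l) = (c : F) * X v + ev X l := by
  rw [cns]
  cases h : Nat.beq (c % 3) 0 with
  | true => rw [cast_eq_zero h, zero_mul, zero_add]; rfl
  | false => rw [← cast_mod c]; rfl

theorem ev_aux (v c : ℕ) {k : Fm → Fm} {z : F} (hk : ∀ ys, ev X (k ys) = z + ev X ys) (ys : Fm) :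
    ev X (aux v c k ys) = (c : F) * X v + z + ev X ys := by
  induction ys with
  | nil => exact (congrArg ((c : F) * X v + ·) (hk [])).trans (add_assoc _ _ _).symm
  | cons p ys ih =>
    rw [aux]
    cases Nat.ble (p.1 + 1) v with
    | true => rw [cond_true, ev, ih, ev]; ring
    | false =>
      rw [cond_false]
      cases h : Nat.beq p.1 v with
      | true => rw [cond_true, ev_cns, hk, ev, Nat.eq_of_beq_eq_true h]; push_cast; ring
      | false => rw [cond_false, ev, hk, add_assoc]

theorem ev_mrg (xs ys : Fm) : ev X (mrg xs ys) = ev X xs + ev X ys := by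
  induction xs generalizing ys with
  | nil => exact (zero_add _).symm
  | cons p xs ih => rw [mrg, ev_aux X _ _ ih, ev]

theorem ev_scl (c : ℕ) (l : Fm) : ev X (scl c l) = (c : F) * ev X l := by
  induction l with
  | nil => exact (mul_zero _).symm
  | cons p l ih => rw [scl, ev_cns, ih, ev]; push_cast; ring

theorem ev_rowF (c : ℕ) (r : Fm) (φ : List ℕ) (b : ℕ) :
    ev X (rowF c r φ b) = (c : F) * dot φ (fun j => X (b + j)) + ev X r := by
  induction φ generalizing b with
  | nil => rw [dot_nil, mul_zero, zero_add]; rfl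
  | cons e φ ih =>
    rw [rowF, ev_cns, ih, dot_cons]
    simp only [Nat.add_assoc, Nat.add_comm 1, Nat.add_zero]
    push_cast
    ring

theorem eq_of_eqF {l l' : Fm} (h : eqF l l' = true) : l = l' := by
  induction l generalizing l' with
  | nil => cases l' with
    | nil => rfl
    | cons _ _ => exact absurd h (by simp [eqF])
  | cons p l ih => cases l' with
    | nil => exact absurd h (by simp [eqF])
    | cons q l' =>
      simp only [eqF, Bool.and_eq_true] at h
      rw [ih h.2.2, Prod.ext (Nat.eq_of_beq_eq_true h.1) (Nat.eq_of_beq_eq_true h.2.1)]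

theorem dot_congr_lt (φ : List ℕ) {x y : V} (h : ∀ j < φ.length, x j = y j) :
    dot φ x = dot φ y := by
  rw [dot_eq_sum φ le_rfl, dot_eq_sum φ le_rfl]
  exact Finset.sum_congr rfl fun j hj => by rw [h j (Finset.mem_range.1 hj)]

theorem ev_matF (f : V →ₗ[F] V) (b₀ : ℕ) (hX : ∀ i < 32, ∀ j < 32, X (b₀ + 32 * i + j) = f (ee i) j)
    {φ : List ℕ} (hφ : φ.length ≤ 32) (a : List ℕ) (k : ℕ) (ha : k + a.length ≤ 32) :
    ev X (matF φ a (b₀ + 32 * k)) = dot φ (f (vecA a k)) := by
  induction a generalizing k with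
  | nil => rw [vecA, map_zero, map_zero]; rfl
  | cons c a ih =>
    rw [List.length_cons] at ha
    have h1 := ih (k + 1) (by omega)
    rw [show b₀ + 32 * (k + 1) = b₀ + 32 * k + 32 by ring] at h1
    rw [matF, vecA, map_add, map_add, map_smul, map_smul, ← h1]
    cases h : Nat.beq (c % 3) 0 with
    | true => rw [cast_eq_zero h, zero_smul, zero_add]; rfl
    | false =>
      rw [cond_false, ev_rowF, smul_eq_mul,
        dot_congr_lt φ fun j hj => hX k (by omega) j (by omega)]

end ev

/-! ### systems -/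

/-- a family of differentials in coordinates -/
structure Sys where
  /-- the differential -/
  d : ℕ → ℕ → (V →ₗ[F] V)
  /-- the coordinates of the cocycles -/
  im : ℕ → ℕ → Submodule F V
  /-- the global sign -/
  u : F
  hu : u * u = 1

/-- the data of a Leibniz constraint -/
structure Ed where
  /-- source -/
  s : ℕ
  /-- source -/
  t : ℕ
  /-- target -/
  s' : ℕ
  /-- target -/
  t' : ℕ
  /-- the matrix at the source -/
  P : List (List ℕ)
  /-- the matrix at the target of `d` -/
  Q : List (List ℕ)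
  /-- the correction -/
  R : List (List ℕ)

namespace Sys

variable (S : Sys)

/-- only the first `n` coordinates occur -/
def Dim (s t n : ℕ) : Prop := ∀ x ∈ S.im s t, ∀ j, n ≤ j → x j = 0

/-- the first `n` basis vectors occur -/
def Sur (s t n : ℕ) : Prop := ∀ i < n, ee i ∈ S.im s t

/-- `d` maps cocycles to cocycles -/
def Map (s t : ℕ) : Prop := ∀ x ∈ S.im s t, S.d s t x ∈ S.im (s + 5) (t + 1)

/-- `d d = 0` -/
def DD (s t : ℕ) : Prop := ∀ x ∈ S.im s t, S.d (s + 5) (t + 1) (S.d s t x) = 0

/-- the Leibniz constraint -/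
def Edge (e : Ed) : Prop :=
  ∀ x ∈ S.im e.s e.t, S.d e.s' e.t' (mat e.P x) = mat e.Q (S.d e.s e.t x) + S.u • mat e.R x

/-- a value of `d` -/
def Val (s t : ℕ) (a b : List ℕ) : Prop := vec a ∈ S.im s t ∧ S.d s t (vec a) = S.u • vec b

/-- the cycles killed by the functionals of `L` are boundaries -/
def Kill (s t : ℕ) (L : List (List ℕ)) : Prop :=
  ∀ x ∈ S.im (s + 5) (t + 1), S.d (s + 5) (t + 1) x = 0 → (∀ l ∈ L, dot l x = 0) →
    ∃ y ∈ S.im s t, S.d s t y = x

/-- `l` does not vanish on the cycles `c r + A e` -/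
def NZ (s t : ℕ) (l : List ℕ) (A : List (List ℕ)) (r : List ℕ) : Prop :=
  ∀ (e : V) (c : F), c ≠ 0 → c • vec r + mat A e ∈ S.im s t →
    S.d s t (c • vec r + mat A e) = 0 → dot l (c • vec r + mat A e) ≠ 0

/-- the unknowns -/
def X (v : ℕ) : F :=
  if v = 0 then S.u else
    S.d ((v - 1) / 1024 / 128) ((v - 1) / 1024 % 128) (ee ((v - 1) % 1024 / 32)) ((v - 1) % 32)

/-- the bounds of the encoding -/
def bd (t : ℕ) (a φ : List ℕ) : Bool :=
  Nat.ble t 127 && (Nat.ble a.length 32 && Nat.ble φ.length 32)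

theorem ev_fD {s t : ℕ} {a φ : List ℕ} (h : bd t a φ = true) :
    ev S.X (fD s t a φ) = dot φ (S.d s t (vec a)) := by
  simp only [bd, Bool.and_eq_true, Nat.ble_eq] at h
  rw [← vecA_zero]
  refine ev_matF S.X (S.d s t) (1 + (s * 128 + t) * 1024) (fun i hi j hj => ?_) h.2.2 a 0
    (by omega)
  rw [X, if_neg (by omega),
    show (1 + (s * 128 + t) * 1024 + 32 * i + j - 1) / 1024 / 128 = s by omega,
    show (1 + (s * 128 + t) * 1024 + 32 * i + j - 1) / 1024 % 128 = t by omega,
    show (1 + (s * 128 + t) * 1024 + 32 * i + j - 1) % 1024 / 32 = i by omega,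
    show (1 + (s * 128 + t) * 1024 + 32 * i + j - 1) % 32 = j by omega]

theorem ev_fact {s t : ℕ} {a φ : List ℕ} (h : bd t a φ = true) (c : ℕ) :
    ev S.X (fact s t a φ c) = dot φ (S.d s t (vec a)) - c * S.u := by
  rw [fact, ev_cns, S.ev_fD h, X, if_pos rfl]
  have h3 : (3 : F) = 0 := rfl
  push_cast
  linear_combination ((c : F) * S.u) * h3

variable {S}

theorem Sur.vec_mem {s t n : ℕ} (h : S.Sur s t n) {a : List ℕ} (ha : a.length ≤ n) :
    vec a ∈ S.im s t := by
  have key : ∀ (a : List ℕ) (k : ℕ), k + a.length ≤ n → vecA a k ∈ S.im s t := by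
    intro a
    induction a with
    | nil => exact fun _ _ => zero_mem _
    | cons c a ih =>
      intro k hk
      rw [List.length_cons] at hk
      exact add_mem (Submodule.smul_mem _ _ (h k (by omega))) (ih (k + 1) (by omega))
  rw [← vecA_zero]
  exact key a 0 (by omega)

theorem eq_sum {x : V} {n : ℕ} (h : ∀ j, n ≤ j → x j = 0) :
    x = ∑ i ∈ Finset.range n, x i • ee i := by
  funext j
  rw [Finset.sum_apply]
  simp only [Pi.smul_apply, ee, Pi.single_apply, smul_eq_mul, mul_ite, mul_one, mul_zero,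
    Finset.sum_ite_eq, Finset.mem_range]
  split_ifs with hj
  · rfl
  · exact h j (by omega)

end Sys

/-! ### certificates -/

/-- the hypotheses used by a certificate -/
structure Ctx where
  /-- nodes with `Dim` -/
  dims : List (ℕ × ℕ × ℕ)
  /-- nodes with `Sur` -/
  surs : List (ℕ × ℕ × ℕ)
  /-- nodes with `Map` and `DD` -/
  dds : List (ℕ × ℕ)
  /-- nodes with `Map` -/
  maps : List (ℕ × ℕ)
  /-- the Leibniz constraints -/
  eds : List Ed

/-- the hypotheses hold -/
structure Ctx.Ok (Γ : Ctx) (S : Sys) : Prop where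
  dim : ∀ p ∈ Γ.dims, S.Dim p.1 p.2.1 p.2.2
  sur : ∀ p ∈ Γ.surs, S.Sur p.1 p.2.1 p.2.2
  dd : ∀ p ∈ Γ.dds, S.Map p.1 p.2 ∧ S.DD p.1 p.2
  map : ∀ p ∈ Γ.maps, S.Map p.1 p.2
  edge : ∀ e ∈ Γ.eds, S.Edge e

/-- membership -/
def mem2 (L : List (ℕ × ℕ)) (s t : ℕ) : Bool := L.any fun p => Nat.beq p.1 s && Nat.beq p.2 t

/-- membership -/
def mem3 (L : List (ℕ × ℕ × ℕ)) (s t n : ℕ) : Bool :=
  L.any fun p => Nat.beq p.1 s && (Nat.beq p.2.1 t && Nat.beq p.2.2 n)

/-- the list fits into a node with `Sur` -/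
def inS (L : List (ℕ × ℕ × ℕ)) (s t : ℕ) (a : List ℕ) : Bool :=
  L.any fun p => Nat.beq p.1 s && (Nat.beq p.2.1 t && Nat.ble a.length p.2.2)

theorem of_mem2 {L : List (ℕ × ℕ)} {s t : ℕ} (h : mem2 L s t = true) : (s, t) ∈ L := by
  simp only [mem2, List.any_eq_true, Bool.and_eq_true, Nat.beq_eq] at h
  obtain ⟨⟨a, b⟩, hp, rfl, rfl⟩ := h
  exact hp

theorem of_mem3 {L : List (ℕ × ℕ × ℕ)} {s t n : ℕ} (h : mem3 L s t n = true) : (s, t, n) ∈ L := by
  simp only [mem3, List.any_eq_true, Bool.and_eq_true, Nat.beq_eq] at h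
  obtain ⟨⟨a, b, c⟩, hp, rfl, rfl, rfl⟩ := h
  exact hp

/-- a known fact -/
def has (K : List Fm) (s t : ℕ) (a φ : List ℕ) (c : ℕ) : Bool :=
  Sys.bd t a φ && (eqF (fact s t a φ c) [] || K.any (eqF (fact s t a φ c)))

/-- the form of one use of a constraint -/
def edF (e : Ed) (a ψ : List ℕ) : Fm :=
  mrg (fact e.s' e.t' (vm a e.P) ψ (dotL ψ (vm a e.R))) (scl 2 (fD e.s e.t a (mv e.Q ψ)))

/-- the side conditions of one use of a constraint -/
def edB (Γ : Ctx) (e : Ed) (a ψ : List ℕ) : Bool :=
  inS Γ.surs e.s e.t a && (Sys.bd e.t' (vm a e.P) ψ && Sys.bd e.t a (mv e.Q ψ))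

/-- the constraint with the number `k` -/
def getE (Γ : Ctx) (k : ℕ) : Ed := Γ.eds.getD k ⟨0, 0, 0, 0, [], [], []⟩

/-- add uses of constraints -/
def addE (Γ : Ctx) : List (ℕ × List ℕ × List ℕ) → Fm → Fm
  | [], f => f
  | p :: E, f => addE Γ E (mrg (edF (getE Γ p.1) p.2.1 p.2.2) f)

/-- add known forms -/
def addK (K : List Fm) : List (ℕ × ℕ) → Fm → Fm
  | [], f => f
  | p :: C, f => addK K C (mrg (scl p.2 (K.getD p.1 [])) f)

/-- one summand `l(y) J` of a boundary `y`, with the known factor -/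
structure Sm where
  /-- the functional -/
  l : List ℕ
  /-- the vector -/
  J : List ℕ
  /-- which factor is known -/
  left : Bool
  /-- its value -/
  c : ℕ

/-- the functional `y ↦ y j - ∑ q, l_q(y) J_q j` -/
def resL (j : ℕ) : List Sm → List ℕ
  | [] => unit j
  | q :: L => axL (2 * q.J.getD j 0) q.l (resL j L)

/-- the form given by `d d = 0` -/
def ddF (s t : ℕ) (a ψ : List ℕ) : List Sm → Fm
  | [] => []
  | q :: L => mrg (scl q.c (cond q.left (fD (s + 5) (t + 1) q.J ψ) (fD s t a q.l)))
      (ddF s t a ψ L)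

/-- its side conditions -/
def ddB (K : List Fm) (s t m : ℕ) (a ψ : List ℕ) (q : Sm) : Bool :=
  Nat.ble q.J.length m && (Sys.bd (t + 1) q.J ψ && (Sys.bd t a q.l &&
    cond q.left (has K s t a q.l q.c) (has K (s + 5) (t + 1) q.J ψ q.c)))

/-- the steps of a derivation -/
inductive Step where
  | lem (s t : ℕ) (a φ : List ℕ) (c : ℕ) (E : List (ℕ × List ℕ × List ℕ)) (C : List (ℕ × ℕ))
  | dd (s t m : ℕ) (a ψ : List ℕ) (L : List Sm)

/-- the form proved by a step -/
def Step.out : Step → Fm
  | .lem s t a φ c _ _ => fact s t a φ c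
  | .dd s t _ a ψ L => ddF s t a ψ L

/-- the check of a step -/
def Step.ok (Γ : Ctx) (K : List Fm) : Step → Bool
  | .lem s t a φ c E C => (E.all fun p => edB Γ (getE Γ p.1) p.2.1 p.2.2) &&
      eqF (addK K C (addE Γ E (fact s t a φ c))) []
  | .dd s t m a ψ L => inS Γ.surs s t a && (mem2 Γ.dds s t && (mem3 Γ.dims (s + 5) (t + 1) m &&
      (((List.range m).all fun j => has K s t a (resL j L) 0) && L.all (ddB K s t m a ψ))))

/-- the check of a derivation; the new forms are put in front -/
def run (Γ : Ctx) (fin : List Fm → Bool) : List Step → List Fm → Bool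
  | [], K => fin K
  | p :: D, K => p.ok Γ K && run Γ fin D (p.out :: K)

/-- `φ ∘ d = u l` on the node `(s, t)` -/
def tstB (K : List Fm) (s t m : ℕ) (p : List ℕ × List ℕ) : Bool :=
  Nat.ble p.2.length m && (List.range m).all fun i => has K s t (unit i) p.1 (p.2.getD i 0)

/-- the check of `Val` -/
def valB (Γ : Ctx) (K : List Fm) (s t m : ℕ) (a b : List ℕ) : Bool :=
  inS Γ.surs s t a && (mem2 Γ.maps s t && (mem3 Γ.dims (s + 5) (t + 1) m && (Nat.ble b.length m &&
    (List.range m).all fun j => has K s t a (unit j) (b.getD j 0))))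

/-- `d` is injective on the span of the vectors -/
def injB (K : List Fm) (s t : ℕ) : List (Sm × List ℕ) → Bool
  | [] => true
  | q :: Q => has K s t q.1.J q.2 1 && ((Q.all fun r => has K s t r.1.J q.2 0) && injB K s t Q)

/-- the elimination in the check of `Kill` -/
def hitB (Γ : Ctx) (K : List Fm) (s t m : ℕ) (Q : List Sm) (C : List (List ℕ)) :
    List (List ℕ × List ℕ) → List (List ℕ) → Bool
  | [], L => (List.range m).all fun j => zeroL (axL 2 (resL j Q) (vm (C.getD j []) L))
  | p :: H, L => inS Γ.surs s t p.1 && ((L.all fun l => has K s t p.1 l 0) &&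
      (has K s t p.1 p.2 1 && hitB Γ K s t m Q C H (p.2 :: L)))

/-- the check of `Kill` -/
def killB (Γ : Ctx) (K : List Fm) (s t m : ℕ) (L : List (List ℕ)) (Q : List (Sm × List ℕ))
    (H : List (List ℕ × List ℕ)) (C : List (List ℕ)) : Bool :=
  mem2 Γ.dds s t && (mem3 Γ.dims (s + 5) (t + 1) m && (injB K (s + 5) (t + 1) Q &&
    (((Q.map Prod.fst).all fun q => Nat.ble q.J.length m) &&
      hitB Γ K s t m (Q.map Prod.fst) C H L)))

/-- the check of `NZ` -/
def nzB (Γ : Ctx) (K : List Fm) (s t m : ℕ) (l : List ℕ) (A : List (List ℕ)) (r : List ℕ)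
    (p : List ℕ × List ℕ) : Bool :=
  mem3 Γ.dims s t m && (tstB K s t m p && (zeroL (mv A (axL 1 l p.2)) &&
    !Nat.beq (dotL (axL 1 l p.2) r % 3) 0))

section sound

variable {S : Sys} {Γ : Ctx} {K : List Fm}

/-- all the forms vanish -/
def Kn (S : Sys) (K : List Fm) : Prop := ∀ f ∈ K, ev S.X f = 0

theorem Kn.nil : Kn S [] := fun _ h => absurd h (by simp)

theorem Kn.has (hK : Kn S K) {s t : ℕ} {a φ : List ℕ} {c : ℕ} (h : has K s t a φ c = true) :
    dot φ (S.d s t (vec a)) = c * S.u := by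
  simp only [D5.has, Bool.and_eq_true, Bool.or_eq_true, List.any_eq_true] at h
  rw [← sub_eq_zero, ← S.ev_fact h.1]
  rcases h.2 with h | ⟨f, hf, h⟩
  · rw [eq_of_eqF h]; rfl
  · rw [eq_of_eqF h]; exact hK f hf

theorem Ctx.Ok.inS (H : Γ.Ok S) {s t : ℕ} {a : List ℕ} (h : inS Γ.surs s t a = true) :
    vec a ∈ S.im s t := by
  simp only [D5.inS, List.any_eq_true, Bool.and_eq_true, Nat.beq_eq, Nat.ble_eq] at h
  obtain ⟨p, hp, rfl, rfl, h⟩ := h
  exact (H.sur p hp).vec_mem h

theorem Ctx.Ok.getE (H : Γ.Ok S) (k : ℕ) {a ψ : List ℕ} (h : edB Γ (getE Γ k) a ψ = true) :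
    ev S.X (edF (getE Γ k) a ψ) = 0 := by
  simp only [edB, Bool.and_eq_true] at h
  have h3 : (3 : F) = 0 := rfl
  rw [edF, ev_mrg, ev_scl, S.ev_fact h.2.1, S.ev_fD h.2.2, dot_mv, vec_vm, cast_dotL, vec_vm]
  rcases Nat.lt_or_ge k Γ.eds.length with hk | hk
  · have he : D5.getE Γ k ∈ Γ.eds := by
      rw [D5.getE, List.getD_eq_getElem _ _ hk]
      exact List.getElem_mem hk
    rw [H.edge _ he _ (H.inS h.1), map_add, map_smul, smul_eq_mul]
    push_cast
    linear_combination (dot ψ (mat (D5.getE Γ k).Q (S.d _ _ (vec a)))) * h3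
  · rw [D5.getE, List.getD_eq_default _ _ hk]
    simp only [mat_nil, map_zero, zero_mul, mul_zero, sub_zero, add_zero]

theorem Ctx.Ok.addE (H : Γ.Ok S) {E : List (ℕ × List ℕ × List ℕ)}
    (h : (E.all fun p => edB Γ (D5.getE Γ p.1) p.2.1 p.2.2) = true) (f : Fm) :
    ev S.X (addE Γ E f) = ev S.X f := by
  induction E generalizing f with
  | nil => rfl
  | cons p E ih =>
    rw [List.all_cons, Bool.and_eq_true] at h
    rw [D5.addE, ih h.2, ev_mrg, H.getE _ h.1, zero_add]

theorem Kn.addK (hK : Kn S K) (C : List (ℕ × ℕ)) (f : Fm) : ev S.X (addK K C f) = ev S.X f := by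
  induction C generalizing f with
  | nil => rfl
  | cons p C ih =>
    have h : ev S.X (K.getD p.1 []) = 0 := by
      rcases Nat.lt_or_ge p.1 K.length with hk | hk
      · rw [List.getD_eq_getElem _ _ hk]
        exact hK _ (List.getElem_mem hk)
      · rw [List.getD_eq_default _ _ hk]; rfl
    rw [D5.addK, ih, ev_mrg, ev_scl, h, mul_zero, zero_add]

/-- the sum `∑ q, l_q(y) J_q` -/
def smV (y : V) : List Sm → V
  | [] => 0
  | q :: L => dot q.l y • vec q.J + smV y L

theorem dot_resL (j : ℕ) (y : V) (L : List Sm) : dot (resL j L) y = y j - smV y L j := by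
  induction L with
  | nil => rw [resL, dot_unit, smV, Pi.zero_apply, sub_zero]
  | cons q L ih =>
    have h3 : (3 : F) = 0 := rfl
    rw [resL, dot_axL, ih, smV, Pi.add_apply, Pi.smul_apply, smul_eq_mul, vec]
    push_cast
    linear_combination (dot q.l y * (q.J.getD j 0 : F)) * h3

theorem Kn.ddF (hK : Kn S K) {s t m : ℕ} {a ψ : List ℕ} {L : List Sm}
    (h : L.all (ddB K s t m a ψ) = true) :
    (∀ j, m ≤ j → smV (S.d s t (vec a)) L j = 0) ∧
      S.u * ev S.X (ddF s t a ψ L) = dot ψ (S.d (s + 5) (t + 1) (smV (S.d s t (vec a)) L)) := by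
  induction L with
  | nil => exact ⟨fun _ _ => rfl, by rw [smV, map_zero, map_zero]; exact mul_zero _⟩
  | cons q L ih =>
    rw [List.all_cons, Bool.and_eq_true] at h
    obtain ⟨h1, h2⟩ := ih h.2
    have h3 := h.1
    simp only [ddB, Bool.and_eq_true, Nat.ble_eq] at h3
    refine ⟨fun j hj => ?_, ?_⟩
    · rw [smV, Pi.add_apply, Pi.smul_apply, h1 j hj, vec_of_le (h3.1.trans hj), smul_zero,
        add_zero]
    · rw [smV, D5.ddF, ev_mrg, ev_scl, mul_add, h2, map_add, map_add, map_smul, map_smul,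
        smul_eq_mul]
      have h4 := h3.2.2.2
      cases hq : q.left with
      | true =>
        rw [hq, cond_true] at h4
        rw [cond_true, S.ev_fD h3.2.1, hK.has h4]
        ring
      | false =>
        rw [hq, cond_false] at h4
        rw [cond_false, S.ev_fD h3.2.2.1, hK.has h4]
        ring

theorem Sys.cancel (S : Sys) {z : F} (h : S.u * z = 0) : z = 0 := by
  rw [← one_mul z, ← S.hu, mul_assoc, h, mul_zero]

theorem Step.sound (H : Γ.Ok S) (hK : Kn S K) {p : Step} (h : p.ok Γ K = true) :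
    ev S.X p.out = 0 := by
  cases p with
  | lem s t a φ c E C =>
    rw [Step.ok, Bool.and_eq_true] at h
    rw [Step.out, ← H.addE h.1, ← hK.addK C, eq_of_eqF h.2]
    rfl
  | dd s t m a ψ L =>
    simp only [Step.ok, Bool.and_eq_true] at h
    obtain ⟨ha, hd, hm, hj, hL⟩ := h
    obtain ⟨h1, h2⟩ := hK.ddF hL
    have h3 := H.dd _ (of_mem2 hd)
    have h4 : smV (S.d s t (vec a)) L = S.d s t (vec a) := by
      funext j
      rcases Nat.lt_or_ge j m with h5 | h5
      · have h6 := hK.has (List.all_eq_true.1 hj j (List.mem_range.2 h5))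
        rw [dot_resL, Nat.cast_zero, zero_mul, sub_eq_zero] at h6
        exact h6.symm
      · rw [h1 j h5, H.dim _ (of_mem3 hm) _ (h3.1 _ (H.inS ha)) j h5]
    rw [h4, h3.2 _ (H.inS ha), map_zero] at h2
    exact S.cancel h2

theorem run_sound (H : Γ.Ok S) {fin : List Fm → Bool} {D : List Step} (hK : Kn S K)
    (h : run Γ fin D K = true) : ∃ K', Kn S K' ∧ fin K' = true := by
  induction D generalizing K with
  | nil => exact ⟨K, hK, h⟩
  | cons p D ih =>
    rw [run, Bool.and_eq_true] at h
    refine ih (fun f hf => ?_) h.2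
    rcases List.mem_cons.1 hf with rfl | hf
    · exact Step.sound H hK h.1
    · exact hK f hf

theorem Kn.tst (hK : Kn S K) {s t m : ℕ} {p : List ℕ × List ℕ} (h : tstB K s t m p = true)
    {x : V} (hx : ∀ j, m ≤ j → x j = 0) (h0 : S.d s t x = 0) : dot p.2 x = 0 := by
  simp only [tstB, Bool.and_eq_true, Nat.ble_eq] at h
  have h1 : dot p.1 (S.d s t x) = S.u * dot p.2 x := by
    rw [dot_eq_sum _ h.1, Finset.mul_sum]
    conv_lhs => rw [Sys.eq_sum hx]
    rw [map_sum, map_sum]
    refine Finset.sum_congr rfl fun i hi => ?_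
    rw [map_smul, map_smul, ← vec_unit,
      hK.has (List.all_eq_true.1 h.2 i (List.mem_range.2 (Finset.mem_range.1 hi))), smul_eq_mul,
      vec]
    ring
  rw [h0, map_zero] at h1
  exact S.cancel h1.symm

theorem Kn.val (hK : Kn S K) (H : Γ.Ok S) {s t m : ℕ} {a b : List ℕ}
    (h : valB Γ K s t m a b = true) : S.Val s t a b := by
  simp only [valB, Bool.and_eq_true, Nat.ble_eq] at h
  obtain ⟨ha, hd, hm, hb, hj⟩ := h
  refine ⟨H.inS ha, funext fun j => ?_⟩
  rw [Pi.smul_apply, smul_eq_mul]
  rcases Nat.lt_or_ge j m with h5 | h5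
  · rw [← dot_unit j (S.d s t (vec a)), hK.has (List.all_eq_true.1 hj j (List.mem_range.2 h5)),
      vec, mul_comm]
  · rw [vec_of_le (hb.trans h5), mul_zero]
    exact H.dim _ (of_mem3 hm) _ (H.map _ (of_mem2 hd) _ (H.inS ha)) j h5

theorem smV_of_le {m : ℕ} (y : V) {Q : List Sm} (h : (Q.all fun q => Nat.ble q.J.length m) = true)
    {j : ℕ} (hj : m ≤ j) : smV y Q j = 0 := by
  induction Q with
  | nil => rfl
  | cons q Q ih =>
    rw [List.all_cons, Bool.and_eq_true, Nat.ble_eq] at h
    rw [smV, Pi.add_apply, Pi.smul_apply, ih h.2, vec_of_le (h.1.trans hj), smul_zero, add_zero]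

theorem Kn.smV (hK : Kn S K) {s t : ℕ} (y : V) {φ : List ℕ} {Q : List (Sm × List ℕ)}
    (h : (Q.all fun r => D5.has K s t r.1.J φ 0) = true) :
    dot φ (S.d s t (smV y (Q.map Prod.fst))) = 0 := by
  induction Q with
  | nil => rw [List.map_nil, D5.smV, map_zero, map_zero]
  | cons q Q ih =>
    rw [List.all_cons, Bool.and_eq_true] at h
    rw [List.map_cons, D5.smV, map_add, map_add, map_smul, map_smul, ih h.2, hK.has h.1,
      Nat.cast_zero, zero_mul, smul_zero, add_zero]

theorem Kn.inj (hK : Kn S K) {s t : ℕ} (y : V) {Q : List (Sm × List ℕ)} (h : injB K s t Q = true)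
    (h0 : S.d s t (D5.smV y (Q.map Prod.fst)) = 0) : D5.smV y (Q.map Prod.fst) = 0 := by
  induction Q with
  | nil => rfl
  | cons q Q ih =>
    simp only [injB, Bool.and_eq_true] at h
    rw [List.map_cons, D5.smV] at h0 ⊢
    have h1 := congrArg (dot q.2) h0
    rw [map_add, map_add, map_smul, map_smul, hK.smV y h.2.1, hK.has h.1, map_zero, add_zero,
      Nat.cast_one, one_mul, smul_eq_mul, mul_comm] at h1
    rw [S.cancel h1, zero_smul, zero_add] at h0 ⊢
    exact ih h.2.2 h0

theorem Kn.hit (hK : Kn S K) (H : Γ.Ok S) {s t m : ℕ} (hd : S.Map s t ∧ S.DD s t)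
    (hm : S.Dim (s + 5) (t + 1) m) {Q : List (Sm × List ℕ)} {C : List (List ℕ)}
    (hQ : injB K (s + 5) (t + 1) Q = true)
    (hl : ((Q.map Prod.fst).all fun q => Nat.ble q.J.length m) = true)
    {E : List (List ℕ × List ℕ)} {L : List (List ℕ)}
    (h : hitB Γ K s t m (Q.map Prod.fst) C E L = true) : S.Kill s t L := by
  induction E generalizing L with
  | nil =>
    intro x hx h0 hL
    have h1 : D5.smV x (Q.map Prod.fst) = x := by
      funext j
      rcases Nat.lt_or_ge j m with h5 | h5
      · have h6 := dot_zeroL (List.all_eq_true.1 h j (List.mem_range.2 h5)) x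
        rw [dot_axL, dot_resL, dot_vm _ _ hL, add_zero] at h6
        exact (sub_eq_zero.1 ((mul_eq_zero.1 h6).resolve_left (by decide))).symm
      · rw [smV_of_le x hl h5, hm x hx j h5]
    refine ⟨0, zero_mem _, (map_zero _).trans ?_⟩
    rw [← h1]
    exact (hK.inj x hQ (by rw [h1, h0])).symm
  | cons p E ih =>
    simp only [hitB, Bool.and_eq_true] at h
    obtain ⟨ha, h1, h2, h3⟩ := h
    intro x hx h0 hL
    have h4 := H.inS ha
    obtain ⟨y, hy, e⟩ := ih h3 (x - (dot p.2 x * S.u) • S.d s t (vec p.1))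
      (sub_mem hx (Submodule.smul_mem _ _ (hd.1 _ h4)))
      (by rw [map_sub, map_smul, h0, hd.2 _ h4, smul_zero, sub_zero]) (by
        intro l hl
        rw [map_sub, map_smul, smul_eq_mul]
        rcases List.mem_cons.1 hl with rfl | hl
        · rw [hK.has h2, Nat.cast_one, one_mul, mul_assoc, S.hu, mul_one, sub_self]
        · rw [hK.has (List.all_eq_true.1 h1 l hl), hL l hl, Nat.cast_zero, zero_mul, mul_zero,
            sub_zero])
    refine ⟨y + (dot p.2 x * S.u) • vec p.1, add_mem hy (Submodule.smul_mem _ _ h4), ?_⟩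
    rw [map_add, map_smul, e, sub_add_cancel]

theorem Kn.kill (hK : Kn S K) (H : Γ.Ok S) {s t m : ℕ} {L : List (List ℕ)}
    {Q : List (Sm × List ℕ)} {E : List (List ℕ × List ℕ)} {C : List (List ℕ)}
    (h : killB Γ K s t m L Q E C = true) : S.Kill s t L := by
  simp only [killB, Bool.and_eq_true] at h
  obtain ⟨hd, hm, hQ, hl, h⟩ := h
  exact hK.hit H (H.dd _ (of_mem2 hd)) (H.dim _ (of_mem3 hm)) hQ hl h

theorem Kn.nz (hK : Kn S K) (H : Γ.Ok S) {s t m : ℕ} {l : List ℕ} {A : List (List ℕ)}
    {r : List ℕ} {p : List ℕ × List ℕ} (h : nzB Γ K s t m l A r p = true) : S.NZ s t l A r := by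
  simp only [nzB, Bool.and_eq_true] at h
  obtain ⟨hm, hT, h1, h2⟩ := h
  intro e c hc hx h0 hl
  have h3 := hK.tst hT (H.dim _ (of_mem3 hm) _ hx) h0
  have h4 := dot_axL 1 l p.2 (c • vec r + mat A e)
  rw [hl, h3, map_add, map_smul, ← dot_mv, dot_zeroL h1, ← cast_dotL, mul_zero, add_zero,
    add_zero, smul_eq_mul] at h4
  have h5 := (ZMod.natCast_eq_zero_iff _ 3).1 ((mul_eq_zero.1 h4).resolve_left hc)
  rw [Nat.mod_eq_zero_of_dvd h5] at h2
  exact absurd h2 (by decide)

end sound

end Vale.Agent.P236K.Core.D5
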