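import Vale.Agent.P236K.Core.DF
import Vale.Agent.P236K.SS.Leib
import Vale.Agent.P236K.Alg.V1

/-!
# P236K, block Core: the fifth differential as a family of linear maps on coordinates

* `D5Ax R` : the rules of the fifth differential, `d5Ax` : they hold for `DF D U i`;
* `IsNd j w c` : the additive map `c` gives coordinates on `E₂ / v₁ ^ j E₂` in weight `w`;
* `D5Ax.exists_spec` : there are linear maps `d s w` which describe the fifth differential;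
* `Spec.mem`, `Spec.dd`, `Spec.leib`, `Spec.leib0`, `Spec.leibu` : the constraints on these maps.
-/

open CategoryTheory MonoidalCategory Limits Pretriangulated MonObj

set_option linter.unusedSectionVars false

universe v u

namespace Vale.Agent.P236K.Core

open Vale.Agent.P251 Vale.Agent.P251.T Vale.Agent.P251.F Vale.Agent.P251.I
  Vale.Agent.P251.M Vale.Agent.P257.H314 Vale.Agent.P257.H712 Vale.Agent.P251.H
open Vale.Agent.P251.S hiding IC
open Vale.Agent.P236K.SS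

section Alg

variable {s s' σ : ℕ} {w w' v : ℤ} {z z' : Cob Laz s}

theorem aCob_zero {p h : ℕ} [Fact p.Prime] : ACob p h w (0 : Cob Laz s) := aCob_of_mem (zero_mem _)

theorem aCob_neg {p h : ℕ} [Fact p.Prime] (h1 : ACob p h w z) : ACob p h w (-z) := by
  rw [← neg_one_zsmul]
  exact aCob_zsmul _ h1

theorem aCob_sub {p h : ℕ} [Fact p.Prime] (h1 : ACob p h w z) (h2 : ACob p h w z') :
    ACob p h w (z - z') := by
  rw [sub_eq_add_neg]
  exact aCob_add h1 (aCob_neg h2)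

theorem three_mem (z : Cob Laz s) : (3 : ℤ) • z ∈ IC 3 1 s := by
  rw [zsmul_eq_mul, show (((3 : ℤ) : ℤ) : Cob Laz s) = MvPolynomial.C ((3 : ℕ) : Laz) by
    rw [map_natCast]; norm_num]
  exact Ideal.mul_mem_right _ _ (Ideal.mem_map_of_mem _ (Alg.cpt_one 3).mem)

theorem cupC_add_left (e : s + σ = s') (y : Cob Laz σ) :
    cupC e (z + z') y = cupC e z y + cupC e z' y := by rw [cupC, cupC, cupC, map_add, add_mul]

theorem cupC_zsmul_left (e : s + σ = s') (c : ℤ) (y : Cob Laz σ) :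
    cupC e (c • z) y = c • cupC e z y := by rw [cupC, cupC, map_zsmul, smul_mul_assoc]

theorem cupC_zsmul_right (e : s + σ = s') (c : ℤ) (y : Cob Laz σ) :
    cupC e z (c • y) = c • cupC e z y := by rw [cupC, cupC, map_zsmul, mul_smul_comm]

theorem cupC_zero_right (e : s + σ = s') : cupC e z (0 : Cob Laz σ) = 0 := by
  rw [cupC, map_zero, mul_zero]

theorem cupC_zero_left (e : s + σ = s') (y : Cob Laz σ) : cupC e (0 : Cob Laz s) y = 0 := by
  rw [cupC, map_zero, zero_mul]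

/-- the power `v₁ ^ j` -/
noncomputable def vj (j : ℕ) : Cob Laz 0 := MvPolynomial.C (Laz.v 3 1) ^ j

theorem isV_vj (j : ℕ) : Alg.IsV 3 j (vj j) := Alg.isV_pow 3 j

theorem cy_vj (j : ℕ) : Cy (2 * j) (vj j) :=
  ⟨mul_comm (j : ℤ) 2 ▸ (isV_vj j).wt, (isV_vj j).d⟩

theorem vj_one : vj 1 = (vw 3 1 0).1 := pow_one _

theorem vj_succ (j : ℕ) : vj (j + 1) = cupC (add_zero 0) (vj j) (vj 1) := by
  rw [cupC, show frontG (add_zero 0) = id from funext fun _ => Subsingleton.elim (α := Fin 1) _ _,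
    show backG (add_zero 0) = id from funext fun _ => Subsingleton.elim (α := Fin 1) _ _,
    Cob.map_id, Cob.map_id, vj, vj, vj, pow_succ, pow_one]

theorem cy_b3 {t : Cob Laz 1} (ht : IsT1 3 t) : Cy 18 (b3W ht).1 :=
  Cy.of_d (b3W ht).2 (d_b3W ht)

theorem cy_b3t {t : Cob Laz 1} (ht : IsT1 3 t) : Cy 20 (b3tW ht).1 :=
  Cy.of_d (b3tW ht).2 (d_b3tW ht)

end Alg

/-- The rules of the fifth differential. -/
structure D5Ax (R : ∀ (s s' : ℕ) (_ _ : ℤ), Cob Laz s → Cob Laz s' → Prop) : Prop where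
  src : ∀ {s s' w w' z z'}, R s s' w w' z z' → Cy w z
  tgt : ∀ {s s' w w' z z'}, R s s' w w' z z' → Cy w' z'
  ex : ∀ {s s' w w' z}, Cy w z → s + 5 = s' → w + 2 = w' → ∃ z', R s s' w w' z z'
  uniq : ∀ {s s' w w' z z' y'}, R s s' w w' z z' → R s s' w w' z y' → s + 5 = s' →
    ACob 3 1 w' (z' - y')
  csrc : ∀ {s s' w w' z z' y}, R s s' w w' z z' → Cy w y → ACob 3 1 w (y - z) → R s s' w w' y z'
  ctgt : ∀ {s s' w w' z z' y'}, R s s' w w' z z' → s + 5 = s' → Cy w' y' → ACob 3 1 w' (y' - z') →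
    R s s' w w' z y'
  add : ∀ {s s' w w' z z' y y'}, R s s' w w' z z' → R s s' w w' y y' →
    R s s' w w' (z + y) (z' + y')
  zsmul : ∀ {s s' w w' z z'} (c : ℤ), R s s' w w' z z' → R s s' w w' (c • z) (c • z')
  dd : ∀ {s s' s'' w w' w'' z z'}, R s s' w w' z z' → s' + 5 = s'' → w' + 2 = w'' →
    R s' s'' w' w'' z' 0
  mul : ∀ {s s' σ σ' r r' w w' v v' u u' z z' y y'}, R s s' w w' z z' → R σ σ' v v' y y' →
    s + 5 = s' → σ + 5 = σ' → v + 2 = v' → 0 ≤ v → w + v = u → w' + v = u' →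
    ∀ (e₀ : s + σ = r) (e₁ : s' + σ = r') (e₂ : s + σ' = r'),
      R r r' u u' (cupC e₀ z y) (cupC e₁ z' y + ((-1 : ℤ) ^ s) • cupC e₂ z y')
  seed : ∀ {t : Cob Laz 1} (ht : IsT1 3 t), ∃ e, R 2 7 18 20 e (b3tW ht).1

section Geo

variable {T : Type u} [Category.{v} T] [Preadditive T] [HasZeroObject T] [HasShift T ℤ]
  [∀ n : ℤ, (shiftFunctor T n).Additive] [Pretriangulated T] [MonoidalCategory T]
  [SymmetricCategory T] [TensorTriangulated T] [HasCoproducts.{0} T] [MonoidalClosed T]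
  [IsTriangulated T] [HasProducts.{0} T] [StableCat T] {D : MUData T} {U : UnitCof D.R}
  {M : T} {i : 𝟙_ T ⟶ M} {δ : M ⟶ (𝟙_ T)⟦(1 : ℤ)⟧} (hM : Dist ((3 : ℤ) • 𝟙 (𝟙_ T)) i δ)

include hM

/-- **The Leibniz rule.** -/
theorem DF.mul {s s' r σ σ' t t' : ℕ} {w w' v v' u u' : ℤ} {z : Cob Laz s} {z' : Cob Laz s'}
    {y : Cob Laz σ} {y' : Cob Laz σ'} (hr : 3 ≤ r)
    (hs : s + r = s') (hσ : σ + r = σ') (e₀ : s + σ = t) (e₁ : s' + σ = t') (e₂ : s + σ' = t')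
    (hv : 0 ≤ v) (hv' : 0 ≤ v') (f₀ : w + v = u) (f₁ : w' + v = u') (f₂ : w + v' = u')
    (H : DF D U i w w' z z') (H' : DF D U i v v' y y') :
    DF D U i u u' (cupC e₀ z y) (cupC e₁ z' y + ((-1 : ℤ) ^ (s * r)) • cupC e₂ z y') := by
  obtain ⟨hz, hz', n, h, h', H⟩ := H
  obtain ⟨hy, hy', m, g, g', H'⟩ := H'
  have k₀ : n + m + 1 + 1 + (t : ℤ) = 2 * u := by omega
  have k₁ : n + m + 1 + (t' : ℤ) = 2 * u' := by omega
  have h1 := Dif.mul (p := 3) (by norm_num) hM hr hs hσ e₀ e₁ e₂ hv hv' f₀ f₁ f₂ k₀ k₁ H H'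
  exact ⟨hz.cup hy e₀ f₀, (hz'.cup hy e₁ f₁).add ((hz.cup hy' e₂ f₂).zsmul _), _, k₀, k₁, h1⟩

variable (D U) in
theorem d5Ax (F : SpaceFunctor T) : D5Ax fun _ _ w w' z z' => DF D U i w w' z z' where
  src := DF.src
  tgt := DF.tgt
  ex := exists_DF (cycM hM)
  uniq := DF.unique (cycM hM)
  csrc := DF.congr_src (cycM hM)
  ctgt h hs := h.congr_tgt (cycM hM) (by omega)
  add := DF.add
  zsmul := DF.zsmul
  dd h hs hw := h.dd (by omega) (by omega)
  mul h h' hs hσ hv h0 f₀ f₁ e₀ e₁ e₂ := by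
    have h1 := h.deg
    have h2 := DF.mul hM (r := 5) (by norm_num) hs hσ e₀ e₁ e₂ h0 (by omega) f₀ f₁ (by omega) h h'
    rwa [mul_comm, pow_mul, show (-1 : ℤ) ^ 5 = -1 by norm_num] at h2
  seed ht := by
    obtain ⟨e, he, h⟩ := toda_dif D U hM ht F (by norm_num) (by norm_num)
    exact ⟨e.1, ⟨e.2, he⟩, cy_b3t ht, _, _, _, h⟩

end Geo

variable {R : ∀ (s s' : ℕ) (_ _ : ℤ), Cob Laz s → Cob Laz s' → Prop}

namespace D5Ax

variable (X : D5Ax R) {s s' : ℕ} {w w' : ℤ} {z y : Cob Laz s} {z' y' : Cob Laz s'}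

include X

theorem neg (h : R s s' w w' z z') : R s s' w w' (-z) (-z') := by
  simpa using X.zsmul (-1) h

theorem sub (h : R s s' w w' z z') (h' : R s s' w w' y y') : R s s' w w' (z - y) (z' - y') := by
  rw [sub_eq_add_neg, sub_eq_add_neg]
  exact X.add h (X.neg h')

theorem of_aCob (hz : Cy w z) (h : ACob 3 1 w z) (hs : s + 5 = s') (hw : w + 2 = w') :
    R s s' w w' z 0 := by
  obtain ⟨z', h1⟩ := X.ex hz hs hw
  have h2 := X.zsmul 0 h1
  rw [zero_smul, zero_smul] at h2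
  exact X.csrc h2 hz (by rwa [sub_zero])

theorem of_van (hz : Cy w z) (hs : s + 5 = s') (hw : w + 2 = w') (hA : AlgVan 3 1 s' w') :
    R s s' w w' z 0 := by
  obtain ⟨z', h⟩ := X.ex hz hs hw
  refine X.ctgt h hs Cy.zero ?_
  rw [zero_sub]
  exact aCob_neg (aCob_of_algVan hA (X.tgt h).wt (X.tgt h).d)

/-- Below the vanishing line (`v₁`, `h₀`, `b₀`, `h₁`). -/
theorem of_line (hz : Cy w z) (hs : s + 5 = s') (hw : w + 2 = w') (hl : w < 2 * s + 8) :
    R s s' w w' z 0 := X.of_van hz hs hw (algVan_three (by omega))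

theorem mul0 {σ r r' : ℕ} {v u u' : ℤ} {y : Cob Laz σ} (h : R s s' w w' z z')
    (h' : R σ (σ + 5) v (v + 2) y 0) (hs : s + 5 = s') (h0 : 0 ≤ v) (f₀ : w + v = u)
    (f₁ : w' + v = u') (e₀ : s + σ = r) (e₁ : s' + σ = r') :
    R r r' u u' (cupC e₀ z y) (cupC e₁ z' y) := by
  have h1 := X.mul h h' hs rfl rfl h0 f₀ f₁ e₀ e₁ (by omega)
  rwa [cupC_zero_right, smul_zero, add_zero] at h1

theorem vj (j : ℕ) : R 0 (0 + 5) (2 * j) (2 * j + 2) (vj j) 0 := by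
  induction j with
  | zero => exact X.of_line (cy_vj 0) rfl rfl (by simp)
  | succ j ih =>
    have h := X.mul0 ih (X.of_line (cy_vj 1) rfl rfl (by simp)) rfl (u := 2 * (j + 1 : ℕ))
      (u' := 2 * (j + 1 : ℕ) + 2) (by norm_num) (by push_cast; ring) (by push_cast; ring)
      (add_zero 0) (add_zero _)
    rwa [cupC_zero_left, ← vj_succ] at h

/-- **The seed.** -/
theorem seed_of (hA : J1Alg) {t : Cob Laz 1} (ht : IsT1 3 t) {x : Cob Laz 2}
    (hx : Cy 18 x) (hn : ¬ ACob 3 1 18 x) :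
    ∃ u : ℤ, (u = 1 ∨ u = -1) ∧ R 2 7 18 20 x (u • (b3tW ht).1) := by
  obtain ⟨e, H⟩ := X.seed ht
  have he := X.src H
  obtain ⟨c, hc⟩ := (hA t ht).2 x e hx.wt hx.d he.wt he.d hn
  have key : ∀ u k : ℤ, u * c = 1 + k * 3 → R 2 7 18 20 x (u • (b3tW ht).1) := fun u k h =>
    X.csrc (X.zsmul u H) hx (by
      have h1 := aCob_sub (aCob_neg (aCob_zsmul u hc))
        (aCob_of_mem (w := 18) (zsmul_mem (three_mem x) k))
      rw [smul_sub, smul_smul, h, add_smul, one_smul, mul_smul] at h1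
      convert h1 using 1
      abel)
  rcases (by omega : c % 3 = 0 ∨ c % 3 = 1 ∨ c % 3 = 2) with h | h | h
  · refine absurd ?_ (hA t ht).1
    have h1 : ACob 3 1 18 e := by
      have h2 := aCob_add hc (aCob_of_mem (w := 18) (zsmul_mem (three_mem x) (c / 3)))
      rwa [smul_smul, show c / 3 * 3 = c by omega, sub_add_cancel] at h2
    have h2 := X.uniq H (X.of_aCob he h1 rfl rfl) rfl
    rwa [sub_zero] at h2
  · exact ⟨1, Or.inl rfl, key 1 (c / 3) (by omega)⟩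
  · exact ⟨-1, Or.inr rfl, key (-1) (-(c / 3) - 1) (by omega)⟩

end D5Ax

/-! ### Coordinates -/

variable {V V' : Type} [AddCommGroup V] [Module (ZMod 3) V] [AddCommGroup V'] [Module (ZMod 3) V']

/-- `c` gives coordinates on `E₂ / v₁ ^ j E₂` in degree `s` and weight `w`. -/
structure IsNd (j : ℕ) {s : ℕ} (w : ℤ) (c : Cob Laz s →+ V) : Prop where
  cob : ∀ z, Cy w z → ACob 3 1 w z → c z = 0
  vv : ∀ z, Cy (w - 2 * j) z → c (cupC (add_zero s) z (vj j)) = 0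
  ker : ∀ z, Cy w z → c z = 0 →
    ∃ z', Cy (w - 2 * j) z' ∧ ACob 3 1 w (z - cupC (add_zero s) z' (vj j))

/-- `c` is injective on the cohomology. -/
def InjC {s : ℕ} (w : ℤ) (c : Cob Laz s →+ V) : Prop := ∀ z, Cy w z → c z = 0 → ACob 3 1 w z

/-- the coordinates of the cocycles -/
def imC {s : ℕ} (w : ℤ) (c : Cob Laz s →+ V) : Submodule (ZMod 3) V :=
  AddSubgroup.toZModSubmodule 3
    { carrier := {x | ∃ z, Cy w z ∧ c z = x}
      zero_mem' := ⟨0, Cy.zero, map_zero _⟩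
      add_mem' := by
        rintro _ _ ⟨z, hz, rfl⟩ ⟨z', hz', rfl⟩
        exact ⟨z + z', hz.add hz', map_add _ _ _⟩
      neg_mem' := by
        rintro _ ⟨z, hz, rfl⟩
        exact ⟨-z, hz.neg, map_neg _ _⟩ }

theorem mem_imC {s : ℕ} {w : ℤ} {c : Cob Laz s →+ V} {x : V} :
    x ∈ imC w c ↔ ∃ z, Cy w z ∧ c z = x := Iff.rfl

theorem Cy.mem_imC {s : ℕ} {w : ℤ} {z : Cob Laz s} (hz : Cy w z) (c : Cob Laz s →+ V) :
    c z ∈ imC w c := ⟨z, hz, rfl⟩

/-- The map `P` represents the cup product with `y`. -/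
def RepC {s σ s' : ℕ} (e : s + σ = s') (w : ℤ) (y : Cob Laz σ) (c : Cob Laz s →+ V)
    (c' : Cob Laz s' →+ V') (P : V → V') : Prop :=
  ∀ z, Cy w z → c' (cupC e z y) = P (c z)

theorem IsNd.congr {j s : ℕ} {w : ℤ} {c : Cob Laz s →+ V} (A : IsNd j w c) {z z' : Cob Laz s}
    (hz : Cy w z) (hz' : Cy w z') (h : ACob 3 1 w (z - z')) : c z = c z' := by
  rw [← sub_eq_zero, ← map_sub]
  exact A.cob _ (hz.sub hz') h

theorem InjC.aCob {s : ℕ} {w : ℤ} {c : Cob Laz s →+ V} (A : InjC w c) {z z' : Cob Laz s}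
    (hz : Cy w z) (hz' : Cy w z') (h : c z = c z') : ACob 3 1 w (z - z') :=
  A _ (hz.sub hz') (by rw [map_sub, h, sub_self])

theorem InjC.algVan {s : ℕ} {w : ℤ} {c : Cob Laz s →+ V} (A : InjC w c)
    (h : ∀ x ∈ imC w c, x = 0) : AlgVan 3 1 s w := by
  cases s with
  | zero => exact fun z hz hd => A z ⟨hz, hd⟩ (h _ (Cy.mem_imC ⟨hz, hd⟩ c))
  | succ s => exact fun z hz hd => A z ⟨hz, hd⟩ (h _ (Cy.mem_imC ⟨hz, hd⟩ c))

theorem RepC.mem {s σ s' : ℕ} {e : s + σ = s'} {w v w' : ℤ} {y : Cob Laz σ}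
    {c : Cob Laz s →+ V} {c' : Cob Laz s' →+ V'} {P : V → V'} (h : RepC e w y c c' P)
    (hw : w + v = w') (hy : Cy v y) {x : V} (hx : x ∈ imC w c) : P x ∈ imC w' c' := by
  obtain ⟨z, hz, rfl⟩ := hx
  exact ⟨_, hz.cup hy e hw, h z hz⟩

section One

variable {j s s' : ℕ} {w w' : ℤ} {c : Cob Laz s →+ V} {c' : Cob Laz s' →+ V'} (X : D5Ax R)

include X

theorem IsNd.d5_zero (A : IsNd j w c) (B : IsNd j w' c') (hs : s + 5 = s') (hw : w + 2 = w')
    {z : Cob Laz s} {z' : Cob Laz s'} (H : R s s' w w' z z') (h : c z = 0) : c' z' = 0 := by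
  obtain ⟨y, hy, h1⟩ := A.ker z (X.src H) h
  obtain ⟨y', H'⟩ := X.ex hy hs (w' := w' - 2 * j) (by omega)
  have h3 := X.mul0 H' (X.vj j) hs (by positivity) (u := w) (u' := w') (by ring) (by ring)
    (add_zero s) (add_zero s')
  rw [B.congr (X.tgt H) (X.tgt h3) (X.uniq H (X.csrc h3 (X.src H) h1) hs), B.vv y' (X.tgt H')]

theorem IsNd.exists_d (A : IsNd j w c) (B : IsNd j w' c') (hs : s + 5 = s') (hw : w + 2 = w') :
    ∃ d : V →ₗ[ZMod 3] V', ∀ z z', R s s' w w' z z' → c' z' = d (c z) := by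
  have key : ∀ x : imC w c, ∃ y : V', ∀ z z', R s s' w w' z z' → c z = x → c' z' = y := by
    rintro ⟨_, z₀, hz₀, rfl⟩
    obtain ⟨z₀', H₀⟩ := X.ex hz₀ hs hw
    refine ⟨c' z₀', fun z z' H h => ?_⟩
    rw [← sub_eq_zero, ← map_sub]
    exact A.d5_zero X B hs hw (X.sub H H₀) (by rw [map_sub, h, sub_self])
  choose f hf using key
  obtain ⟨d, hd⟩ := LinearMap.exists_extend ((AddMonoidHom.mk' f (by
    rintro ⟨_, z, hz, rfl⟩ ⟨_, y, hy, rfl⟩
    obtain ⟨z', H⟩ := X.ex hz hs hw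
    obtain ⟨y', H'⟩ := X.ex hy hs hw
    rw [← hf ⟨_, hz.mem_imC c⟩ z z' H rfl, ← hf ⟨_, hy.mem_imC c⟩ y y' H' rfl, ← map_add]
    exact (hf _ _ _ (X.add H H') (map_add _ _ _)).symm)).toZModLinearMap 3)
  exact ⟨d, fun z z' H => (hf ⟨_, (X.src H).mem_imC c⟩ z z' H rfl).trans
    (LinearMap.congr_fun hd ⟨_, (X.src H).mem_imC c⟩).symm⟩

end One

variable (R) in
/-- The maps `d s w` describe the fifth differential in the coordinates `c`. -/
def Spec (j : ℕ) (c : ∀ s : ℕ, ℤ → (Cob Laz s →+ V)) (d : ℕ → ℤ → V →ₗ[ZMod 3] V) : Prop :=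
  ∀ (s s' : ℕ) (w w' : ℤ), s + 5 = s' → w + 2 = w' → IsNd j w (c s w) →
    IsNd j w' (c s' w') → ∀ z z', R s s' w w' z z' → c s' w' z' = d s w (c s w z)

/-- **The fifth differential in coordinates.** -/
theorem D5Ax.exists_spec (X : D5Ax R) (j : ℕ) (c : ∀ s : ℕ, ℤ → (Cob Laz s →+ V)) :
    ∃ d : ℕ → ℤ → V →ₗ[ZMod 3] V, Spec R j c d := by
  have key : ∀ (s : ℕ) (w : ℤ), ∃ d : V →ₗ[ZMod 3] V, IsNd j w (c s w) →
      IsNd j (w + 2) (c (s + 5) (w + 2)) → ∀ z z', R s (s + 5) w (w + 2) z z' →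
        c (s + 5) (w + 2) z' = d (c s w z) := by
    intro s w
    by_cases h : IsNd j w (c s w) ∧ IsNd j (w + 2) (c (s + 5) (w + 2))
    · obtain ⟨d, hd⟩ := h.1.exists_d X h.2 rfl rfl
      exact ⟨d, fun _ _ => hd⟩
    · exact ⟨0, fun h2 h3 => absurd ⟨h2, h3⟩ h⟩
  choose d hd using key
  refine ⟨d, ?_⟩
  rintro s _ w _ rfl rfl
  exact hd s w

namespace Spec

variable {j : ℕ} {c : ∀ s : ℕ, ℤ → (Cob Laz s →+ V)} {d : ℕ → ℤ → V →ₗ[ZMod 3] V}
  (H : Spec R j c d) (X : D5Ax R) {s s' s'' : ℕ} {w w' w'' : ℤ} (hs : s + 5 = s')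
  (hw : w + 2 = w') (A : IsNd j w (c s w)) (B : IsNd j w' (c s' w'))

include H X hs hw A B

theorem exists_dif {z : Cob Laz s} (hz : Cy w z) :
    ∃ z', R s s' w w' z z' ∧ c s' w' z' = d s w (c s w z) := by
  obtain ⟨z', h⟩ := X.ex hz hs hw
  exact ⟨z', h, H s s' w w' hs hw A B z z' h⟩

theorem mem {x : V} (hx : x ∈ imC w (c s w)) : d s w x ∈ imC w' (c s' w') := by
  obtain ⟨z, hz, rfl⟩ := hx
  obtain ⟨z', h1, h⟩ := H.exists_dif X hs hw A B hz
  exact ⟨z', X.tgt h1, h⟩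

/-- From coordinates to differentials. -/
theorem dif (hI : InjC w' (c s' w')) {z : Cob Laz s} {z' : Cob Laz s'} (hz : Cy w z)
    (hz' : Cy w' z') (h : c s' w' z' = d s w (c s w z)) : R s s' w w' z z' := by
  obtain ⟨y, h1, h3⟩ := H.exists_dif X hs hw A B hz
  exact X.ctgt h1 hs hz' (hI.aCob hz' (X.tgt h1) (h.trans h3.symm))

omit X in
theorem eq_zero {z : Cob Laz s} (h : R s s' w w' z 0) : d s w (c s w z) = 0 := by
  rw [← H s s' w w' hs hw A B z 0 h, map_zero]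

/-- `d ∘ d = 0` -/
theorem dd (hs' : s' + 5 = s'') (hw' : w' + 2 = w'') (C : IsNd j w'' (c s'' w'')) {x : V}
    (hx : x ∈ imC w (c s w)) : d s' w' (d s w x) = 0 := by
  obtain ⟨z, hz, rfl⟩ := hx
  obtain ⟨z', h1, h3⟩ := H.exists_dif X hs hw A B hz
  rw [← h3]
  exact H.eq_zero hs' hw' B C (X.dd h1 hs' hw')

variable {σ σ' r r' : ℕ} {v v' u u' : ℤ} {y : Cob Laz σ} {y' : Cob Laz σ'} {P Q S : V → V}

/-- **The Leibniz constraint.** -/
theorem leib (hσ : σ + 5 = σ') (hv : v + 2 = v') (h0 : 0 ≤ v) (Y : R σ σ' v v' y y')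
    {e₀ : s + σ = r} {e₁ : s' + σ = r'} {e₂ : s + σ' = r'} (f₀ : w + v = u) (f₁ : w' + v = u')
    (A' : IsNd j u (c r u)) (B' : IsNd j u' (c r' u')) (hP : RepC e₀ w y (c s w) (c r u) P)
    (hQ : RepC e₁ w' y (c s' w') (c r' u') Q) (hS : RepC e₂ w y' (c s w) (c r' u') S) {x : V}
    (hx : x ∈ imC w (c s w)) : d r u (P x) = Q (d s w x) + ((-1 : ℤ) ^ s) • S x := by
  obtain ⟨z, hz, rfl⟩ := hx
  obtain ⟨z', h1, h3⟩ := H.exists_dif X hs hw A B hz
  rw [← hP z hz, ← h3, ← hQ z' (X.tgt h1), ← hS z hz, ← H r r' u u' (by omega) (by omega) A' B'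
    _ _ (X.mul h1 Y hs hσ hv h0 f₀ f₁ e₀ e₁ e₂), map_add, map_zsmul]

/-- The Leibniz constraint for a multiplier with zero differential. -/
theorem leib0 (h0 : 0 ≤ v) (Y : R σ (σ + 5) v (v + 2) y 0) {e₀ : s + σ = r} {e₁ : s' + σ = r'}
    (f₀ : w + v = u) (f₁ : w' + v = u') (A' : IsNd j u (c r u)) (B' : IsNd j u' (c r' u'))
    (hP : RepC e₀ w y (c s w) (c r u) P) (hQ : RepC e₁ w' y (c s' w') (c r' u') Q)
    {x : V} (hx : x ∈ imC w (c s w)) : d r u (P x) = Q (d s w x) := by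
  rw [H.leib X hs hw A B rfl rfl h0 Y (e₂ := by omega) f₀ f₁ A' B' hP hQ
    (S := fun _ => 0) (fun z _ => by rw [cupC_zero_right, map_zero]) hx, smul_zero, add_zero]

/-- The Leibniz constraint for a multiplier whose differential is known up to a factor. -/
theorem leibu (hσ : σ + 5 = σ') (hv : v + 2 = v') (h0 : 0 ≤ v) {a : ℤ}
    (Y : R σ σ' v v' y (a • y')) {e₀ : s + σ = r} {e₁ : s' + σ = r'} {e₂ : s + σ' = r'}
    (f₀ : w + v = u) (f₁ : w' + v = u') (A' : IsNd j u (c r u)) (B' : IsNd j u' (c r' u'))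
    (hP : RepC e₀ w y (c s w) (c r u) P) (hQ : RepC e₁ w' y (c s' w') (c r' u') Q)
    (hS : RepC e₂ w y' (c s w) (c r' u') S) {x : V} (hx : x ∈ imC w (c s w)) :
    d r u (P x) = Q (d s w x) + ((-1 : ℤ) ^ s * a) • S x := by
  rw [H.leib X hs hw A B hσ hv h0 Y (e₂ := e₂) f₀ f₁ A' B' hP hQ
    (S := fun x => a • S x) (fun z hz => by rw [cupC_zsmul_right, map_zsmul, hS z hz]) hx,
    smul_smul]

end Spec

end Vale.Agent.P236K.Core
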