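import Vale.Agent.P236K.Core.End3
import Vale.Agent.P236K.Core.D5T
import Vale.Agent.P236K.Core.D5C
import Vale.Agent.P236K.Alg.J12
import Vale.Agent.P236K.Cert.Bar2

/-!
# P236K, block Core: `ASurj`, `AInj`, `J1Alg`, `EndAlg` from coordinates
-/

set_option linter.unusedSectionVars false

namespace Vale.Agent.P236K.Core

open Vale.Agent.P251 Vale.Agent.P251.F Vale.Agent.P236K.SS
open Vale.Agent.P251.S hiding IC
open D5 (vec mat dot ee vm axL unit zeroL)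

/-- the coordinates of the cocycles vanish from `n` on -/
def DimC {s : ℕ} (n : ℕ) (w : ℤ) (c : Cob Laz s →+ D5.V) : Prop :=
  ∀ x ∈ imC w c, ∀ j, n ≤ j → x j = 0

/-- the first `n` basis vectors are coordinates of cocycles -/
def SurC {s : ℕ} (n : ℕ) (w : ℤ) (c : Cob Laz s →+ D5.V) : Prop := ∀ i < n, ee i ∈ imC w c

/-- the first `n` rows of the product `Q P` are the basis vectors -/
def invB (n : ℕ) (Q P : List (List ℕ)) : Bool :=
  (List.range n).all fun l => zeroL (axL 2 (unit l) (vm (Q.getD l []) P))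

theorem mat_of_invB {n : ℕ} {Q P : List (List ℕ)} (h : invB n Q P = true) {l : ℕ} (hl : l < n) :
    mat P (vec (Q.getD l [])) = ee l := by
  have h1 := D5.vec_zeroL (List.all_eq_true.1 h l (List.mem_range.2 hl))
  rw [D5.vec_axL, D5.vec_unit, D5.vec_vm, show ((2 : ℕ) : D5.F) = -1 from rfl, neg_one_smul,
    neg_add_eq_sub, sub_eq_zero] at h1
  exact h1

theorem mat_ee (M : List (List ℕ)) (i : ℕ) : mat M (ee i) = vec (M.getD i []) := by
  rw [D5.mat_eq_sum M (le_max_left _ (i + 1)), Finset.sum_eq_single i]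
  · rw [ee, Pi.single_eq_same, one_smul]
  · intro j _ h
    rw [ee, Pi.single_eq_of_ne h, zero_smul]
  · intro h
    exact absurd (Finset.mem_range.2 (lt_of_lt_of_le (Nat.lt_succ_self i) (le_max_right _ _))) h

theorem mat_mat_of_invB {n : ℕ} {Q P : List (List ℕ)} (h : invB n Q P = true) {x : D5.V}
    (hx : ∀ j, n ≤ j → x j = 0) : mat P (mat Q x) = x := by
  conv_lhs => rw [D5.Sys.eq_sum hx]
  conv_rhs => rw [D5.Sys.eq_sum hx]
  rw [map_sum, map_sum]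
  refine Finset.sum_congr rfl fun l hl => ?_
  rw [map_smul, map_smul, mat_ee, mat_of_invB h (Finset.mem_range.1 hl)]

variable {s σ n : ℕ} {w v : ℤ} {b : Cob Laz σ} {c : Cob Laz s →+ D5.V}
  {c' : Cob Laz (s + σ) →+ D5.V} {P Q : List (List ℕ)}

theorem SurC.vec_mem (h : SurC n w c) {q : List ℕ} (hq : q.length ≤ n) : vec q ∈ imC w c := by
  rw [D5.Sys.eq_sum (x := vec q) (n := n) fun j hj => D5.vec_of_le (hq.trans hj)]
  exact Submodule.sum_mem _ fun i hi => Submodule.smul_mem _ _ (h i (Finset.mem_range.1 hi))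

theorem SurC.rows (h : SurC n w c) (hQ : (Q.all fun q => Nat.ble q.length n) = true) :
    ∀ q ∈ Q, vec q ∈ imC w c := fun q hq =>
  h.vec_mem (Nat.le_of_ble_eq_true (List.all_eq_true.1 hQ q hq))

theorem mat_mem {S : Submodule D5.F D5.V} (hQ : ∀ q ∈ Q, vec q ∈ S) (x : D5.V) : mat Q x ∈ S := by
  induction Q generalizing x with
  | nil => exact zero_mem _
  | cons r Q ih =>
    rw [D5.mat_cons]
    exact add_mem (S.smul_mem _ (hQ r List.mem_cons_self))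
      (ih (fun q hq => hQ q (List.mem_cons_of_mem _ hq)) _)

/-- **Surjectivity from coordinates.** -/
theorem aSurj_of_rep (hb : Cy v b) (I : InjC (w + v) c') (D : DimC n (w + v) c')
    (S : ∀ q ∈ Q, vec q ∈ imC w c) (hP : RepC rfl w b c c' (mat P)) (h : invB n Q P = true) :
    ASurj 3 1 1 b v s w := by
  intro y hy hd
  have h1 : Cy (w + v) y := ⟨hy, hd⟩
  obtain ⟨z, hz, e⟩ := mat_mem S (c' y)
  refine ⟨z, hz.wt, hz.d, ?_⟩
  rw [← cupC_rfl]
  refine I.aCob h1 (hz.cup hb rfl rfl) ?_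
  rw [hP z hz, e, mat_mat_of_invB h (D _ (h1.mem_imC c'))]

/-- **Injectivity from coordinates.** -/
theorem aInj_of_rep {j : ℕ} (hb : Cy v b) (I : InjC w c) (D : DimC n w c)
    (A : IsNd j (w + v) c') (hP : RepC rfl w b c c' (mat P)) (h : invB n P Q = true) :
    AInj 3 1 1 b v s w := by
  intro z hz hd h1
  have h2 : Cy w z := ⟨hz, hd⟩
  rw [← cupC_rfl] at h1
  have h3 := A.cob _ (h2.cup hb rfl rfl) h1
  rw [hP z h2] at h3
  refine I z h2 ?_
  rw [← mat_mat_of_invB h (D _ (h2.mem_imC c)), h3, map_zero]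

/-- **The product vanishes.** -/
theorem kill_of_rep (hb : Cy v b) (I : InjC (w + v) c') (hP : RepC rfl w b c c' (mat P))
    (h : P.all zeroL = true) {z : Cob Laz s} (hz : Cy w z) : ACob 3 1 (w + v) (Cob.cup z b) := by
  rw [← cupC_rfl]
  refine I _ (hz.cup hb rfl rfl) ?_
  rw [hP z hz]
  exact mat_mem (S := ⊥) (fun q hq => D5.vec_zeroL (List.all_eq_true.1 h q hq)) _

/-- the cohomology is spanned by one class -/
theorem rank_one_of_crd (I : InjC w c) (D : DimC 1 w c) {x y : Cob Laz s} (hx : Cy w x)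
    (hy : Cy w y) (hn : ¬ ACob 3 1 w x) : ∃ m : ℤ, ACob 3 1 w (y - m • x) := by
  have h0 : ∀ z, Cy w z → c z = c z 0 • ee 0 := fun z hz => by
    simpa using D5.Sys.eq_sum (D _ (hz.mem_imC c))
  have h1 : c x 0 ≠ 0 := fun h => hn (I x hx (by rw [h0 x hx, h, zero_smul]))
  obtain ⟨m, hm⟩ := ZMod.intCast_surjective (c y 0 / c x 0)
  refine ⟨m, I.aCob hy (hx.zsmul m) ?_⟩
  rw [map_zsmul, ← Int.cast_smul_eq_zsmul D5.F, hm, h0 x hx, h0 y hy, smul_smul]
  simp only [ee, Pi.smul_apply, Pi.single_eq_same, smul_eq_mul, mul_one]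
  rw [div_mul_cancel₀ _ h1]

/-- **`J1Alg` from coordinates.** -/
theorem j1Alg_of_crd {c : Cob Laz 2 →+ D5.V} (I : InjC 18 c) (D : DimC 1 18 c) : J1Alg :=
  fun _ ht => ⟨Alg.not_aCob_b3t ht, fun _ _ hx hdx hy hdy hn =>
    rank_one_of_crd I D ⟨hx, hdx⟩ ⟨hy, hdy⟩ hn⟩

/-! ### directly from bases of the cohomology of `W / v₁ ^ m` -/

section bas

open Alg Cert Finset

/-- all rows have length at most `n` -/
def lenB (n : ℕ) (M : List (List ℕ)) : Bool := M.all fun q => Nat.ble q.length n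

theorem mat_supp {M : List (List ℕ)} (h : lenB n M = true) (x : D5.V) (j : ℕ) (hj : n ≤ j) :
    mat M x j = 0 :=
  mat_mem (S := Submodule.pi {j | n ≤ j} fun _ => ⊥) (fun q hq _ hi => D5.vec_of_le
    ((Nat.le_of_ble_eq_true (List.all_eq_true.1 h q hq)).trans hi)) x j hj

variable {G : Type} [Fintype G] [DecidableEq G] {τ : Tw F3 G} {N w' w1 w2 : ℤ} {a m j n' s' : ℕ}
  {r r' : ℕ → G → Av F3}

theorem bas_span (B : Bas τ a m s w n r) {u : G → Av F3} (hu : u ∈ τ.WZ 3 (U1 a) w s) :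
    ∃ x : D5.V, (∀ j, n ≤ j → x j = 0) ∧ u - ∑ i ∈ range n, x i • r i ∈ τ.WT 3 (U1 m) w s := by
  obtain ⟨c, hc⟩ := B.span u hu
  refine ⟨fun i => if i < n then c i else 0, fun j hj => if_neg (by omega), ?_⟩
  rwa [sum_congr rfl fun i hi => congrArg (· • r i) (if_pos (mem_range.1 hi))]

theorem rows_sum {L : (G → Av F3) →+ (G → Av F3)} {S : AddSubgroup (G → Av F3)}
    (hP : ∀ i < n, L (r i) - ∑ l ∈ range n', vec (P.getD i []) l • r' l ∈ S) {y : D5.V}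
    (hy : ∀ j, n ≤ j → y j = 0) :
    L (∑ i ∈ range n, y i • r i) - ∑ l ∈ range n', mat P y l • r' l ∈ S := by
  have h1 : mat P y = ∑ i ∈ range n, y i • vec (P.getD i []) := by
    conv_lhs => rw [D5.Sys.eq_sum hy]
    rw [map_sum]
    exact sum_congr rfl fun i _ => by rw [map_smul, mat_ee]
  have h2 := sum_mem fun i hi => ZMod.smul_mem (hP i (mem_range.1 hi)) (y i)
  simp only [smul_sub, sum_sub_distrib, smul_sum, smul_smul] at h2
  rw [sum_comm] at h2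
  simp only [h1, map_sum, ZMod.map_smul, Finset.sum_apply, Pi.smul_apply, smul_eq_mul, sum_smul]
  exact h2

theorem sum_mem_WZ (mem : ∀ i < n, r i ∈ τ.WZ 3 (U1 a) w s) (y : D5.V) :
    ∑ i ∈ range n, y i • r i ∈ τ.WZ 3 (U1 a) w s :=
  sum_mem fun i hi => ZMod.smul_mem (mem i (mem_range.1 hi)) (y i)

variable (H : τ.Ok 3 N (U1 a)) (hb : Cy v b) (hw : w ≤ N) (hw' : w + v ≤ N)

include H hb hw hw'

/-- **Surjectivity from bases.** -/
theorem aSurj_of_bas (hm : m + j ≤ a) (hs : ∀ k ≤ s, τ.Exa 3 N k) (hs' : ∀ k < s + σ, τ.Exa 3 N k)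
    (e1 : w1 + 2 * (m + j : ℕ) = w) (T1 : Tors 3 F3 (s + 1) w1 j) (e2 : w2 + 2 * m = w + v)
    (T2 : Tors 3 F3 (s + σ) w2 m) (mem : ∀ i < n, r i ∈ τ.WZ 3 (U1 a) w s)
    (B' : Bas τ a m (s + σ) (w + v) n' r')
    (hP : ∀ i < n, τ.Lx 3 σ (cm 3 F3 σ b) (r i) - ∑ l ∈ range n', vec (P.getD i []) l • r' l ∈
      τ.WT 3 (U1 m) (w + v) (s + σ)) (hQ : lenB n Q = true) (h : invB n' Q P = true) :
    ASurj 3 1 1 b v s w := by
  refine H.aSurj_of hb.wt hb.d hw hw' hm hs hs' (by rw [← e1, mul_comm]; rfl) T1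
    (by rw [← e2, mul_comm]; rfl) T2 fun c hc => ?_
  obtain ⟨x, hx, h1⟩ := bas_span B' hc
  have h2 := rows_sum hP (mat_supp hQ x)
  rw [mat_mat_of_invB h hx] at h2
  refine ⟨_, Tw.WZ_mono (fun _ he => hm.trans he) (sum_mem_WZ mem (mat Q x)), ?_⟩
  have h3 := sub_mem h1 h2
  rwa [sub_sub_sub_cancel_right] at h3

omit hw in
theorem lx_bas (hm : m ≤ a) (B : Bas τ a m s w n r)
    (hP : ∀ i < n, τ.Lx 3 σ (cm 3 F3 σ b) (r i) - ∑ l ∈ range n', vec (P.getD i []) l • r' l ∈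
      τ.WT 3 (U1 m) (w + v) (s + σ)) {u : G → Av F3} (hu : u ∈ τ.WZ 3 (U1 a) w s) :
    ∃ x : D5.V, (∀ j, n ≤ j → x j = 0) ∧ u - ∑ i ∈ range n, x i • r i ∈ τ.WT 3 (U1 m) w s ∧
      τ.Lx 3 σ (cm 3 F3 σ b) u - ∑ l ∈ range n', mat P x l • r' l ∈
        τ.WT 3 (U1 m) (w + v) (s + σ) := by
  obtain ⟨x, hx, h1⟩ := bas_span B hu
  have h2 := (H.hyp1 (ZMod.natCast_self 3) hm hw').Lx_WT (add_comm v w) (cm_mem hb.wt)
    (by rw [dB_cm hb.d]; exact zero_mem _) (sub_mem hu.1 (sum_mem_WZ B.mem x).1) h1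
  have h3 := add_mem h2 (rows_sum hP hx)
  rw [map_sub, sub_add_sub_cancel] at h3
  exact ⟨x, hx, h1, h3⟩

/-- **Injectivity from bases.** -/
theorem aInj_of_bas (hm : m ≤ a) (hs : ∀ k < s, τ.Exa 3 N k) (e : w1 + 2 * m = w)
    (T : Tors 3 F3 s w1 m) (B : Bas τ a m s w n r) (B' : Bas τ a m (s + σ) (w + v) n' r')
    (hP : ∀ i < n, τ.Lx 3 σ (cm 3 F3 σ b) (r i) - ∑ l ∈ range n', vec (P.getD i []) l • r' l ∈
      τ.WT 3 (U1 m) (w + v) (s + σ)) (hl : lenB n' P = true) (h : invB n P Q = true) :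
    AInj 3 1 1 b v s w := by
  refine H.aInj_of hb.wt hw hw' hm hm hs (by rw [← e, mul_comm]; rfl) T fun u hu h0 => ?_
  obtain ⟨x, hx, h1, h2⟩ := lx_bas H hb hw' hm B hP hu
  have h3 := sub_mem h0 h2
  rw [sub_sub_cancel] at h3
  have h4 : mat P x = 0 := funext fun l =>
    (Nat.lt_or_ge l n').elim (B'.ind _ h3 l) (mat_supp hl x l)
  have h5 : x = 0 := by rw [← mat_mat_of_invB h hx, h4, map_zero]
  simpa [h5] using h1

/-- **The product vanishes.** -/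
theorem kill_of_bas (hm : m ≤ a) (hs : ∀ k < s + σ, τ.Exa 3 N k) (e : w2 + 2 * m = w + v)
    (T : Tors 3 F3 (s + σ) w2 m) (B : Bas τ a m s w n r)
    (hP : ∀ i < n, τ.Lx 3 σ (cm 3 F3 σ b) (r i) ∈ τ.WT 3 (U1 m) (w + v) (s + σ))
    {z : Cob Laz s} (hz : Cy w z) : ACob 3 1 (w + v) (Cob.cup z b) := by
  obtain ⟨x, _, _, h2⟩ := lx_bas (n' := 0) (r' := r) (P := []) H hb hw' hm B
    (by simpa using hP) (H.rho_map hw le_rfl hz.wt hz.d)
  rw [← cupC_rfl]
  refine H.rho_inj hw' hm hs (by rw [← e, mul_comm]; rfl) T (hz.cup hb rfl rfl).wt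
    (hz.cup hb rfl rfl).d ?_
  rw [Tw.Ps_cupC]
  simpa using h2

omit hb hw hw' in
/-- **`J1Alg` from a basis.** -/
theorem j1Alg_of_bas (hN : 18 ≤ N) (hm : m ≤ a) (hs : ∀ k < 2, τ.Exa 3 N k) (e : w1 + 2 * m = 18)
    (T : Tors 3 F3 2 w1 m) (B : Bas τ a m 2 18 1 r) : J1Alg :=
  fun _ ht => ⟨not_aCob_b3t ht, fun _ _ hx hdx hy hdy hn =>
    H.rank_one hN hm hs (by rw [← e, mul_comm]; rfl) T (r 0) (fun u hu => by
      obtain ⟨c, hc⟩ := B.span u hu
      obtain ⟨k, hk⟩ := ZMod.intCast_surjective (c 0)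
      exact ⟨k, by rwa [← Int.cast_smul_eq_zsmul F3, hk, ← sum_range_one fun i => c i • r i]⟩)
      hx hdx hy hdy hn⟩

end bas

end Vale.Agent.P236K.Core
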