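import Vale.Agent.P236K.Cert.Bar2
import Vale.Agent.P236K.Alg.Ops
import Vale.Agent.P236K.Core.D5C

/-!
# P236K, block Core: the matrices of the operators in the bases given by a barcode

* `nd B s t`, `rp B s t`: the dimension and the basis at the node `(s, t)`;
* `opS k`, `opT k`, `opL τ k`: the operators `v₁, h₀, b₀, h₁, β'₂, b₁, b₂` (no signs);
* `Row τ B k s t P`: the matrix of the operator `k` at the node `(s, t)` is `P`.
-/

noncomputable section

namespace Vale.Agent.P236K.Core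

open Vale.Agent.P236K.Alg Vale.Agent.P236K.Cert MvPolynomial Finset

variable {G : Type} [Fintype G] [DecidableEq G]

/-- the dimension of the node `(s, t)` -/
def nd (B : Bar G) (s t : ℕ) : ℕ := (B.alv 6 3 s t).length

/-- the basis of the node `(s, t)` -/
def rp (B : Bar G) (s t : ℕ) : ℕ → G → Av F3 :=
  B.rep s t (fun j => ((B.alv 6 3 s t).getD j (0, 0)).1) fun j => ((B.alv 6 3 s t).getD j (0, 0)).2

/-- the degrees of the operators -/
def opS : ℕ → ℕ
  | 0 => 0
  | 1 => 1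
  | 2 => 2
  | 3 => 1
  | 4 => 1
  | _ => 2

/-- the weights of the operators, divided by two -/
def opT : ℕ → ℕ
  | 0 => 1
  | 1 => 1
  | 2 => 3
  | 3 => 3
  | 4 => 7
  | 5 => 9
  | _ => 27

/-- the operators on `W`, modulo `v₁ ^ 3` -/
def opL (τ : Tw F3 G) : ℕ → (G → Av F3) → (G → Av F3)
  | 0 => vs 1
  | 1 => τ.Lh 1
  | 2 => τ.LB 1
  | 3 => τ.Lh 3
  | 4 => fun u => (2 * X 1 : Av F3) • τ.Lh 3 u + (X 0 ^ 2 * X 1 : Av F3) • τ.Lh 1 u +
      (X 0 : Av F3) • τ.Lh 6 u
  | 5 => τ.LB 3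
  | _ => τ.LB 9

/-- `P` is the matrix of the operator `k` at the node `(s, t)` -/
def Row (τ : Tw F3 G) (B : Bar G) (k s t : ℕ) (P : List (List ℕ)) : Prop :=
  ∀ i < nd B s t, opL τ k (rp B s t i) - ∑ l ∈ range (nd B (s + opS k) (t + opT k)),
    D5.vec (P.getD i []) l • rp B (s + opS k) (t + opT k) l ∈
      τ.WT 3 (U1 3) (2 * ((t + opT k : ℕ) : ℤ)) (s + opS k)

/-- a list of matrices -/
abbrev Rows : Type := List (ℕ × ℕ × ℕ × List (List ℕ))

/-- all the matrices of the list are correct -/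
def Rows.Ok (τ : Tw F3 G) (B : Bar G) (L : Rows) : Prop :=
  ∀ r ∈ L, Row τ B r.1 r.2.1 r.2.2.1 r.2.2.2

theorem Rows.Ok.nil (τ : Tw F3 G) (B : Bar G) : Rows.Ok τ B [] := fun _ h => absurd h (by simp)

theorem Rows.Ok.append {τ : Tw F3 G} {B : Bar G} {L L' : Rows} (h : Rows.Ok τ B L)
    (h' : Rows.Ok τ B L') : Rows.Ok τ B (L ++ L') :=
  fun r hr => (List.mem_append.1 hr).elim (h r) (h' r)

end Vale.Agent.P236K.Core
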