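import Vale.Agent.P236K.Core.Nd
import Vale.Agent.P236K.Core.RowS
import Vale.Agent.P236K.Core.EndW
import Vale.Agent.P236K.Cert.FProg

/-!
# P236K, block Core: the nodes of a barcode table

* `cB τ B` : the coordinates given by the canonical representatives `rp B s t`;
* `Tab.node`, `Tab.dim`, `Tab.injC`, `Tab.sur`, `Tab.mx` : their properties;
* `Tab.aInj`, `Tab.aSurj`, `Tab.kill`, `Tab.j1Alg` : statements on the cohomology modulo `3`.
-/

set_option linter.unusedSectionVars false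

noncomputable section

namespace Vale.Agent.P236K.Core

open Vale.Agent.P251.F Vale.Agent.P257.H314 Vale.Agent.P236K.SS Vale.Agent.P236K.Alg
  Vale.Agent.P236K.Cert D5 Finset
open Vale.Agent.P251.S (IC)

/-! ### one-sided inverses of matrices -/

theorem lenB_getD {n : ℕ} {P : List (List ℕ)} (h : lenB n P = true) (i : ℕ) :
    (P.getD i []).length ≤ n := by
  rcases Nat.lt_or_ge i P.length with h1 | h1
  · rw [List.getD_eq_getElem _ _ h1]
    exact Nat.le_of_ble_eq_true (List.all_eq_true.1 h _ (List.getElem_mem h1))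
  · rw [List.getD_eq_default _ _ h1]
    exact Nat.zero_le n

theorem mat_zero {P : List (List ℕ)} (h : P.all zeroL = true) (x : V) : mat P x = 0 := by
  induction P generalizing x with
  | nil => rfl
  | cons r P ih =>
    rw [List.all_cons, Bool.and_eq_true] at h
    rw [mat_cons, vec_zeroL h.1, ih h.2, smul_zero, add_zero]

/-- clear the entry `j` of `r` with the row `p` -/
def clr (j : ℕ) (p r : List ℕ × List ℕ) : List ℕ × List ℕ :=
  (axL (2 * r.1.getD j 0) p.1 r.1, axL (2 * r.1.getD j 0) p.2 r.2)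

/-- elimination of the columns `j, j + 1, …` -/
def gjA : ℕ → ℕ → List (List ℕ × List ℕ) → List (List ℕ × List ℕ) → List (List ℕ)
  | 0, _, _, D => D.map Prod.snd
  | k + 1, j, U, D =>
    match U.find? fun r => !Nat.beq (r.1.getD j 0 % 3) 0 with
    | none => gjA k (j + 1) U (D ++ [([], [])])
    | some r =>
      let p := (axL (r.1.getD j 0) r.1 [], axL (r.1.getD j 0) r.2 [])
      gjA k (j + 1) (U.map (clr j p)) (D.map (clr j p) ++ [p])

/-- a generalised inverse of a matrix with `n` rows and `n'` columns (not proved, only tested) -/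
def ginv (n n' : ℕ) (P : List (List ℕ)) : List (List ℕ) :=
  gjA n' 0 ((List.range n).map fun i => (P.getD i [], unit i)) []

/-- the rows are independent -/
def injM (n n' : ℕ) (P : List (List ℕ)) : Bool := invB n P (ginv n n' P)

/-- the rows span -/
def surM (n n' : ℕ) (P : List (List ℕ)) : Bool := lenB n (ginv n n' P) && invB n' (ginv n n' P) P

theorem injM_sound {n n' : ℕ} {P : List (List ℕ)} (h : injM n n' P = true) {x : V}
    (hx : ∀ j, n ≤ j → x j = 0) (h0 : mat P x = 0) : x = 0 := by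
  rw [← mat_mat_of_invB h hx, h0, map_zero]

theorem surM_sound {n n' : ℕ} {P : List (List ℕ)} (h : surM n n' P = true) {y : V}
    (hy : ∀ j, n' ≤ j → y j = 0) : ∃ x : V, (∀ j, n ≤ j → x j = 0) ∧ mat P x = y := by
  rw [surM, Bool.and_eq_true] at h
  exact ⟨_, mat_supp h.1 y, mat_mat_of_invB h.2 hy⟩

/-! ### the nodes -/

variable {G : Type} [Fintype G] [DecidableEq G]

/-- the coordinates -/
def cB (τ : Tw F3 G) (B : Bar G) : ∀ s : ℕ, ℤ → (Cob Laz s →+ V) := cF τ 6 3 (nd B) (rp B)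

/-- the bars which start in weight at most `2 t` are short and end in weight at most `2 (t + j)` -/
def torsB (B : Bar G) (s t j : ℕ) : Bool :=
  (List.range (t + 1)).all fun t' => (List.range (B.cnt s t')).all fun x =>
    B.src s t' x || (Nat.blt (B.len s t' x) 6 && Nat.ble (t' + B.len s t' x) (t + j))

/-- the test for `Tors` in weight `2 (t - k)` -/
def torK (B : Bar G) (s t k : ℕ) : Bool := Nat.blt t k || torsB B s (t - k) 3

/-- the coordinates of the node are faithful -/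
def injB (B : Bar G) (s t : ℕ) : Bool := torK B s t 3

/-- all coordinates of the node are attained -/
def surB (B : Bar G) (s t : ℕ) : Bool := torK B (s + 1) t 6

/-- `P` is the matrix of `L` from the node `(s, t)` to the node `(s', t')` -/
def RowT (τ : Tw F3 G) (B : Bar G) (L : (G → Av F3) → G → Av F3) (s t s' t' : ℕ)
    (P : List (List ℕ)) : Prop :=
  ∀ i < nd B s t, L (rp B s t i) - ∑ l ∈ range (nd B s' t'), vec (P.getD i []) l • rp B s' t' l ∈
    τ.WT 3 (U1 3) (2 * (t' : ℤ)) s'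

/-- the negative of a matrix -/
def negM (P : List (List ℕ)) : List (List ℕ) := P.map fun r => axL 2 r []

theorem vec_negM (P : List (List ℕ)) (i : ℕ) :
    vec ((negM P).getD i []) = -vec (P.getD i []) := by
  rw [← mat_ee, ← mat_ee, negM, mat_map_axL, show ((2 : ℕ) : F) = -1 from rfl, neg_one_smul]

variable {τ : Tw F3 G} {B : Bar G}

theorem RowT.congr {L L' : (G → Av F3) → G → Av F3} {s t s' t' : ℕ} {P : List (List ℕ)}
    (h : RowT τ B L s t s' t' P) (e : ∀ u, L' u - L u ∈ JW F3 G (U1 3)) :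
    RowT τ B L' s t s' t' P := fun i hi => by
  have h1 := add_mem (Tw.mem_WT_of_JW (e (rp B s t i))) (h i hi)
  rwa [sub_add_sub_cancel] at h1

theorem RowT.of_eq {L L' : (G → Av F3) → G → Av F3} {s t s' t' : ℕ} {P : List (List ℕ)}
    (h : RowT τ B L s t s' t' P) (e : ∀ u, L' u = L u) : RowT τ B L' s t s' t' P :=
  funext e ▸ h

theorem RowT.neg {L : (G → Av F3) → G → Av F3} {s t s' t' : ℕ} {P : List (List ℕ)}
    (h : RowT τ B L s t s' t' P) : RowT τ B (fun u => -L u) s t s' t' (negM P) := fun i hi => by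
  have h1 := neg_mem (h i hi)
  simp only [vec_negM, Pi.neg_apply, neg_smul, sum_neg_distrib]
  rwa [neg_sub'] at h1

theorem Row.rowT {k s t : ℕ} {P : List (List ℕ)} (h : Row τ B k s t P) :
    RowT τ B (opL τ k) s t (s + opS k) (t + opT k) P := h

theorem rowT_of_row {n : ℕ} {τ : Tw F3 (Fin n)} {F : FT} (h6 : F.pi = 6) (h3 : F.b = 3) {o : Opr}
    {s t : ℕ} {P : List (List ℕ)} (h : F.Row τ o s t P) :
    RowT τ (F.bar τ) (o.sem τ) s t (s + o.sd) (t + o.wt) P := by
  have hm : F.m = 3 := by rw [FT.m, h6, h3]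
  have e : ∀ s t, F.alv s t = (F.bar τ).alv 6 3 s t := fun s t => by rw [← F.alv_eq τ, h6, hm]
  unfold FT.Row FT.rep at h
  simp only [e, hm] at h
  exact h

theorem lenB_negM {n : ℕ} {P : List (List ℕ)} (h : lenB n P = true) : lenB n (negM P) = true := by
  have key : ∀ r : List ℕ, (axL 2 r []).length = r.length := fun r => by
    induction r with
    | nil => rfl
    | cons a r ih => rw [axL, List.length_cons, List.length_cons, ih]
  refine List.all_eq_true.2 fun r hr => ?_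
  obtain ⟨r', h1, rfl⟩ := List.mem_map.1 hr
  rw [key]
  exact List.all_eq_true.1 h r' h1

variable (τ B) in
/-- the table is correct -/
structure Tab (N : ℤ) (S T : ℕ) : Prop where
  good : B.Good τ 6 N S T
  exa : ∀ r < S, τ.Exa 3 N r

namespace Tab

variable {N : ℤ} {S T s t s' t' : ℕ} (H : Tab τ B N S T)

include H

theorem le (ht : t ≤ T) : 2 * (t : ℤ) ≤ N := by
  have := H.good.le
  omega

theorem bas (hs : s < S) (ht : t ≤ T) : Bas τ 6 3 s (2 * (t : ℤ)) (nd B s t) (rp B s t) :=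
  H.good.bas_alv (by norm_num) hs ht rfl

theorem node (hs : s < S) (ht : t ≤ T) : Nd 3 (cB τ B) s t := by
  rw [Nd, cB, cF_eq]
  exact isNd_cOf (H.bas hs ht) H.good.ok (H.le ht) (by norm_num) fun q hq => H.exa q (by omega)

theorem dim (hs : s < S) (ht : t ≤ T) (z : Cob Laz s) (k : ℕ) (hk : nd B s t ≤ k) :
    cB τ B s (2 * (t : ℤ)) z k = 0 := by
  rw [cB, cF_eq]
  exact dim_cOf (H.bas hs ht) z hk

theorem tors (hs : s < S) (ht : t ≤ T) {j : ℕ} (h : torsB B s t j = true) :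
    Tors 3 F3 s (2 * (t : ℤ)) j :=
  H.good.tors hs (fun q hq => H.exa q (by omega)) ht fun t' h1 x hx h2 => by
    have h3 := List.all_eq_true.1 (List.all_eq_true.1 h t' (List.mem_range.2 (by omega))) x
      (List.mem_range.2 hx)
    rw [h2, Bool.false_or, Bool.and_eq_true, Nat.blt_eq, Nat.ble_eq] at h3
    exact h3

theorem torK (hs : s < S) (ht : t ≤ T) {k : ℕ} (h : torK B s t k = true) :
    Tors 3 F3 s (2 * (t : ℤ) - 2 * k) 3 := by
  rcases Nat.lt_or_ge t k with h1 | h1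
  · exact tors_neg _ (by omega) _
  · rw [Core.torK, Bool.or_eq_true, Nat.blt_eq] at h
    rw [show 2 * (t : ℤ) - 2 * k = 2 * ((t - k : ℕ) : ℤ) by omega]
    exact H.tors hs (by omega) (h.resolve_left (by omega))

theorem injC (hs : s < S) (ht : t ≤ T) (h : injB B s t = true) :
    InjC (2 * (t : ℤ)) (cB τ B s (2 * (t : ℤ))) := by
  rw [cB, cF_eq]
  exact injC_cOf (H.bas hs ht) H.good.ok (H.le ht) (by norm_num) (fun q hq => H.exa q (by omega))
    (sub_add_cancel _ _) (H.torK hs ht h)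

theorem sur (hs : s + 1 < S) (ht : t ≤ T) (h : surB B s t = true) (x : V)
    (hx : ∀ k, nd B s t ≤ k → x k = 0) : x ∈ imC (2 * (t : ℤ)) (cB τ B s (2 * (t : ℤ))) := by
  rw [cB, cF_eq]
  exact sur_cOf (H.bas (by omega) ht) H.good.ok (H.le ht) (i := 3) rfl
    (fun q hq => H.exa q (by omega)) (sub_add_cancel _ _) (H.torK hs ht h) hx

/-- the defining property of the coordinates -/
theorem Ps_sub (hs : s < S) (ht : t ≤ T) {z : Cob Laz s} (hz : Cy (2 * (t : ℤ)) z) :
    τ.Ps 3 s z - ∑ i ∈ range (nd B s t), cB τ B s (2 * (t : ℤ)) z i • rp B s t i ∈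
      τ.WT 3 (U1 3) (2 * (t : ℤ)) s := by
  rw [cB, cF_eq]
  exact Ps_sub_cOf (H.bas hs ht) H.good.ok (H.le ht) hz

variable {σ : ℕ} {y : Cob Laz σ} {v : ℤ} {P : List (List ℕ)}

theorem repC (hs' : s' < S) (ht : t ≤ T) (ht' : t' ≤ T) (e : s + σ = s')
    (e' : 2 * (t : ℤ) + v = 2 * (t' : ℤ)) (hy : Cy v y) (hl : lenB (nd B s' t') P = true)
    (h : RowT τ B (τ.Lx 3 σ (cm 3 F3 σ y)) s t s' t' P) :
    RepC e (2 * (t : ℤ)) y (cB τ B s (2 * (t : ℤ))) (cB τ B s' (2 * (t' : ℤ))) (mat P) := by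
  rw [cB, cF_eq, cF_eq]
  exact repC_cOf (H.bas (by omega) ht) (H.bas hs' ht') H.good.ok (H.le ht) (H.le ht') (by norm_num)
    e e' hy fun i hi => ⟨lenB_getD hl i, h i hi⟩

theorem mx (hs' : s' < S) (ht : t ≤ T) (ht' : t' ≤ T) (e : s + σ = s')
    (e' : 2 * (t : ℤ) + v = 2 * (t' : ℤ)) (hy : Cy v y) (hl : lenB (nd B s' t') P = true)
    (h : RowT τ B (τ.Lx 3 σ (cm 3 F3 σ y)) s t s' t' P) : Mx (cB τ B) y s t s' t' P :=
  ⟨e, H.repC hs' ht ht' e e' hy hl h⟩

theorem repC_zero (hs' : s' < S) (ht' : t' ≤ T) (e : s + σ = s') (w : ℤ)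
    (hl : lenB (nd B s' t') P = true) (h : nd B s' t' = 0) :
    RepC e w y (cB τ B s w) (cB τ B s' (2 * (t' : ℤ))) (mat P) := fun z _ => funext fun k => by
  rw [H.dim hs' ht' _ k (by omega), mat_supp hl _ _ (by omega)]

variable (hs' : s + σ < S) (ht : t ≤ T) (ht' : t' ≤ T) {w : ℤ} (ew : w = 2 * (t : ℤ))
  (e' : w + v = 2 * (t' : ℤ)) (hy : Cy v y)
  (h : RepC rfl (2 * (t : ℤ)) y (cB τ B s (2 * (t : ℤ))) (cB τ B (s + σ) (2 * (t' : ℤ))) (mat P))

include hs' ht ht' ew e' hy h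

theorem aInj (h1 : injB B s t = true) (h2 : injM (nd B s t) (nd B (s + σ) t') P = true) :
    AInj 3 1 1 y v s w := by
  subst ew
  intro z hz hd h3
  refine H.injC (by omega) ht h1 z ⟨hz, hd⟩ (injM_sound h2 (H.dim (by omega) ht z) ?_)
  rw [← h z ⟨hz, hd⟩]
  exact (H.node hs' ht').cob _ (Cy.cup ⟨hz, hd⟩ hy rfl e') (e' ▸ h3)

theorem aSurj (hs : s + 1 < S) (h0 : surB B s t = true) (h1 : injB B (s + σ) t' = true)
    (h2 : surM (nd B s t) (nd B (s + σ) t') P = true) : ASurj 3 1 1 y v s w := by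
  subst ew
  intro c hc hd
  rw [e'] at hc ⊢
  obtain ⟨x, hx, h3⟩ := surM_sound h2 (H.dim hs' ht' c)
  obtain ⟨z, hz, rfl⟩ := H.sur hs ht h0 x hx
  rw [← h z hz] at h3
  exact ⟨z, hz.wt, hz.d, (H.injC hs' ht' h1).aCob ⟨hc, hd⟩ (hz.cup hy rfl e') h3.symm⟩

theorem kill (h1 : injB B (s + σ) t' = true) (h2 : P.all zeroL = true) {z : Cob Laz s}
    (hz : Cy w z) : ACob 3 1 (w + v) (Cob.cup z y) := by
  subst ew
  rw [e']
  exact H.injC hs' ht' h1 _ (hz.cup hy rfl e') ((h z hz).trans (mat_zero h2 _))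

omit hs' ht ht' ew e' hy h

theorem j1Alg (hS : 2 < S) (hT : 9 ≤ T) (h1 : injB B 2 9 = true) (h2 : nd B 2 9 = 1) : J1Alg :=
  j1Alg_of H.good.ok (H.le hT) (fun r hr => H.exa r (by omega)) (H.torK hS hT h1) (rp B 2 9 0)
    fun u hu => by
      obtain ⟨c, hc⟩ := (H.bas hS hT).span u hu
      obtain ⟨m, hm⟩ := ZMod.intCast_surjective (c 0)
      rw [h2, sum_range_one, ← hm, Int.cast_smul_eq_zsmul] at hc
      exact ⟨m, hc⟩

end Tab

end Vale.Agent.P236K.Core
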