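import Vale.Agent.P236K.Core.Th
import Vale.Agent.P236K.Core.Tab
import Vale.Agent.P236K.Cert.FProg
import Vale.Agent.P236K.Cert.Key

/-!
# P236K, block Core: `ThAlg` from the matrices of a barcode table

* `ThD`, `ThD.test`, `ThD.Ok`, `Tab.thAlg` : the matrices, their test and the theorem;
* `ThO.oLB e`, `ThO.oLX`, `ThO.oLT` : the operators; `ThD.prods`, `ThD.ok_of`, `thAlg_of_prods`.
-/

set_option linter.unusedSectionVars false

noncomputable section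

namespace Vale.Agent.P236K.Core

open Vale.Agent.P251.F Vale.Agent.P257.H314 Vale.Agent.P236K.SS Vale.Agent.P236K.Alg
  Vale.Agent.P236K.Cert D5 Finset MvPolynomial

variable {G : Type} [Fintype G] [DecidableEq G]

/-- the vector with the coordinates `x` -/
def cmV (B : Bar G) (s t : ℕ) (x : V) : G → Av F3 := ∑ l ∈ range (nd B s t), x l • rp B s t l

variable {τ : Tw F3 G} {B : Bar G}

theorem cmV_smul (s t : ℕ) (c : F) (x : V) : cmV B s t (c • x) = c • cmV B s t x := by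
  simp only [cmV, smul_sum, Pi.smul_apply, smul_eq_mul, smul_smul]

theorem cmV_zero (s t : ℕ) : cmV B s t 0 = 0 := by
  simp only [cmV, Pi.zero_apply, zero_smul, sum_const_zero]

theorem RowT.cmV {L : (G → Av F3) →+ (G → Av F3)} {s t s' t' : ℕ} {P : List (List ℕ)}
    (h : RowT τ B L s t s' t' P) (hP : P.length ≤ nd B s t) (x : V) :
    L (cmV B s t x) - cmV B s' t' (mat P x) ∈ τ.WT 3 (U1 3) (2 * (t' : ℤ)) s' := by
  have h1 := Tw.row_sum L (R := fun i => vec (P.getD i [])) h x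
  rw [Core.cmV, Core.cmV, mat_eq_sum P hP]
  simpa only [Finset.sum_apply, Pi.smul_apply, smul_eq_mul] using h1

/-- the rows of `R₁ R₂ R₃`, with the coordinate `k` in front -/
def kerM (n k : ℕ) (R1 R2 R3 : List (List ℕ)) : List (List ℕ) :=
  (List.range n).map fun i => cond (Nat.beq i k) 1 0 :: vm (vm (R1.getD i []) R2) R3

theorem mat_kerM {n k : ℕ} {R1 R2 R3 : List (List ℕ)} (h : R1.length ≤ n) {x : V} (h0 : x k = 0)
    (h1 : mat R3 (mat R2 (mat R1 x)) = 0) : mat (kerM n k R1 R2 R3) x = 0 := by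
  have e : ∀ i ∈ range n, (kerM n k R1 R2 R3).getD i [] =
      cond (Nat.beq i k) 1 0 :: vm (vm (R1.getD i []) R2) R3 := fun i hi => by
    rw [List.getD_eq_getElem _ _ (by simpa [kerM] using hi)]
    simp [kerM]
  rw [mat_eq_sum _ (n := n) (by simp [kerM]), sum_congr rfl fun i hi => by rw [e i hi]]
  refine vec_ext ?_ fun l => ?_
  · rw [Finset.sum_apply]
    refine sum_eq_zero fun i _ => ?_
    rw [Pi.smul_apply, vec_cons_zero]
    by_cases hi : i = k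
    · rw [hi, h0, zero_smul]
    · rw [show Nat.beq i k = false from Bool.eq_false_iff.2 fun h => hi (Nat.eq_of_beq_eq_true h),
        cond_false, Nat.cast_zero, smul_zero]
  · rw [mat_eq_sum R1 h, map_sum, map_sum] at h1
    simpa only [Finset.sum_apply, Pi.smul_apply, vec_cons_succ, vec_vm, map_smul, Pi.zero_apply]
      using congrFun h1 l

/-- the kernel of `R₁ R₂ R₃` is spanned by `θ` -/
def kerT (n m : ℕ) (θ : List ℕ) (R1 R2 R3 : List (List ℕ)) : Bool :=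
  (List.range n).any fun k => !Nat.beq (θ.getD k 0 % 3) 0 && injM n (m + 1) (kerM n k R1 R2 R3)

theorem kerT_sound {n m : ℕ} {θ : List ℕ} {R1 R2 R3 : List (List ℕ)}
    (h : kerT n m θ R1 R2 R3 = true) (hR : R1.length ≤ n) (hθ : θ.length ≤ n)
    (h0 : zeroL (vm (vm (vm θ R1) R2) R3) = true) {x : V} (hx : ∀ j, n ≤ j → x j = 0)
    (h1 : mat R3 (mat R2 (mat R1 x)) = 0) : ∃ l : F, x = l • vec θ := by
  obtain ⟨k, -, hk⟩ := List.any_eq_true.1 h
  rw [Bool.and_eq_true, Bool.not_eq_true'] at hk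
  have h2 : vec θ k ≠ 0 := fun h2 => by
    have h3 := (ZMod.natCast_eq_zero_iff _ 3).1 h2
    rw [Nat.mod_eq_zero_of_dvd h3] at hk
    exact absurd hk.1 (by decide)
  have h3 := vec_zeroL h0
  rw [vec_vm, vec_vm, vec_vm] at h3
  refine ⟨x k / vec θ k, sub_eq_zero.1 (injM_sound hk.2 (fun j hj => ?_) (mat_kerM hR ?_ ?_))⟩
  · rw [Pi.sub_apply, Pi.smul_apply, hx j hj, vec_of_le (hθ.trans hj), smul_zero, sub_zero]
  · rw [Pi.sub_apply, Pi.smul_apply, smul_eq_mul, div_mul_cancel₀ _ h2, sub_self]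
  · rw [map_sub, map_sub, map_sub, map_smul, map_smul, map_smul, h1, h3, smul_zero, sub_zero]

/-- the matrices which are needed for `ThAlg` -/
structure ThD where
  /-- the class `h₃ + c β'_7` in the node `(1, 27)` -/
  x : List ℕ
  /-- `b` on `(1, 27)` -/
  P1 : List (List ℕ)
  /-- `b` on `(3, 30)` -/
  P2 : List (List ℕ)
  /-- `b` on `(5, 33)` -/
  P3 : List (List ℕ)
  /-- the class `θ` in the node `(2, 27)` -/
  th : List ℕ
  /-- `θ` on `(2, 27)` -/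
  A1 : List (List ℕ)
  /-- `θ` on `(4, 54)` -/
  A2 : List (List ℕ)
  /-- `b` on `(2, 27)` -/
  R1 : List (List ℕ)
  /-- `b` on `(4, 30)` -/
  R2 : List (List ℕ)
  /-- `b` on `(6, 33)` -/
  R3 : List (List ℕ)

/-- the test of the matrices -/
def ThD.test (D : ThD) (B : Bar G) : Bool :=
  Nat.beq (nd B 0 0) 1 && injB B 7 36 && injB B 6 81 &&
    Nat.ble D.P1.length (nd B 1 27) && Nat.ble D.P2.length (nd B 3 30) &&
    Nat.ble D.P3.length (nd B 5 33) && Nat.ble D.A1.length (nd B 2 27) &&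
    Nat.ble D.A2.length (nd B 4 54) && Nat.ble D.R1.length (nd B 2 27) &&
    Nat.ble D.R2.length (nd B 4 30) && Nat.ble D.R3.length (nd B 6 33) &&
    Nat.ble D.th.length (nd B 2 27) && lenB (nd B 8 36) D.R3 &&
    zeroL (vm (vm (vm D.x D.P1) D.P2) D.P3) && zeroL (vm (vm D.th D.A1) D.A2) &&
    zeroL (vm (vm (vm D.th D.R1) D.R2) D.R3) &&
    kerT (nd B 2 27) (nd B 8 36) D.th D.R1 D.R2 D.R3

/-- the matrices are correct -/
structure ThD.Ok (D : ThD) (τ : Tw F3 G) (B : Bar G) (c c2 c0 c1 : ℤ) : Prop where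
  x : RowT τ B (τ.LX c) 0 0 1 27 [D.x]
  P1 : RowT τ B (τ.LB 1) 1 27 3 30 D.P1
  P2 : RowT τ B (τ.LB 1) 3 30 5 33 D.P2
  P3 : RowT τ B (τ.LB 1) 5 33 7 36 D.P3
  th : RowT τ B (τ.LT c2 c0 c1) 0 0 2 27 [D.th]
  A1 : RowT τ B (τ.LT c2 c0 c1) 2 27 4 54 D.A1
  A2 : RowT τ B (τ.LT c2 c0 c1) 4 54 6 81 D.A2
  R1 : RowT τ B (τ.LB 1) 2 27 4 30 D.R1
  R2 : RowT τ B (τ.LB 1) 4 30 6 33 D.R2
  R3 : RowT τ B (τ.LB 1) 6 33 8 36 D.R3

theorem mat_one (a : List ℕ) (x : V) : mat [a] x = x 0 • vec a := by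
  rw [mat_cons, mat_nil, add_zero]

namespace Tab

variable {N : ℤ} {S T s t : ℕ} (H : Tab τ B N S T)

include H

theorem cmV_mem (hs : s < S) (ht : t ≤ T) (x : V) :
    cmV B s t x ∈ τ.WK 3 Uall s (2 * (t : ℤ)) :=
  (sum_mem_WZ (H.bas hs ht).mem x).1

theorem exists_one (hs : 0 < S) : ∃ e : V, τ.one - cmV B 0 0 e ∈ τ.WT 3 (U1 3) 0 0 ∧
    (nd B 0 0 = 1 → e 0 ≠ 0) := by
  have h1 := H.good.ok.rho_map (j := 6) (H.le (Nat.zero_le T)) le_rfl (isV_pow 3 0).wt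
    (isV_pow 3 0).d
  rw [Tw.Ps_eq_Lx, (isV_pow 3 0).cm, Tw.Lx_vP, pow_zero, one_smul] at h1
  obtain ⟨e, he⟩ := (H.bas hs (Nat.zero_le T)).span _ h1
  refine ⟨e, he, fun h2 h3 => ?_⟩
  rw [h2, sum_range_one, h3, zero_smul, sub_zero] at he
  obtain ⟨b, hb, h4⟩ := Tw.mem_WT.1 he
  have h5 := mem_JA'.1 (h4 τ.g0) 0 (by simp [mem_U1])
  rw [AddSubgroup.mem_bot.1 hb, Tw.one, Pi.single_eq_same] at h5
  simp at h5

theorem kerB (hS : 8 < S) (hT : 36 ≤ T) {θ : List ℕ} {R1 R2 R3 : List (List ℕ)}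
    (r1 : RowT τ B (τ.LB 1) 2 27 4 30 R1) (r2 : RowT τ B (τ.LB 1) 4 30 6 33 R2)
    (r3 : RowT τ B (τ.LB 1) 6 33 8 36 R3) (l1 : R1.length ≤ nd B 2 27)
    (l2 : R2.length ≤ nd B 4 30) (l3 : R3.length ≤ nd B 6 33) (l0 : θ.length ≤ nd B 2 27)
    (l4 : lenB (nd B 8 36) R3 = true) (h0 : zeroL (vm (vm (vm θ R1) R2) R3) = true)
    (hk : kerT (nd B 2 27) (nd B 8 36) θ R1 R2 R3 = true) {e : F} (he : e ≠ 0) :
    τ.KerB 6 (cmV B 2 27 (e • vec θ)) := by
  intro u hu h1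
  obtain ⟨x, hx, hc⟩ := bas_span (H.bas (s := 2) (t := 27) (by omega) (by omega)) hu
  have h2 := H.good.ok.row_bbb (j := 3) (by norm_num) (H.le hT) (by norm_num) (by norm_num)
    (by norm_num) hu.1 (H.cmV_mem (t := 27) (by omega) (by omega) x)
    (H.cmV_mem (t := 30) (by omega) (by omega) _) (H.cmV_mem (t := 33) (by omega) (by omega) _) hc
    (r1.cmV l1 x) (r2.cmV l2 _) (r3.cmV l3 _)
  have h3 := sub_mem h1 h2
  rw [sub_sub_cancel] at h3
  obtain ⟨l, rfl⟩ := kerT_sound hk l1 l0 h0 hx (funext fun j => by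
    rcases Nat.lt_or_ge j (nd B 8 36) with hj | hj
    · exact (H.bas (s := 8) (t := 36) hS hT).ind _ h3 j hj
    · exact mat_supp l4 _ j hj)
  obtain ⟨m, hm⟩ := ZMod.intCast_surjective (l / e)
  refine ⟨m, ?_⟩
  rw [← Int.cast_smul_eq_zsmul F, ← cmV_smul, smul_smul, hm, div_mul_cancel₀ _ he]
  exact hc

/-- **`ThAlg` from the table.** -/
theorem thAlg (hS : 8 < S) (hT : 81 ≤ T) {D : ThD} {c c2 c0 c1 : ℤ} (h : D.Ok τ B c c2 c0 c1)
    (hD : D.test B = true) : ThAlg := by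
  simp only [ThD.test, Bool.and_eq_true, Nat.ble_eq, Nat.beq_eq] at hD
  obtain ⟨⟨⟨⟨⟨⟨⟨⟨⟨⟨⟨⟨⟨⟨⟨⟨n0, i7⟩, i6⟩, p1⟩, p2⟩, p3⟩, a1⟩, a2⟩, l1⟩, l2⟩, l3⟩, l0⟩, l4⟩, z1⟩, z2⟩,
    z3⟩, hk⟩ := hD
  obtain ⟨e, he, he'⟩ := H.exists_one (by omega)
  have K := H.good.ok
  have m0 := H.cmV_mem (s := 0) (by omega) (Nat.zero_le T) e
  have m1 : τ.one ∈ τ.WK 3 Uall 0 0 := Tw.bas_mem (e := 0) K.sd0 (by rw [K.dg0]; simp) (mem_Uall _)
  have eT : ∀ {s t s' t' P}, RowT τ B (τ.LT c2 c0 c1) s t s' t' P →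
      RowT τ B (τ.Lx 3 2 (thB F3 c2 c0 c1)) s t s' t' P := fun h => h.of_eq (Tw.Lx_thB _ _ _)
  have g0 := K.row_comp (j := 3) (by norm_num) (H.le (t := 27) (by omega)) (by norm_num)
    (xB_mem h33 c) (by rw [dB_xB h33]; exact zero_mem _) m1 m0 he
    ((h.x.congr (Tw.Lx_xB_sub c)).cmV n0.ge e)
  have g0' := sub_mem g0 (Tw.mem_WT_of_JW (Tw.Lx_xB_sub (τ := τ) c τ.one))
  rw [sub_sub_sub_cancel_left, mat_one] at g0'
  have g3 := h.P3.cmV p3 (mat D.P2 (mat D.P1 (e 0 • vec D.x)))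
  have y1 := vec_zeroL z1
  rw [vec_vm, vec_vm, vec_vm] at y1
  rw [map_smul, map_smul, map_smul (mat D.P3), y1, smul_zero, cmV_zero, sub_zero, ← map_smul,
    ← map_smul] at g3
  have h1 := K.row_comp (j := 3) (by norm_num) (H.le (t := 27) (by omega)) (by norm_num)
    (thB_mem c2 c0 c1) (dB_thB h33 _ _ _) m1 m0 he ((eT h.th).cmV n0.ge e)
  have h2 := (eT h.A1).cmV a1 (e 0 • vec D.th)
  have h3 := (eT h.A2).cmV a2 (mat D.A1 (e 0 • vec D.th))
  have y2 := vec_zeroL z2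
  rw [vec_vm, vec_vm] at y2
  rw [map_smul, map_smul (mat D.A2), y2, smul_zero, cmV_zero, sub_zero, ← map_smul] at h3
  rw [Tw.Lx_thB] at h1 h2 h3
  rw [mat_one] at h1
  exact thAlg_of_W K (by norm_num) (H.le hT) (fun r hr => H.exa r (by omega))
    (H.torK (s := 7) (t := 36) (by omega) (by omega) i7)
    (H.torK (s := 6) (t := 81) (by omega) hT i6) (H.cmV_mem (t := 27) (by omega) (by omega) _)
    (H.cmV_mem (t := 30) (by omega) (by omega) _) (H.cmV_mem (t := 33) (by omega) (by omega) _)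
    (H.cmV_mem (t := 27) (by omega) (by omega) _) (H.cmV_mem (t := 54) (by omega) (by omega) _)
    g0' (h.P1.cmV p1 _) (h.P2.cmV p2 _) g3 h1 h2 h3
    (H.kerB hS (by omega) h.R1 h.R2 h.R3 l1 l2 l3 l0 l4 z3 hk (he' n0))

end Tab

/-! ### the operators -/

namespace ThO

/-- the operator `LB e` -/
def oLB (e : ℕ) : Opr := .add (.h (2 * e) (.h e .id)) (.h e (.h (2 * e) .id))

/-- a sign -/
def oSg (b : Bool) (o : Opr) : Opr := cond b (.two o) o

/-- the operator `LX (± 1)` -/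
def oLX (b : Bool) : Opr := .add (.h 27 .id) (oSg b (.add (.add (.v 768 (.h 3 .id))
  (.two (.v 770 (.h 1 .id)))) (.two (.v 514 (.h 9 .id)))))

/-- the operator `LT (± 1) (± 1) (± 1)` -/
def oLT (b2 b0 b1 : Bool) : Opr :=
  .add (.add (oSg b2 (oLB 9)) (oSg b0 (.v 768 (oLB 1)))) (oSg b1 (.v 514 (oLB 3)))

section sem

variable {n : ℕ} (τ : Tw F3 (Fin n))

theorem mono_ex {R : Type} [CommRing R] (i j : ℕ) (hi : i < 128) (hj : j < 128) :
    (monomial (ex (i + 128 * j)) 1 : Av R) = X 0 ^ i * X 1 ^ j := by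
  rw [← mon_ex, mon4, show (i + 128 * j) % 128 = i by omega,
    show (i + 128 * j) / 128 % 128 = j by omega, show (i + 128 * j) / 16384 % 128 = 0 by omega,
    show (i + 128 * j) / 2097152 % 128 = 0 by omega, pow_zero, pow_zero, mul_one, mul_one]

theorem sem_h {e : ℕ} (he : e < 128) (o : Opr) (u : Fin n → Av F3) :
    (Opr.h e o).sem τ u = τ.Lh e (o.sem τ u) := by
  have h := mono_ex (R := Av F3) e 0 he (by norm_num)
  rw [mul_zero, add_zero, pow_zero, mul_one] at h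
  rw [Opr.sem, h, Tw.Lh_apply]

theorem sem_add (o o' : Opr) (u : Fin n → Av F3) :
    (Opr.add o o').sem τ u = o.sem τ u + o'.sem τ u := rfl

theorem sem_v (k : ℕ) (o : Opr) (u : Fin n → Av F3) :
    (Opr.v k o).sem τ u = (monomial (ex k) 1 : Av F3) • o.sem τ u := rfl

theorem sem_two (o : Opr) (u : Fin n → Av F3) : (Opr.two o).sem τ u = -o.sem τ u := by
  rw [Opr.sem, ← two_smul F3, show (2 : F3) = -1 from rfl, neg_one_smul]

theorem sem_oSg (b : Bool) (o : Opr) (u : Fin n → Av F3) :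
    (oSg b o).sem τ u = (cond b (-1) 1 : ℤ) • o.sem τ u := by
  cases b
  · exact (one_smul _ _).symm
  · exact (sem_two τ o u).trans (neg_one_zsmul _).symm

theorem sem_oLB {e : ℕ} (he : e < 64) (u : Fin n → Av F3) : (oLB e).sem τ u = τ.LB e u := by
  rw [oLB, sem_add, sem_h τ (by omega), sem_h τ (by omega), sem_h τ (by omega), sem_h τ (by omega),
    Tw.LB_apply]
  rfl

theorem mono_768 : (monomial (ex 768) 1 : Av F3) = X 1 ^ 6 := by
  rw [mono_ex 0 6 (by norm_num) (by norm_num), pow_zero, one_mul]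

theorem sem_oLX (b : Bool) (u : Fin n → Av F3) : (oLX b).sem τ u = τ.LX (cond b (-1) 1) u := by
  rw [oLX, sem_add, sem_oSg, sem_add, sem_add, sem_two, sem_two, sem_v, sem_v, sem_v,
    sem_h τ (by norm_num), sem_h τ (by norm_num), sem_h τ (by norm_num), sem_h τ (by norm_num),
    mono_768, mono_ex 2 6 (by norm_num) (by norm_num), mono_ex 2 4 (by norm_num) (by norm_num),
    Tw.LX, sub_eq_add_neg, sub_eq_add_neg]
  rfl

theorem sem_oLT (b2 b0 b1 : Bool) (u : Fin n → Av F3) : (oLT b2 b0 b1).sem τ u =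
    τ.LT (cond b2 (-1) 1) (cond b0 (-1) 1) (cond b1 (-1) 1) u := by
  rw [oLT, sem_add, sem_add, sem_oSg, sem_oSg, sem_oSg, sem_v, sem_v, sem_oLB τ (by norm_num),
    sem_oLB τ (by norm_num), sem_oLB τ (by norm_num), mono_768,
    mono_ex 2 4 (by norm_num) (by norm_num), Tw.LT]

end sem

theorem prods_cons (F : FT) (o : Opr) (s t : ℕ) (P : List (List ℕ))
    (l : List (ℕ × ℕ × List (List ℕ))) :
    F.prods o ((s, t, P) :: l) = (F.prod o s t P && F.prods o l) := by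
  change (Bool.rec false (F.prods o l) (fS s fun s => fS t fun t => F.prod o s t P) : Bool) = _
  rw [fS_eq, fS_eq]
  cases F.prod o s t P <;> rfl

end ThO

open ThO

/-- the products which have to be checked -/
def ThD.prods (D : ThD) (F : FT) (b b2 b0 b1 : Bool) : Bool :=
  F.prod (oLX b) 0 0 [D.x] &&
    F.prods (oLT b2 b0 b1) [(0, 0, [D.th]), (2, 27, D.A1), (4, 54, D.A2)] &&
    F.prods (oLB 1) [(1, 27, D.P1), (3, 30, D.P2), (5, 33, D.P3), (2, 27, D.R1), (4, 30, D.R2),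
      (6, 33, D.R3)]

theorem ThD.ok_of {n : ℕ} {τ : Tw F3 (Fin n)} {F : FT} (h6 : F.pi = 6) (h3 : F.b = 3)
    (hP : ∀ o s t P, F.prod o s t P = true → F.Row τ o s t P) {D : ThD} {b b2 b0 b1 : Bool}
    (h : D.prods F b b2 b0 b1 = true) : D.Ok τ (F.bar τ) (cond b (-1) 1) (cond b2 (-1) 1)
      (cond b0 (-1) 1) (cond b1 (-1) 1) := by
  simp only [ThD.prods, prods_cons, Bool.and_eq_true] at h
  obtain ⟨⟨hx, t1, t2, t3, -⟩, p1, p2, p3, r1, r2, r3, -⟩ := h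
  have eB : ∀ {s t P}, F.prod (oLB 1) s t P = true →
      RowT τ (F.bar τ) (τ.LB 1) s t (s + 2) (t + 3) P := fun h =>
    (rowT_of_row h6 h3 (hP _ _ _ _ h)).of_eq fun u => (sem_oLB τ (by norm_num) u).symm
  have eT : ∀ {s t P}, F.prod (oLT b2 b0 b1) s t P = true → RowT τ (F.bar τ)
      (τ.LT (cond b2 (-1) 1) (cond b0 (-1) 1) (cond b1 (-1) 1)) s t (s + 2) (t + 27) P := fun h => by
    have h1 := (rowT_of_row h6 h3 (hP _ _ _ _ h)).of_eq fun u => (sem_oLT τ b2 b0 b1 u).symm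
    cases b2 <;> exact h1
  exact ⟨(rowT_of_row h6 h3 (hP _ _ _ _ hx)).of_eq fun u => (sem_oLX τ b u).symm, eB p1, eB p2,
    eB p3, eT t1, eT t2, eT t3, eB r1, eB r2, eB r3⟩

/-- **`ThAlg` from two tests.** -/
theorem thAlg_of_prods {n : ℕ} {τ : Tw F3 (Fin n)} {F : FT} {N : ℤ} {S T : ℕ}
    (H : Tab τ (F.bar τ) N S T) (hS : 8 < S) (hT : 81 ≤ T) (h6 : F.pi = 6) (h3 : F.b = 3)
    (hP : ∀ o s t P, F.prod o s t P = true → F.Row τ o s t P) {D : ThD} {b b2 b0 b1 : Bool}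
    (h : D.prods F b b2 b0 b1 = true) (h' : D.test (F.bar0 Unit fun _ _ _ _ => 0) = true) :
    ThAlg := H.thAlg hS hT (ThD.ok_of h6 h3 hP h) h'

end Vale.Agent.P236K.Core
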