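import Vale.Agent.P236K.Core.Top
import Vale.Agent.P236K.Core.GlueF
import Vale.Agent.P236K.Core.Fin
import Vale.Agent.P236K.Core.ThF

/-!
# P236K, block Core: the final statement from the tests

`final_of_tab`: from a correct table; `final_of_env`: from the values of the nodes.
-/

noncomputable section

namespace Vale.Agent.P236K.Core

open Vale.Agent.P236K.Alg Vale.Agent.P236K.Cert D5

/-- The output of a certificate for `d₅`. -/
def OutOk (Γ : Ctx) (E : Mz) (o o' : Lvl) : Prop :=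
  ∀ S : Sys, Γ.Ok S → S.Kill 5 82 E ∧ o.Ok S 4 81 9 83 ∧ o'.Ok S 6 79 13 84

/-- The tests on the combinatorial part of the tables. -/
def allB (F : FT) (L : Rows) (Γ : Ctx) (K : List ℕ) (E : Mz) (o o' : Lvl) (D : ThD) : Bool :=
  ((Nat.beq F.pi 6 && Nat.beq F.b 3) && (Nat.blt 8 F.S && Nat.ble 81 F.T)) &&
    ((shB F L && (tbOf F L).finB) &&
      (((tbOf F L).ctxB Γ K && outB (tbOf F L) E o o') && D.test (barC F)))

variable {n : ℕ} {τ : Tw F3 (Fin n)} {F : FT} {N : ℤ} {L : Rows} {Γ : Ctx} {K : List ℕ} {E : Mz}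
  {o o' : Lvl} {D : ThD} {b b2 b0 b1 : Bool}

/-- **The final statement from a table.** -/
theorem final_of_tab (H : Tab τ (F.bar τ) N F.S F.T)
    (hP : ∀ o s t P, F.prod o s t P = true → F.Row τ o s t P)
    (hL : ∀ r ∈ L, F.prod (opO r.1) r.2.1 r.2.2.1 r.2.2.2 = true)
    (hD : D.prods F b b2 b0 b1 = true) (hB : allB F L Γ K E o o' D = true) (h : OutOk Γ E o o') :
    St.FINAL := by
  simp only [allB, Bool.and_eq_true, Nat.beq_eq, Nat.blt_eq, Nat.ble_eq] at hB
  obtain ⟨⟨⟨h6, h3⟩, hS, hT⟩, ⟨h1, h2⟩, ⟨h4, h5⟩, h7⟩ := hB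
  have I := itf_of H (fun r hr => row_of h6 h3 (hP _ _ _ _ (hL r hr))) h1
  obtain ⟨hJ, hA, hE⟩ := I.fin h2
  exact final_of_alg hJ hA (thAlg_of_prods H hS hT h6 h3 hP hD h7) hE (facts_of hJ I h4 h5 h)

/-- all the products of the list are checked -/
def Prods (F : FT) (L : Rows) : Prop := ∀ r ∈ L, F.prod (opO r.1) r.2.1 r.2.2.1 r.2.2.2 = true

theorem Prods.of (h : rowsB F L = true) : Prods F L := by
  induction L with
  | nil => exact fun _ h => absurd h List.not_mem_nil
  | cons q L ih =>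
    rw [rowsB_cons, fS_eq, fS_eq, fS_eq] at h
    have h4 : ∀ a b : Bool, (Bool.rec false a b : Bool) = true → a = true ∧ b = true := by decide
    exact List.forall_mem_cons.2 ⟨(h4 _ _ h).2, ih (h4 _ _ h).1⟩

theorem Prods.app {L' : Rows} (h : rowsB F L = true) (h' : Prods F L') : Prods F (L ++ L') :=
  fun r hr => (List.mem_append.1 hr).elim (Prods.of h r) (h' r)

/-- **The final statement from the values of the nodes.** -/
theorem final_of_env (hg : GoodStmt) (hp : ProdStmt) (e : F.Env τ N)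
    (x : ∀ r < F.S, τ.Exa 3 N r) (c : ∀ s ≤ F.S, ∀ t ≤ F.T, F.chk s t = true) (hL : Prods F L)
    (hD : D.prods F b b2 b0 b1 = true) (hB : allB F L Γ K E o o' D = true) (h : OutOk Γ E o o') :
    St.FINAL := by
  obtain ⟨g, g'⟩ := hg n τ F N e c
  have h6 : F.pi = 6 := by
    simp only [allB, Bool.and_eq_true, Nat.beq_eq] at hB
    exact hB.1.1.1
  exact final_of_tab ⟨h6 ▸ g, x⟩ (hp n τ F N e g g') hL hD hB h

end Vale.Agent.P236K.Core
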