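import Vale.Agent.P236K.Core.D5C

/-!
# P236K, block Core: the certificate for the fifth differential
-/

set_option maxRecDepth 100000

namespace Vale.Agent.P236K.Core.D5D

open D5

/-- the constraints -/
def eds0 : List Ed :=
  [⟨5, 82, 7, 85, [[0, 0, 0, 0, 2], [2, 2, 2, 0, 1, 1, 1, 1, 0, 0, 1], [0, 2, 1, 0, 1, 2, 2, 2,
  1], [0, 0, 0, 2], [0, 0, 0, 0, 0, 0, 0, 0, 0, 0, 2]], [[2, 0, 2], [0, 2, 2, 0, 2, 2], [0, 0, 0,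
  2, 0, 1, 2], [0, 0, 0, 0, 0, 1, 1], [0, 0, 0, 0, 2, 0, 1], [0, 0, 0, 0, 1, 0, 2]], []⟩, ⟨6, 82,
  7, 85, [[0, 0, 0, 0, 0, 0, 0, 0, 0, 2, 2], [1, 2, 2, 0, 0, 0, 0, 0, 0, 0, 2], [0, 0, 0, 2, 0, 0,
  0, 0, 0, 0, 2], [0, 0, 0, 0, 0, 0, 0, 0, 0, 0, 2]], [[0, 0, 0, 0, 1, 0, 2], [2, 0, 2, 0, 0, 2],
  [0, 0, 0, 0, 2, 2], [0, 0, 0, 0, 0, 2]], []⟩, ⟨7, 85, 9, 88, [[2, 2, 2, 0, 0, 1, 1, 2], [1, 1,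
  2, 1, 0, 1, 1, 1], [0, 2, 0, 2, 0, 0, 2, 2], [0, 2, 0, 2, 0, 0, 2], [2, 1, 0, 0, 0, 1, 2, 2],
  [0, 1, 0, 2, 0, 0, 0, 2], [2, 1, 0, 1, 1, 1, 1], [2, 1, 0, 1, 1, 1, 0, 1], [0, 0, 0, 0, 0, 0, 1,
  2], [0, 0, 0, 0, 0, 1, 0, 1], [0, 0, 0, 0, 0, 0, 0, 1]], [[0, 1], [1, 2, 0, 2, 2, 2], [0, 2, 1,
  1, 1, 2], [0, 0, 0, 2, 0, 1], [0, 0, 0, 0, 1], [0, 0, 0, 0, 0, 2]], []⟩, ⟨6, 82, 8, 85, [[1, 0,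
  0, 0, 0, 0, 0, 0, 2, 1], [2, 0, 2, 1, 0, 1, 2, 0, 1, 1], [2, 0, 2, 2, 0, 1, 0, 1, 1], [0, 0, 0,
  0, 0, 2, 0, 0, 1, 2], [0, 0, 0, 0, 0, 0, 0, 0, 2, 2], [0, 0, 0, 0, 0, 0, 0, 0, 0, 1]], [[2], [0,
  2, 2, 2, 0, 2], [0, 0, 2, 0, 2], [0, 0, 0, 2, 2, 1], [0, 0, 0, 0, 1]], []⟩, ⟨8, 85, 10, 88, [[0,
  2, 0, 0, 1, 2, 2, 1, 2], [0, 0, 1, 1, 0, 1, 0, 1, 2], [0, 2, 0, 0, 1, 2, 2, 2], [1, 2, 1, 0, 2,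
  0, 2, 1, 2], [1, 0, 0, 0, 1, 1], [0, 0, 0, 0, 0, 0, 1, 1, 2], [0, 0, 0, 0, 1, 2, 2, 0, 1], [0,
  0, 0, 0, 0, 1, 2, 0, 2], [0, 0, 0, 0, 0, 0, 0, 1], [0, 0, 0, 0, 0, 0, 0, 0, 1]], [[0, 1], [1, 0,
  0, 1], [0, 0, 2, 1], [0, 0, 0, 1, 1], [0, 0, 0, 0, 1], [0, 0, 0, 0, 2]], []⟩, ⟨9, 85, 10, 88,
  [[0, 2, 0, 0, 1, 0, 0, 0, 1], [0, 1, 2, 0, 2, 0, 2, 1, 2], [0, 0, 0, 0, 0, 0, 0, 1], [0, 0, 0,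
  0, 0, 0, 0, 2, 1], [0, 0, 0, 0, 0, 0, 0, 0, 1]], [[0, 0, 0, 0, 2], [0, 1, 2, 0, 1]], []⟩, ⟨9,
  81, 10, 88, [[0, 0, 0, 0, 0, 0, 0, 1], [0, 1, 1, 0, 0, 1, 2, 2, 2], [0, 0, 0, 0, 0, 0, 1], [0,
  0, 0, 0, 1, 0, 0, 0, 1], [0, 0, 0, 0, 0, 0, 0, 1, 2], [0, 0, 0, 0, 0, 0, 0, 0, 2]], [[0, 1]],
  []⟩, ⟨5, 70, 6, 71, [[2, 1]], [[1, 0, 1, 0, 2, 2, 0, 0, 0, 0, 1], [], [0, 0, 1, 0, 0, 0, 0, 2],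
  [0, 0, 0, 0, 0, 0, 0, 0, 0, 0, 1], [0, 0, 0, 1, 0, 0, 0, 1], [0, 0, 0, 0, 0, 0, 0, 0, 0, 0, 2]],
  []⟩, ⟨5, 72, 6, 73, [[0, 2, 2, 2, 0, 0, 1, 1, 2], [0, 0, 0, 0, 0, 0, 0, 1], [0, 0, 0, 0, 0, 0,
  0, 2], [0, 0, 0, 0, 0, 1, 1, 2], [0, 0, 0, 0, 0, 0, 1, 2]], [[0, 0, 2, 0, 1, 1, 0, 1, 2], [],
  [0, 0, 0, 0, 0, 0, 0, 0, 2], [], [], [0, 0, 2, 2, 1], [0, 0, 0, 0, 0, 0, 0, 2]], []⟩, ⟨5, 70, 6,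
  73, [[1, 1, 0, 0, 0, 2, 2, 2], [0, 0, 0, 0, 0, 0, 0, 1]], [[1, 0, 2, 1, 2, 1, 2, 1], [0, 0, 0,
  0, 0, 0, 0, 1], [0, 0, 2, 1, 1, 1, 1, 1, 2], [0, 0, 0, 0, 0, 0, 0, 0, 1], [0, 0, 2], [0, 0, 0,
  0, 0, 0, 0, 0, 1]], []⟩, ⟨5, 72, 7, 75, [[1, 1, 1, 2, 1, 0, 1], [0, 2], [0, 0, 2, 2, 0, 0, 1],
  [0, 1, 0, 0, 2, 2], [0, 0, 1, 1, 0, 2], [0, 0, 0, 0, 0, 0, 2], [0, 0, 0, 0, 0, 0, 2]], [[2, 0,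
  2, 0, 2, 1, 1, 1], [2, 2, 0, 0, 2, 1, 2], [0, 0, 0, 0, 2, 1, 2, 2, 1], [0, 0, 0, 0, 0, 1, 2, 2,
  1], [0, 0, 0, 0, 0, 1, 1, 1, 2], [1, 1, 0, 2, 0, 0, 0, 0, 2], [0, 0, 0, 0, 0, 2, 1, 2, 1], [0,
  0, 0, 0, 0, 1, 2, 2, 2], [0, 0, 0, 0, 0, 0, 0, 0, 2]], []⟩, ⟨5, 72, 6, 75, [[0, 0, 2, 0, 0, 2,
  1], [0, 0, 0, 0, 0, 0, 2], [], [0, 0, 0, 1, 0, 1], [0, 0, 0, 0, 0, 1]], [[0, 1, 2, 1, 2], [0, 0,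
  0, 0, 0, 1, 2, 1], [0, 0, 0, 0, 0, 0, 1], [0, 0, 0, 0, 0, 0, 1], [0, 0, 0, 0, 0, 0, 0, 1], [0,
  2, 0, 0, 1], [0, 0, 0, 0, 0, 0, 0, 1], [0, 0, 0, 0, 0, 0, 1]], []⟩, ⟨4, 69, 6, 78, [[2, 2, 2, 0,
  1], [0, 0, 1, 0, 2, 1], [0, 2, 1], [0, 2, 0, 0, 1], [0, 0, 0, 0, 1], [0, 0, 1, 0, 2, 1], [0, 0,
  0, 0, 0, 2]], [[2, 0, 0, 0, 0, 2], [2, 0, 1, 0, 2, 0, 1], [0, 0, 0, 0, 1, 1, 1], [0, 0, 0, 0, 0,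
  2, 2], [0, 0, 0, 0, 0, 0, 1]], [[2, 0, 0, 0, 0, 0, 1], [0, 0, 0, 0, 0, 1, 1], [0, 0, 0, 0, 0, 2,
  2], [0, 0, 0, 0, 0, 1, 1], [], [0, 0, 0, 0, 0, 1, 1]]⟩, ⟨7, 69, 9, 78, [[1, 1, 1, 0, 2, 2, 2],
  [0, 0, 0, 2, 0, 2, 0, 2], [0, 0, 0, 0, 1, 2, 0, 1], [0, 0, 0, 1, 1, 0, 0, 2], [0, 0, 0, 0, 0, 0,
  1]], [[0, 1, 2, 2, 1], [2, 1, 0, 1, 2, 0, 1, 1, 2], [0, 0, 0, 0, 0, 2, 0, 1, 2], [0, 0, 0, 0, 0,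
  1, 0, 1], [0, 0, 0, 0, 0, 1, 0, 2], [0, 0, 0, 0, 0, 0, 0, 0, 2]], [[1, 1, 0, 0, 2, 1, 2, 0, 1],
  [0, 0, 0, 0, 0, 1, 0, 0, 2], [0, 0, 0, 0, 0, 1], [0, 0, 0, 0, 0, 0, 0, 2, 1]]⟩, ⟨7, 75, 9, 78,
  [[0, 2, 1, 0, 2, 1, 1, 2], [1, 0, 0, 0, 0, 0, 2], [1, 0, 0, 0, 2, 0, 1], [2, 0, 0, 1, 1, 0, 1],
  [0, 0, 0, 1, 0, 0, 1], [0, 0, 0, 1, 2, 1, 2, 2], [0, 0, 0, 0, 0, 0, 2]], [[0, 0, 0, 0, 2, 0, 1,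
  2], [2, 2, 0, 0, 0, 1, 0, 0, 1], [1, 1, 2, 0, 2, 1, 1, 2], [0, 0, 0, 2, 0, 1, 2, 2], [0, 0, 0,
  0, 2, 2, 0, 1, 2], [0, 0, 0, 0, 0, 2], [0, 0, 0, 0, 0, 2, 0, 2], [0, 0, 0, 0, 0, 1, 0, 2], [0,
  0, 0, 0, 0, 0, 0, 0, 1]], []⟩, ⟨6, 78, 8, 81, [[2, 0, 0, 0, 1, 2], [0, 0, 0, 0, 2, 2, 0, 0, 1],
  [0, 0, 0, 0, 1, 0, 0, 0, 2], [0, 0, 0, 1, 1, 1, 2, 0, 1], [0, 0, 0, 0, 0, 0, 0, 0, 2], [0, 0, 0,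
  0, 0, 0, 0, 0, 2]], [[1, 0, 0, 0, 0, 0, 2, 1], [0, 0, 1, 0, 2, 0, 0, 1], [0, 0, 0, 0, 2, 2, 1,
  2], [0, 0, 0, 0, 0, 2], [0, 0, 0, 1, 0, 0, 1, 1], [0, 0, 0, 0, 0, 0, 1, 1], [0, 0, 0, 0, 0, 0,
  2]], []⟩, ⟨9, 78, 11, 81, [[2, 0, 2], [0, 0, 0, 1, 1], [0, 0, 0, 0, 1, 0, 1, 1], [1], [2, 0, 0,
  0, 0, 0, 2, 2], [2, 0, 0, 0, 0, 1, 2, 2], [0, 0, 0, 0, 0, 0, 0, 1]], [[0, 2, 0, 0, 0, 2, 2], [0,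
  0, 0, 0, 1, 1, 2], [1, 0, 2, 0, 0, 0, 2], [2, 0, 0, 2, 1, 1, 1], [0, 0, 0, 0, 2, 2, 2], [0, 0,
  0, 0, 0, 1, 2], [1, 0, 0, 0, 1, 1], [], [0, 0, 0, 0, 0, 0, 0, 1]], []⟩, ⟨7, 75, 8, 82, [[2, 1,
  0, 1, 0, 2, 2, 2], [0, 0, 0, 0, 0, 2, 1], [0, 0, 0, 0, 0, 2], [0, 0, 0, 0, 0, 1], [], [0, 0,
  1]], [[0, 0, 0, 0, 0, 2, 1], [0, 0, 0, 0, 2, 2, 2], [0, 0, 0, 0, 1, 2, 1], [0, 1, 0, 0, 1, 2,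
  2], [0, 0, 0, 0, 0, 1, 1]], []⟩, ⟨8, 81, 8, 82, [[], [0, 0, 0, 1], [0, 0, 0, 0, 1], [0, 0, 0, 0,
  0, 1], [], [], [0, 0, 0, 0, 0, 0, 1], [0, 0, 0, 0, 0, 0, 0, 1]], [[], [0, 0, 0, 1], [0, 0, 0, 0,
  1], [], [0, 0, 0, 0, 0, 1], [0, 0, 0, 0, 0, 0, 1]], []⟩, ⟨11, 81, 13, 84, [[2], [2], [], [0, 1,
  1, 1, 2, 1, 2], [0, 1, 0, 1, 2, 2], [0, 0, 0, 0, 0, 1], [0, 0, 0, 0, 2, 0, 2], [0, 0, 0, 0, 0,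
  0, 1]], [[1, 0, 0, 0, 2], [0, 2, 0, 0, 2], [0, 2, 2, 0, 2, 2, 2], [0, 0, 0, 2, 1, 0, 2], [0, 0,
  0, 0, 2, 2, 2], [0, 0, 0, 0, 0, 2, 1], [0, 0, 0, 0, 0, 1, 1], [0, 0, 0, 0, 0, 0, 0, 2]], []⟩]

/-- the constraints -/
def eds1 : List Ed :=
  [⟨6, 78, 7, 85, [[0, 0, 0, 0, 0, 0, 0, 0, 0, 2, 1], [0, 0, 0, 0, 0, 0, 0, 0, 0, 0, 1], [0, 0, 0,
  0, 0, 0, 0, 0, 0, 0, 2], [0, 0, 0, 1]], [[0, 0, 0, 0, 2, 0, 1], [2, 0, 2, 2, 0, 2], [0, 0, 0, 1,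
  1, 1, 2], [1, 0, 0, 1, 1, 2]], []⟩, ⟨4, 64, 5, 65, [[1, 0, 0, 2, 1, 2], [0, 0, 0, 0, 1], [1, 0,
  0, 2, 0, 2]], [[0, 0, 0, 0, 0, 0, 0, 1, 2, 2], [0, 0, 0, 0, 0, 0, 0, 0, 0, 1], [], [1, 2, 0, 2,
  0, 1, 0, 0, 2, 2], [0, 0, 0, 0, 0, 0, 0, 2, 1], [0, 1, 0, 1, 0, 2, 0, 0, 0, 1]], []⟩, ⟨3, 57, 5,
  66, [[0, 0, 0, 1], [0, 0, 2]], [[0, 0, 1, 0, 1], [0, 0, 0, 0, 2], [0, 0, 0, 0, 1]], [[], [0, 0,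
  1, 0, 1]]⟩, ⟨4, 64, 6, 67, [[1, 0, 0, 0, 1, 2], [1, 2, 0, 0, 1, 1], [0, 1, 2, 0, 2, 2], [0, 0,
  0, 0, 2]], [[1, 1, 2, 0, 0, 2, 2], [0, 2], [0, 0, 0, 0, 1], [0, 0, 2, 1, 1, 1, 1], [0, 0, 1, 0,
  0, 0, 1], [0, 0, 1, 0, 2, 1, 2]], []⟩, ⟨5, 66, 7, 69, [[0, 1, 2, 1], [], [0, 0, 2], [0, 0, 0, 0,
  2]], [[2, 2, 1, 1, 1, 1], [0, 0, 0, 2], [0, 0, 0, 2, 2, 1], [0, 0, 1, 0, 0, 2], [0, 0, 0, 0, 0,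
  2]], []⟩, ⟨6, 67, 8, 70, [[2, 1, 1, 1, 1, 2, 2, 1], [0, 2, 2, 1, 2, 1, 2, 1], [0, 0, 0, 0, 0,
  2], [0, 0, 1, 1, 0, 0, 0, 1], [0, 0, 0, 0, 2]], [[1, 0, 2, 2, 0, 2, 1], [0, 2], [0, 0, 2, 1, 0,
  2, 1], [0, 0, 2, 2, 1, 2, 1], [0, 0, 2], [0, 0, 2, 1, 0, 1], [0, 0, 2, 2, 0, 0, 2]], []⟩, ⟨5,
  70, 7, 73, [[1, 0, 1], [0, 0, 0, 2, 2], [0, 0, 0, 0, 2]], [[2, 0, 2, 1, 0, 2], [0, 0, 0, 0, 2],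
  [0, 0, 2, 0, 1, 2, 0, 2], [0, 2, 0, 2], [0, 2, 0, 0, 2, 2, 1, 2], [0, 2, 0, 0, 0, 2]], []⟩, ⟨6,
  67, 8, 76, [[0, 0, 1, 0, 2, 1, 0, 2], [2, 1, 0, 2, 1, 0, 2, 1], [0, 0, 2, 0, 0, 0, 1], [2, 0, 0,
  0, 1, 0, 1, 2], [0, 0, 2, 0, 1, 0, 0, 2]], [[0, 0, 2, 0, 2, 2, 1], [0, 0, 1, 0, 0, 0, 0, 2], [0,
  0, 0, 2, 1, 2, 2, 2], [0, 2, 0, 2, 1, 1, 0, 2], [], [0, 0, 0, 0, 2, 1, 1], [0, 0, 1, 1, 0, 0, 2,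
  1, 1]], [[0, 0, 2, 0, 0, 1], [0, 0, 0, 0, 0, 0, 0, 1, 2], [], [0, 0, 0, 0, 0, 0, 0, 2, 1]]⟩, ⟨6,
  73, 8, 76, [[2, 0, 1, 1, 2, 1, 0, 2], [2, 0, 2, 0, 1, 1, 0, 2], [0, 0, 0, 2, 1, 0, 0, 1], [0, 2,
  0, 2, 2], [0, 0, 0, 2, 2, 2, 2, 2], [0, 0, 1, 0, 1, 0, 1, 2], [0, 0, 1, 0, 2, 0, 0, 2], [0, 0,
  0, 0, 0, 0, 0, 1], [0, 0, 0, 0, 0, 0, 2, 2]], [[2, 0, 2, 0, 2, 1, 1, 2], [0, 1, 1, 0, 2, 1], [0,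
  0, 1, 0, 0, 0, 0, 0, 1], [0, 0, 1, 0, 2], [0, 0, 1, 2, 2, 0, 0, 0, 1], [0, 0, 2, 1, 1, 1, 0, 0,
  2], [0, 0, 0, 0, 0, 0, 2, 1, 1], [0, 0, 0, 0, 0, 0, 0, 0, 2], [0, 0, 0, 0, 0, 0, 0, 2, 2]], []⟩,
  ⟨7, 73, 9, 76, [[1, 0, 0, 0, 0, 2], [0, 1, 2, 0, 0, 1], [0, 0, 1, 0, 2, 1], [0, 0, 0, 1, 1], [0,
  0, 0, 0, 0, 2]], [[2, 2, 1, 0, 2, 2, 2], [0, 0, 0, 0, 2, 0, 2], [0, 1, 2, 2, 2, 1, 2], [0, 2, 0,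
  2, 0, 0, 1], [0, 0, 0, 2], [0, 0, 0, 1, 1], [0, 0, 0, 2], [0, 0, 0, 1, 0, 2]], []⟩, ⟨7, 69, 8,
  76, [[2, 2, 1, 0, 1, 1, 0, 2], [0, 0, 1, 0, 2, 0, 2], [0, 0, 1, 0, 2, 0, 0, 1], [0, 0, 2, 0,
  2]], [[2, 0, 2, 0, 0, 1, 1, 1], [0, 0, 2, 2, 0, 0, 1, 2, 2], [0, 0, 2, 0, 0, 0, 0, 0, 2], [0, 0,
  0, 0, 0, 0, 0, 0, 2], [0, 0, 0, 0, 0, 0, 0, 0, 1]], []⟩, ⟨9, 76, 10, 83, [[2, 0, 2, 2], [0, 0,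
  1, 1, 1], [], [0, 0, 0, 0, 1]], [[1, 0, 0, 1, 0, 0, 2], [], [0, 0, 2, 0, 0, 0, 0, 0, 1], [0, 0,
  0, 0, 0, 0, 0, 2], [0, 0, 0, 0, 0, 0, 2], [0, 0, 0, 0, 0, 0, 0, 2, 2], [0, 0, 0, 0, 0, 0, 2, 1,
  1]], []⟩, ⟨4, 69, 6, 72, [[2, 0, 0, 2, 0, 2], [0, 2, 2, 2], [0, 0, 0, 1, 0, 2, 2], [0, 1, 0, 2,
  0, 2], [0, 0, 1], [0, 2, 0, 2, 0, 1], [0, 0, 0, 0, 0, 2, 2]], [[2, 0, 0, 2, 2], [0, 2, 1, 1, 1],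
  [0, 0, 2, 1, 2], [0, 0, 0, 2, 2], [0, 0, 0, 1]], []⟩, ⟨6, 72, 6, 73, [[0, 0, 0, 0, 0, 0, 0, 1],
  [], [], [], [0, 0, 0, 0, 0, 0, 0, 0, 1]], [[0, 0, 0, 0, 0, 0, 0, 1], [0, 0, 0, 0, 0, 0, 0, 0,
  1]], []⟩, ⟨4, 62, 5, 65, [[0, 1, 0, 2, 0, 1], [0, 0, 0, 2, 2]], [[], [0, 0, 0, 0, 0, 0, 0, 0, 0,
  1], [0, 0, 0, 0, 0, 0, 0, 1, 2], [], [0, 0, 0, 0, 0, 2], [0, 0, 0, 1]], []⟩, ⟨5, 64, 6, 65,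
  [[2]], [[2, 1, 0, 0, 2, 0, 2, 0, 1], [2, 1, 2, 1, 0, 0, 2, 0, 1], [0, 0, 0, 0, 0, 0, 0, 0, 2],
  [2, 1, 0, 0, 0, 0, 0, 0, 2]], []⟩, ⟨5, 65, 7, 68, [[0, 2], [2, 0, 1, 0, 1, 1], [0, 1, 0, 2, 0,
  1], [0, 2], [0, 2, 0, 0, 2, 1], [0, 0, 0, 0, 0, 2]], [[2, 0, 0, 1], [0, 0, 0, 2, 1], [0, 0, 2,
  2, 2], [0, 0, 0, 0, 1, 1, 0, 2], [0, 0, 0, 1, 1, 2, 0, 1], [0, 0, 0, 2, 2], [0, 2, 0, 2, 2, 1,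
  0, 2], [0, 0, 0, 0, 0, 2], [0, 0, 0, 0, 0, 0, 2, 2], [0, 0, 0, 0, 0, 0, 0, 2]], []⟩, ⟨6, 65, 7,
  68, [[0, 0, 0, 0, 0, 2], [0, 1, 0, 0, 2, 2], [2, 1, 0, 0, 1, 1], [0, 0, 1]], [[], [0, 0, 0, 0,
  0, 0, 0, 1], [], [0, 1, 0, 0, 0, 0, 1], [0, 2, 0, 0, 0, 2, 0, 1], [0, 2, 0, 0, 2, 1, 0, 2], [0,
  1], [0, 0, 0, 1, 2]], []⟩, ⟨4, 68, 4, 69, [[0, 0, 0, 0, 0, 0, 1]], [[], [], [], [], [], [0, 0,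
  0, 1], [0, 0, 0, 0, 1]], []⟩, ⟨4, 68, 6, 71, [[0, 0, 2, 2]], [[1, 2, 2, 0, 2, 2, 0, 2, 0, 0, 1],
  [0, 2], [0, 2, 0, 0, 0, 1], [0, 2, 0, 0, 0, 0, 0, 1], [0, 2, 1, 2, 0, 0, 0, 2], [0, 0, 0, 1, 0,
  2, 2, 0, 2, 0, 1], [0, 0, 2, 2, 1, 0, 1, 1, 0, 2, 2], [0, 1, 0, 1, 0, 0, 0, 2], [0, 0, 0, 0, 0,
  0, 0, 0, 0, 0, 2]], []⟩]

/-- the constraints -/
def eds2 : List Ed :=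
  [⟨5, 64, 6, 71, [[0, 1]], [[0, 1, 2, 2, 1, 2, 0, 1, 0, 0, 2], [0, 2, 0, 2, 1, 1, 0, 2], [0, 0,
  0, 0, 0, 0, 0, 0, 0, 0, 2], [0, 0, 0, 1, 0, 0, 0, 1, 0, 0, 2]], []⟩, ⟨6, 65, 8, 74, [[0, 0, 1,
  0, 2], [0, 1, 1, 2, 1], [2, 0, 1, 1, 1], [0, 0, 2, 0, 2]], [[0, 0, 2], [0, 2, 2, 0, 0, 0, 0, 0,
  0, 1], [0, 0, 1, 0, 0, 1, 0, 0, 0, 1, 2], [0, 1, 2, 0, 1, 0, 0, 0, 0, 2], [0, 2, 0, 0, 0, 0, 0,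
  0, 0, 1, 2], [0, 1, 2, 0, 0, 2, 0, 2, 0, 2, 1], [0, 0, 0, 0, 0, 0, 0, 0, 0, 2, 1], [0, 0, 2, 0,
  0, 1, 1, 1, 2, 1], [0, 0, 0, 0, 0, 0, 0, 0, 0, 2]], [[], [0, 1, 2, 0, 2, 1, 0, 0, 0, 1], [1, 0,
  0, 0, 1], [0, 1, 0, 0, 0, 0, 0, 0, 0, 2]]⟩, ⟨6, 71, 8, 74, [[2, 0, 1, 2], [0, 0, 1, 1], [0, 1,
  2, 2], [0, 1, 0, 2, 2]], [[1, 0, 2, 1, 2], [0, 0, 2], [0, 0, 2, 0, 2, 2, 0, 0, 0, 1, 2], [0, 0,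
  0, 0, 0, 2, 0, 0, 0, 2, 1], [0, 2, 2, 2, 1, 2, 1, 0, 0, 1, 2], [0, 0, 2, 2, 2, 0, 2], [0, 2, 2,
  1, 1, 0, 0, 2, 2, 2, 1], [0, 2, 0, 0, 0, 1, 0, 0, 0, 1, 2], [0, 0, 1, 0, 0, 1, 1, 0, 1, 1, 2],
  [0, 0, 2, 0, 0, 0, 0, 0, 0, 2, 1], [0, 0, 0, 0, 0, 0, 0, 0, 0, 2]], []⟩, ⟨5, 70, 7, 79, [[1, 2,
  0, 2, 1, 0, 0, 2], [0, 0, 0, 0, 0, 0, 0, 1], [0, 0, 0, 0, 0, 0, 0, 1]], [[2, 0, 2, 0, 2, 2, 0,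
  2], [], [0, 1, 0, 0, 1, 2], [0, 0, 2, 0, 2, 1, 1], [], [0, 0, 0, 0, 0, 0, 2]], [[2, 0, 2, 0, 2,
  2, 0, 2]]⟩, ⟨5, 76, 7, 79, [[0, 0, 0, 0, 0, 0, 1, 1], [0, 1, 2, 2, 0, 0, 1], [0, 0, 1, 2, 0, 0,
  0, 2], [0, 0, 0, 0, 0, 0, 1, 2], [0, 0, 2, 0, 0, 0, 0, 2], [0, 0, 0, 0, 0, 0, 0, 1]], [[2, 0, 0,
  0, 1, 1, 0, 2], [2, 0, 0, 0, 2, 0, 0, 2], [0, 0, 2, 0, 1, 1, 2], [0, 2, 1, 0, 1], [0, 0, 0, 0,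
  1, 0, 2], [0, 0, 0, 0, 2, 0, 2, 2], [0, 0, 0, 0, 0, 0, 0, 2]], []⟩, ⟨6, 71, 8, 80, [[0, 0, 1, 1,
  2, 2], [0, 0, 2, 2, 2, 2], [1, 0, 0, 1, 1], [1, 0, 1, 0, 2]], [[0, 0, 1, 2, 1, 0, 0, 2, 2, 1],
  [0, 0, 1, 0, 0, 0, 0, 1, 0, 2], [0, 0, 0, 2, 2, 0, 0, 0, 1, 1], [0, 0, 0, 0, 1, 0, 0, 1, 2, 2],
  [0, 0, 0, 0, 2, 0, 0, 2, 0, 2], [0, 0, 1, 1, 1, 0, 0, 0, 0, 2], [0, 2, 2, 2, 1, 2, 0, 0, 1], [0,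
  0, 0, 0, 2, 0, 0, 2, 1, 1], [0, 1, 0, 0, 2, 1, 1, 1, 2], [0, 2, 1, 0, 0, 0, 0, 2], [0, 0, 0, 0,
  0, 0, 0, 0, 0, 2]], [[0, 0, 0, 0, 0, 0, 0, 1, 1], [0, 0, 0, 0, 0, 0, 0, 1, 1], [0, 0, 0, 2, 0,
  0, 0, 1, 0, 1], [0, 0, 0, 2, 0, 0, 0, 1, 0, 1]]⟩, ⟨7, 79, 8, 80, [[0, 0, 0, 0, 2, 1], [0, 0, 0,
  0, 0, 1], [], [0, 0, 2, 2, 2], [], [0, 0, 0, 2, 0, 1], [0, 0, 0, 0, 2]], [[0, 0, 0, 0, 0, 0, 0,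
  2, 0, 1], [0, 0, 0, 2, 0, 0, 0, 1], [], [0, 1, 0, 0, 0, 0, 0, 2, 2], [0, 0, 0, 0, 0, 0, 0, 1, 2,
  2], [0, 0, 0, 0, 0, 0, 0, 1, 2, 2], [0, 0, 0, 0, 0, 0, 0, 0, 0, 2], [0, 0, 0, 0, 0, 0, 0, 2, 2,
  1]], []⟩, ⟨7, 79, 9, 82, [[0, 1, 0, 0, 2, 1, 2, 0, 0, 2], [0, 0, 2, 0, 1, 2, 1, 0, 2, 1], [0, 1,
  0, 0, 0, 0, 0, 0, 0, 2], [0, 2, 0, 1, 0, 2, 2, 0, 1], [0, 1, 0, 0, 1, 1, 0, 0, 0, 2], [0, 0, 0,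
  0, 1, 1, 2, 0, 1, 2], [0, 0, 0, 0, 2, 0, 0, 0, 1], [0, 0, 0, 0, 0, 0, 0, 0, 1]], [[0, 1, 2, 1,
  1], [1, 0, 0, 2, 0, 1, 1], [0, 2, 0, 2, 2, 0, 1], [0, 0, 0, 1, 2, 0, 2, 2], [0, 0, 0, 1, 0, 1,
  1], [0, 2, 0, 2, 1, 0, 2], [0, 0, 0, 0, 2, 2, 1], [0, 0, 0, 1, 1, 0, 1]], []⟩, ⟨9, 81, 9, 82,
  [[], [0, 0, 0, 0, 0, 0, 0, 1], [0, 0, 0, 0, 0, 0, 0, 0, 1], [0, 0, 0, 0, 0, 0, 0, 0, 0, 1]],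
  [[0, 0, 0, 0, 0, 0, 0, 1]], []⟩, ⟨9, 82, 10, 83, [[0, 0, 0, 1, 1, 2], [], [0, 0, 0, 2, 1], [0,
  0, 1, 1, 2], [0, 0, 0, 0, 2], [0, 0, 0, 0, 1], [0, 0, 0, 1, 2], [0, 0, 0, 0, 2, 2]], [[0, 0, 2,
  0, 0, 0, 1, 2, 1], [0, 0, 0, 0, 0, 0, 0, 1, 1], [0, 0, 0, 0, 0, 0, 2, 1, 2], [0, 0, 0, 0, 0, 0,
  1, 0, 2], [0, 0, 0, 0, 0, 0, 1, 2, 2], [0, 0, 0, 0, 0, 0, 1, 1, 2], [0, 0, 0, 0, 0, 0, 2, 0, 2],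
  [0, 0, 0, 0, 0, 0, 0, 2]], []⟩, ⟨7, 56, 8, 57, [[0, 0, 0, 0, 0, 2], [0, 2, 2, 0, 0, 1]], [[0, 0,
  1], [], [1, 1, 2]], []⟩, ⟨8, 51, 10, 60, [[2, 0, 1, 1, 1, 0, 2], [2, 0, 1, 0, 0, 2], [0, 0, 0,
  0, 0, 0, 1]], [[2, 2, 2], [1, 2]], [[0, 0, 1], [2, 1, 1]]⟩, ⟨8, 57, 10, 60, [[2, 2, 0, 1, 0, 0,
  1], [0, 0, 0, 1, 2], [0, 0, 0, 0, 2], [1, 0, 0, 0, 0, 2, 2], [0, 0, 0, 0, 0, 1, 1], [0, 0, 0, 0,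
  0, 0, 2]], [[1, 1, 1], [0, 1, 1], [0, 0, 2]], []⟩, ⟨6, 61, 8, 64, [[0, 2, 2, 1, 0, 2], [1, 0, 1,
  1, 2, 1], [0, 2], [0, 0, 0, 0, 0, 1]], [[2], [2, 1], [0, 0, 2], [1, 0, 2, 2]], []⟩, ⟨8, 57, 10,
  66, [[1, 2, 0, 0, 2, 0, 0, 2, 0, 2], [2, 1, 0, 0, 0, 2, 0, 2, 2, 2], [0, 0, 0, 1], [2, 1, 2, 2,
  1, 2, 0, 1, 0, 1], [1, 2, 1, 0, 0, 1, 0, 0, 0, 1], [0, 0, 0, 0, 0, 0, 0, 0, 0, 2]], [[0, 0, 0,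
  2], [2, 0, 1], [0, 0, 2]], [[0, 1, 1, 2], [0, 0, 0, 2], [0, 0, 0, 1], [1, 0, 2, 1], [2, 0, 2,
  2]]⟩, ⟨9, 65, 10, 66, [[0, 0, 0, 0, 0, 0, 0, 1, 2, 2], [0, 0, 0, 0, 0, 0, 0, 0, 0, 1], [], [1,
  2, 0, 2, 0, 1, 0, 0, 2, 2], [0, 0, 0, 0, 0, 0, 0, 2, 1], [0, 1, 0, 1, 0, 2, 0, 0, 0, 1]], [[0,
  2, 1, 2], [0, 0, 1, 2], [0, 0, 2, 2], [0, 0, 1], [0, 0, 1, 2], [1, 0, 2]], []⟩, ⟨4, 64, 5, 67,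
  [[0, 2, 0, 2, 0, 1, 2], [0, 2, 1, 1], [0, 0, 2, 1, 0, 0, 2], [0, 0, 0, 0, 0, 0, 1]], [[0, 0, 2,
  2], [], [0, 0, 0, 1], [1, 1, 0, 2], [], [0, 1]], []⟩, ⟨8, 64, 10, 67, [[1, 1, 2, 0, 1, 2], [0,
  0, 1, 0, 1], [0, 2, 0, 2, 0, 1], [0, 0, 1, 1, 2], [0, 0, 0, 0, 2, 2], [0, 0, 0, 0, 1]], [[2],
  [0, 0, 1], [0, 0, 0, 2], [0, 2]], []⟩, ⟨6, 61, 7, 68, [[0, 0, 1, 0, 0, 1], [1, 1, 1, 0, 1, 1]],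
  [[0, 0, 0, 0, 0, 0, 0, 2], [2, 0, 0, 1, 0, 2], [0, 0, 0, 0, 0, 1, 0, 2], [0, 0, 0, 0, 0, 0, 0,
  1]], []⟩, ⟨5, 67, 7, 70, [[1, 0, 2, 0, 0, 0, 2, 1, 1], [0, 2, 2, 0, 2, 0, 2, 1, 2], [0, 0, 0, 0,
  2, 2, 1, 2, 1], [0, 0, 0, 0, 2, 0, 2, 2, 2], [0, 0, 2, 0, 0, 0, 2, 1], [0, 0, 0, 0, 0, 0, 1, 2,
  1], [0, 0, 0, 0, 0, 0, 0, 2]], [[2], [0, 0, 1, 2], [0, 2, 2, 1], [0, 0, 0, 1]], []⟩]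

/-- the constraints -/
def eds3 : List Ed :=
  [⟨7, 69, 7, 70, [[0, 0, 0, 0, 0, 1], [0, 0, 0, 0, 0, 0, 1], [0, 0, 0, 0, 0, 0, 0, 1], [0, 0, 0,
  0, 0, 0, 0, 0, 1]], [[0, 1], [0, 0, 1], [0, 0, 0, 1]], []⟩, ⟨10, 61, 12, 70, [[0, 0, 0, 1, 1],
  [0, 2], [0, 0, 0, 0, 0, 2]], [[1, 2, 2], [0, 2]], [[], [0, 1, 0, 2]]⟩, ⟨10, 67, 12, 70, [[2, 2,
  1, 1, 1, 1], [0, 0, 0, 2], [0, 0, 0, 2, 2, 1], [0, 0, 1, 0, 0, 2], [0, 0, 0, 0, 0, 2]], [[0, 2],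
  [2, 1], [0, 0, 1], [0, 0, 0, 2]], []⟩, ⟨8, 70, 10, 73, [[2, 2, 0, 2, 0, 0, 1, 2, 2], [0, 2, 0,
  2, 0, 0, 1, 1, 1], [0, 0, 2, 0, 0, 0, 0, 2, 2], [0, 0, 0, 0, 1, 0, 2, 1, 2], [0, 0, 0, 2, 2],
  [0, 0, 0, 2, 0, 0, 0, 0, 2], [0, 0, 0, 0, 0, 0, 0, 0, 1], [0, 0, 0, 0, 0, 0, 0, 0, 2]], [[2, 1,
  1, 1, 1], [0, 1, 1, 2], [0, 0, 2], [0, 0, 2, 1], [0, 0, 1, 1, 1, 1, 2], [0, 0, 2, 2, 1, 1], [0,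
  0, 2, 2, 0, 1]], []⟩, ⟨9, 65, 11, 74, [[0, 0, 1, 1, 2, 2, 1, 1, 2], [0, 0, 2, 0, 0, 0, 0, 0, 2],
  [], [0, 2, 0, 0, 0, 1, 2, 2, 1], [0, 0, 2, 2, 2, 2, 2, 1, 2], [0, 0, 2, 1, 2, 0, 2, 0, 1]], [[2,
  0, 0, 0, 1, 1], [1, 0, 1, 0, 1, 1], [0, 0, 0, 2], [0, 0, 1, 1, 2, 0, 1], [0, 0, 2, 1, 1, 0, 2],
  [1, 1, 2, 1, 1, 0, 1], [0, 0, 0, 0, 0, 0, 2]], [[0, 0, 0, 0, 1, 2], [0, 0, 0, 0, 0, 0, 1], [],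
  [1, 0, 2, 2, 2, 2, 1], [0, 0, 0, 0, 2, 1, 2], [0, 0, 0, 0, 2, 0, 2]]⟩, ⟨10, 73, 12, 76, [[2, 0,
  2, 0, 2, 1, 1, 1], [2, 2, 0, 0, 2, 1, 2], [0, 0, 0, 0, 2, 1, 2, 2, 1], [0, 0, 0, 0, 0, 1, 2, 2,
  1], [0, 0, 0, 0, 0, 1, 1, 1, 2], [1, 1, 0, 2, 0, 0, 0, 0, 2], [0, 0, 0, 0, 0, 2, 1, 2, 1], [0,
  0, 0, 0, 0, 1, 2, 2, 2], [0, 0, 0, 0, 0, 0, 0, 0, 2]], [[1, 2], [0, 0, 1, 2, 0, 0, 1], [0, 0, 0,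
  2], [0, 0, 0, 1, 0, 0, 1], [2, 0, 2, 1, 0, 0, 1], [1, 0, 1, 2, 0, 2, 1], [0, 0, 0, 0, 2, 2, 2]],
  []⟩, ⟨11, 74, 13, 77, [[2, 0, 2, 0, 2, 1, 1, 2], [0, 1, 1, 0, 2, 1], [0, 0, 1, 0, 0, 0, 0, 0,
  1], [0, 0, 1, 0, 2], [0, 0, 1, 2, 2, 0, 0, 0, 1], [0, 0, 2, 1, 1, 1, 0, 0, 2], [0, 0, 0, 0, 0,
  0, 2, 1, 1], [0, 0, 0, 0, 0, 0, 0, 0, 2], [0, 0, 0, 0, 0, 0, 0, 2, 2]], [[2], [0, 1], [0, 0, 2,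
  0, 2], [0, 0, 0, 1, 1, 2], [0, 0, 0, 0, 1], [0, 0, 0, 0, 0, 2], [0, 0, 0, 0, 0, 0, 2]], []⟩,
  ⟨12, 76, 13, 77, [[0, 0, 0, 0, 0, 0, 1, 2, 2], [0, 0, 0, 0, 0, 0, 2, 2], [0, 0, 1, 0, 0, 2, 2,
  1], [0, 0, 1, 1, 0, 0, 0, 1, 2], [0, 0, 0, 0, 0, 0, 0, 2, 2], [], [0, 0, 0, 0, 0, 0, 0, 0, 2],
  [0, 0, 0, 0, 0, 0, 0, 0, 1]], [[0, 0, 0, 0, 2, 1, 1], [0, 0, 0, 0, 1, 0, 1], [0, 0, 0, 0, 0, 0,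
  1], [], [1, 0, 2, 1, 0, 2], [0, 0, 0, 0, 0, 1, 1], [0, 0, 0, 0, 2, 0, 2]], []⟩, ⟨12, 70, 13, 77,
  [[2, 0, 2, 0, 0, 1, 1, 1], [0, 0, 2, 2, 0, 0, 1, 2, 2], [0, 0, 2, 0, 0, 0, 0, 0, 2], [0, 0, 0,
  0, 0, 0, 0, 0, 2], [0, 0, 0, 0, 0, 0, 0, 0, 1]], [[0, 0, 0, 0, 1], [0, 0, 0, 0, 0, 0, 2], [1, 0,
  2, 1, 1, 2, 1], [0, 0, 0, 0, 2, 0, 2]], []⟩, ⟨5, 76, 6, 79, [[2, 1, 1, 2, 0, 2], [0, 1, 0, 0, 0,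
  2], [2, 0, 0, 0, 0, 2, 1], [], [0, 0, 0, 0, 0, 0, 2]], [[0, 0, 0, 0, 2, 2], [0, 0, 0, 0, 2, 2,
  1], [], [0, 0, 2, 2, 1, 2], [0, 0, 0, 0, 0, 2], [0, 0, 0, 0, 0, 2]], []⟩, ⟨6, 76, 7, 79, [[0, 0,
  0, 0, 0, 0, 1, 1], [0, 0, 0, 0, 0, 0, 0, 1], [2, 0, 2, 0, 2]], [[0, 0, 0, 0, 2, 0, 0, 1], [0, 0,
  0, 0, 2, 0, 0, 2], [0, 0, 1, 0, 1, 2, 1]], []⟩, ⟨12, 70, 14, 79, [[0, 1, 2, 2, 1], [2, 1, 0, 1,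
  2, 0, 1, 1, 2], [0, 0, 0, 0, 0, 2, 0, 1, 2], [0, 0, 0, 0, 0, 1, 0, 1], [0, 0, 0, 0, 0, 1, 0, 2],
  [0, 0, 0, 0, 0, 0, 0, 0, 2]], [[0, 0, 1, 1], [0, 0, 0, 1], [0, 0, 0, 0, 0, 2, 2], [0, 2, 2, 2,
  1, 1]], [[1, 2, 0, 0, 2, 1], [0, 2, 2, 1, 1, 1], [0, 0, 2]]⟩, ⟨12, 76, 14, 79, [[0, 0, 0, 0, 2,
  0, 1, 2], [2, 2, 0, 0, 0, 1, 0, 0, 1], [1, 1, 2, 0, 2, 1, 1, 2], [0, 0, 0, 2, 0, 1, 2, 2], [0,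
  0, 0, 0, 2, 2, 0, 1, 2], [0, 0, 0, 0, 0, 2], [0, 0, 0, 0, 0, 2, 0, 2], [0, 0, 0, 0, 0, 1, 0, 2],
  [0, 0, 0, 0, 0, 0, 0, 0, 1]], [[0, 2, 0, 0, 2], [2, 1, 0, 0, 2], [0, 0, 0, 2], [0, 0, 2], [0, 0,
  1, 0, 1, 2, 2], [0, 0, 2, 0, 2], [0, 0, 2, 0, 2, 2]], []⟩, ⟨6, 47, 7, 48, [[1, 1]], [[1, 1], [0,
  0, 0, 2]], []⟩, ⟨7, 42, 9, 51, [[0, 1], [1]], [[0, 2, 1], [0, 0, 0, 1]], [[1, 1], [0, 0, 0,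
  2]]⟩, ⟨7, 48, 9, 51, [[2], [2, 2]], [[2], [0, 2], [0, 0, 2], [0, 0, 0, 2]], []⟩, ⟨6, 47, 8, 56,
  [[2, 1]], [[0, 1], [1]], [[1, 2]]⟩, ⟨6, 59, 8, 62, [[0, 2, 1]], [[2, 0, 0, 2], [0, 2], [0, 0, 0,
  2], [0, 0, 1], [0, 0, 0, 2, 2], [0, 0, 0, 0, 0, 2]], []⟩, ⟨6, 59, 7, 62, [[2, 0, 0, 0, 0, 2]],
  [[0, 1, 1, 0, 2, 2], [0, 0, 0, 0, 0, 0, 1], [], [0, 0, 0, 0, 2], [0, 0, 0, 0, 1, 1]], []⟩, ⟨7,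
  62, 9, 65, [[0, 2], [1], [0, 2, 0, 0, 2, 0, 1], [0, 1, 1, 0, 0, 0, 1], [0, 0, 2, 2, 1]], [[0, 0,
  1, 1, 1], [2, 0, 1, 1, 1], [0, 2, 1, 2, 2], [0, 2, 2, 0, 2, 1, 2], [0, 0, 2, 0, 1], [0, 0, 0, 2,
  2], [0, 0, 0, 0, 0, 0, 2]], []⟩]

/-- the constraints -/
def eds4 : List Ed :=
  [⟨8, 56, 10, 65, [[0, 0, 1], [0, 0, 0, 2]], [[0, 0, 0, 2], [0, 1, 0, 1, 0, 2], [0, 0, 2, 2, 0,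
  1]], [[0, 0, 0, 0, 0, 1], [0, 2, 0, 1, 0, 2]]⟩, ⟨8, 62, 10, 65, [[1, 2, 2, 1], [0, 0, 2], [0, 0,
  0, 1]], [[2, 0, 1, 1, 1, 1], [0, 2], [0, 0, 1, 2], [0, 0, 0, 2], [0, 0, 0, 2, 2], [0, 0, 0, 0,
  0, 2]], []⟩, ⟨11, 78, 12, 81, [[0, 0, 0, 2], [0, 0, 0, 2, 0, 0, 1], [0, 0, 0, 0, 0, 0, 2], [],
  [], [], [0, 0, 1, 0, 0, 1], [0, 0, 2]], [[0, 0, 0, 1], [0, 0, 0, 0, 1]], []⟩, ⟨12, 81, 14, 84,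
  [[0, 2, 0, 2], [2, 0, 2, 0, 0, 2, 1], [0, 0, 2, 0, 0, 2], [0, 0, 0, 0, 0, 0, 2], [0, 1, 0, 1,
  1], [0, 1], [0, 0, 0, 0, 0, 1], [0, 0, 0, 0, 0, 0, 2]], [[2, 0, 0, 1], [0, 2, 0, 1], [0, 0, 2],
  [0, 0, 0, 0, 2], [0, 0, 0, 2]], []⟩, ⟨6, 72, 8, 75, [[0, 0, 2, 0, 1], [2, 0, 1, 0, 0, 1], [0, 0,
  0, 0, 0, 2], [1, 0, 0, 0, 0, 1], [0, 0, 0, 2, 2, 1], [0, 0, 0, 0, 0, 1], [0, 0, 0, 0, 0, 1]],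
  [[0, 0, 0, 2], [0, 2, 2, 2, 0, 2], [0, 2], [0, 0, 0, 0, 2, 2], [0, 0, 0, 0, 0, 1]], []⟩, ⟨8, 75,
  10, 78, [[2, 2, 0, 2, 0, 0, 1, 1], [0, 0, 0, 2, 1, 0, 0, 2], [0, 0, 0, 0, 2], [0, 2, 1, 0, 0,
  1], [1, 2, 2, 2, 2, 0, 0, 1], [0, 0, 0, 0, 0, 0, 0, 0, 2]], [[0, 1, 0, 0, 2], [0, 0, 1, 2], [2,
  0, 0, 2], [], [0, 0, 0, 2, 1], [0, 0, 0, 1]], []⟩, ⟨10, 78, 12, 81, [[0, 0, 1, 0, 0, 0, 0, 2],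
  [2, 0, 0, 0, 0, 0, 0, 1], [1, 2, 0, 0, 0, 1, 0, 2], [0, 0, 2, 0, 0, 1], [0, 0, 0, 0, 0, 1], [0,
  0, 1, 0, 2, 1], [0, 0, 2], [], [0, 0, 0, 0, 0, 0, 2]], [[2, 0, 0, 1, 2], [0, 2, 0, 2], [0, 0, 1,
  1], [0, 0, 0, 1], [0, 0, 0, 1, 1]], []⟩, ⟨7, 80, 9, 83, [[1, 2, 1, 1, 1, 1], [2, 0, 1, 1, 1],
  [0, 0, 1], [0, 0, 0, 0, 1]], [[0, 2, 0, 2], [2, 0, 2, 0, 0, 2, 1], [0, 0, 2, 0, 0, 2], [0, 0, 0,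
  0, 0, 0, 2], [0, 1, 0, 1, 1], [0, 1], [0, 0, 0, 0, 0, 1], [0, 0, 0, 0, 0, 0, 2]], []⟩, ⟨8, 82,
  9, 83, [[0, 0, 0, 0, 2], [0, 0, 0, 0, 2], [], [], [0, 0, 0, 0, 0, 2]], [[0, 1, 2, 1, 0, 1, 2],
  [], [0, 0, 0, 0, 0, 1], [0, 0, 0, 0, 0, 0, 2]], []⟩, ⟨8, 81, 10, 84, [[0, 0, 1, 1, 0, 1, 0, 2],
  [0, 1, 0, 1, 0, 0, 1, 0, 1], [2, 1, 1, 0, 2, 0, 0, 1, 2], [1, 2, 0, 0, 1, 0, 2, 0, 2], [0, 0, 0,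
  2, 0, 0, 0, 1], [0, 0, 0, 1, 2, 0, 0, 1], [0, 0, 0, 0, 0, 0, 2], [0, 0, 0, 2, 0, 0, 2, 2, 1],
  [0, 0, 0, 0, 0, 0, 0, 0, 2]], [[0, 1, 0, 0, 1, 1, 2], [0, 1, 0, 0, 1, 2, 1], [1, 1, 2, 0, 0, 1,
  1], [0, 0, 0, 0, 2], [2, 2, 0, 0, 2, 0, 2], [0, 0, 0, 1, 1, 2, 1], [0, 0, 0, 0, 0, 2], [0, 0, 0,
  0, 0, 0, 1]], []⟩, ⟨9, 83, 10, 84, [[0, 0, 0, 2, 1, 0, 0, 2], [0, 0, 1, 2, 0, 1, 0, 1, 2], [0,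
  0, 0, 0, 0, 0, 0, 0, 1]], [[0, 2, 0, 0, 2, 2], [0, 0, 0, 0, 0, 0, 1], [0, 0, 0, 0, 0, 1], [0, 0,
  0, 0, 0, 1, 2], [0, 0, 0, 0, 2, 1, 2]], []⟩, ⟨6, 78, 8, 87, [[0, 0, 1, 0, 2, 0, 2], [0, 0, 1, 0,
  0, 0, 0, 1], [0, 0, 0, 0, 2, 0, 2, 2], [0, 0, 0, 0, 2, 0, 0, 2], [0, 0, 0, 0, 0, 0, 0, 1], [0,
  0, 0, 0, 0, 0, 0, 1]], [[0, 0, 0, 0, 0, 0, 0, 2], [0, 1, 1, 1, 1, 1, 0, 0, 1], [0, 0, 0, 1, 2,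
  1, 0, 2, 1], [0, 1, 0, 1, 0, 2, 2, 1], [0, 2, 0, 0, 0, 0, 0, 2, 1], [0, 0, 0, 0, 0, 0, 0, 1, 1],
  [0, 0, 0, 0, 0, 0, 0, 2]], [[], [0, 0, 0, 0, 0, 0, 0, 0, 2], [0, 0, 0, 0, 0, 0, 0, 0, 1], [0, 0,
  0, 0, 0, 2]]⟩, ⟨8, 51, 9, 58, [[0, 2, 0, 1], [1, 0, 1, 1]], [[0, 2], [0, 1]], []⟩, ⟨9, 57, 9,
  58, [[0, 1], [], [], [0, 0, 1], [0, 0, 0, 1]], [[], [], [0, 1]], []⟩, ⟨5, 59, 6, 60, [[0, 0, 0,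
  2], [0, 0, 0, 1], [1, 1, 0, 2]], [[0, 0, 1], [0, 2, 0, 1], [0, 0, 2], [0, 0, 0, 1], [0, 0, 0,
  2], [1]], []⟩, ⟨5, 59, 5, 60, [[], [0, 1], [0, 0, 1]], [[], [], [], [], [], [0, 0, 1]], []⟩, ⟨6,
  60, 8, 63, [[2, 2, 0, 0, 0, 0, 1], [0, 2, 0, 0, 0, 2], [0, 1, 0, 0, 1, 1, 1], [0, 0, 0, 0, 0, 0,
  1]], [[2], [0, 2], [0, 0, 1], [0, 0, 0, 2]], []⟩, ⟨7, 56, 8, 63, [[0, 0, 0, 0, 0, 0, 1], [2,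
  1]], [[0, 0, 2], [0, 2, 2, 1], [2, 0, 1, 2]], []⟩, ⟨8, 63, 10, 66, [[2, 1, 0, 0, 0, 2, 0, 1],
  [0, 0, 0, 2, 0, 0, 0, 0, 0, 2], [2, 1, 2, 0, 2, 2, 2, 0, 0, 2], [0, 2, 0, 2, 0, 0, 0, 2, 0, 2],
  [1, 1, 1, 2, 0, 2, 0, 2, 0, 2], [0, 0, 0, 0, 0, 0, 0, 1, 2, 1], [0, 0, 0, 0, 0, 0, 0, 0, 0, 1]],
  [[1, 0, 1, 1], [0, 2, 1, 1], [0, 0, 1], [0, 0, 0, 2]], []⟩, ⟨9, 57, 11, 66, [[0, 0, 0, 2, 0, 1,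
  1, 1], [2, 2], [1], [0, 0, 1, 0, 0, 2, 1, 2], [0, 0, 0, 0, 2, 0, 1, 2], [0, 0, 0, 0, 0, 0, 0, 0,
  1]], [[0, 0, 0, 2, 1, 2], [0, 0, 1, 0, 1, 1], [0, 0, 1, 0, 2, 1], [0, 0, 0, 0, 0, 2]], [[0, 1,
  2, 0, 1, 2], [0, 0, 0, 0, 0, 1], [0, 0, 0, 0, 0, 1], [0, 0, 1, 0, 2, 1], [0, 0, 1, 2, 1, 1]]⟩]

/-- the constraints -/
def eds5 : List Ed :=
  [⟨10, 65, 10, 66, [[0, 0, 0, 0, 0, 0, 0, 1], [0, 0, 0, 0, 0, 0, 0, 0, 1], [], [0, 0, 0, 0, 0, 0,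
  0, 0, 0, 1]], [[0, 1], [], [0, 0, 1], [], [0, 0, 0, 1]], []⟩, ⟨6, 60, 8, 69, [[2, 2, 0, 0, 0, 1,
  1], [1, 0, 0, 0, 0, 1, 2], [2, 0, 2, 0, 0, 0, 2], [0, 0, 0, 0, 0, 0, 1]], [[2, 1, 1], [0, 1, 1],
  [0, 0, 1], [0, 1]], [[0, 2], [0, 1], [2, 0, 1]]⟩, ⟨10, 65, 11, 72, [[0, 1, 2, 2, 1, 2, 0, 1, 0,
  0, 2], [0, 2, 0, 2, 1, 1, 0, 2], [0, 0, 0, 0, 0, 0, 0, 0, 0, 0, 2], [0, 0, 0, 1, 0, 0, 0, 1, 0,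
  0, 2]], [[2, 1, 2, 2, 2], [0, 0, 0, 0, 2, 2], [0, 2, 2, 0, 0, 2], [0, 0, 0, 0, 2, 2], [0, 1, 2,
  1, 1]], []⟩, ⟨11, 66, 13, 75, [[0, 0, 2], [0, 2, 2, 0, 0, 0, 0, 0, 0, 1], [0, 0, 1, 0, 0, 1, 0,
  0, 0, 1, 2], [0, 1, 2, 0, 1, 0, 0, 0, 0, 2], [0, 2, 0, 0, 0, 0, 0, 0, 0, 1, 2], [0, 1, 2, 0, 0,
  2, 0, 2, 0, 2, 1], [0, 0, 0, 0, 0, 0, 0, 0, 0, 2, 1], [0, 0, 2, 0, 0, 1, 1, 1, 2, 1], [0, 0, 0,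
  0, 0, 0, 0, 0, 0, 2]], [[0, 1, 1, 2], [], [0, 2, 1, 0, 2], [0, 0, 1, 1, 1, 2], [0, 0, 0, 2, 2],
  [0, 0, 0, 0, 2, 2]], [[0, 0, 0, 0, 2, 2], [0, 0, 0, 0, 2, 2], [0, 0, 0, 0, 2], [0, 0, 0, 0, 2],
  [], [0, 0, 2, 0, 2, 1], [], [0, 1, 0, 2, 1]]⟩, ⟨11, 72, 13, 75, [[1, 0, 2, 1, 2], [0, 0, 2], [0,
  0, 2, 0, 2, 2, 0, 0, 0, 1, 2], [0, 0, 0, 0, 0, 2, 0, 0, 0, 2, 1], [0, 2, 2, 2, 1, 2, 1, 0, 0, 1,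
  2], [0, 0, 2, 2, 2, 0, 2], [0, 2, 2, 1, 1, 0, 0, 2, 2, 2, 1], [0, 2, 0, 0, 0, 1, 0, 0, 0, 1, 2],
  [0, 0, 1, 0, 0, 1, 1, 0, 1, 1, 2], [0, 0, 2, 0, 0, 0, 0, 0, 0, 2, 1], [0, 0, 0, 0, 0, 0, 0, 0,
  0, 2]], [[2, 0, 0, 0, 1, 1], [0, 2, 1, 2, 0, 1], [0, 2, 0, 0, 1, 1], [0, 0, 0, 2], [0, 0, 0, 0,
  1], [0, 0, 0, 0, 0, 1]], []⟩, ⟨12, 72, 13, 75, [[0, 1, 1, 0, 0, 1, 2, 0, 0, 2, 2], [0, 0, 2, 2,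
  1, 1, 0, 0, 0, 1], [0, 0, 0, 0, 0, 0, 0, 0, 0, 1], [], [0, 0, 1, 0, 0, 2, 0, 0, 0, 2, 1], [],
  [0, 0, 2]], [[0, 0, 0, 0, 2, 2], [1, 2, 0, 0, 2, 1], [0, 0, 0, 0, 2, 2], [0, 0, 0, 0, 2], [0, 0,
  2, 1, 2, 2]], []⟩, ⟨8, 69, 10, 78, [[0, 0, 0, 0, 2], [1, 1, 0, 1, 2, 0, 2, 2, 1], [1, 1, 0, 1,
  1, 1, 1, 2, 1], [2, 2, 0, 1, 2, 2, 1, 0, 1], [], [0, 0, 0, 0, 0, 0, 0, 0, 1]], [[0, 0, 2, 1],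
  [0, 0, 0, 2, 1], [0, 0, 0, 0, 2]], [[0, 0, 0, 2, 1], [], [0, 0, 2, 2], [0, 0, 1]]⟩, ⟨11, 72, 13,
  81, [[0, 0, 1, 2, 1, 0, 0, 2, 2, 1], [0, 0, 1, 0, 0, 0, 0, 1, 0, 2], [0, 0, 0, 2, 2, 0, 0, 0, 1,
  1], [0, 0, 0, 0, 1, 0, 0, 1, 2, 2], [0, 0, 0, 0, 2, 0, 0, 2, 0, 2], [0, 0, 1, 1, 1, 0, 0, 0, 0,
  2], [0, 2, 2, 2, 1, 2, 0, 0, 1], [0, 0, 0, 0, 2, 0, 0, 2, 1, 1], [0, 1, 0, 0, 2, 1, 1, 1, 2],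
  [0, 2, 1, 0, 0, 0, 0, 2], [0, 0, 0, 0, 0, 0, 0, 0, 0, 2]], [[2, 2, 0, 1, 1, 1], [2, 2, 0, 0, 2,
  2], [2, 2], [0, 1, 0, 0, 0, 1], [0, 0, 0, 0, 1, 2], [0, 0, 0, 0, 0, 1]], [[0, 0, 0, 2, 2, 2],
  [0, 0, 0, 0, 2], [0, 0, 0, 0, 1, 1], [0, 0, 0, 0, 2, 2], [0, 0, 1, 1, 1], [0, 0, 2, 1, 2], [1,
  1, 2, 2], [0, 0, 0, 0, 1, 1], [2, 0, 2, 0, 2, 1], [0, 0, 0, 0, 2]]⟩, ⟨11, 78, 13, 81, [[2, 1, 2,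
  0, 0, 0, 0, 2, 2, 2], [0, 1, 1, 1, 2, 0, 0, 0, 1, 2], [0, 0, 0, 2, 0, 0, 0, 1, 0, 1], [0, 0, 1,
  0, 0, 0, 0, 1, 0, 2], [0, 0, 2, 0, 1, 0, 0, 1, 1, 2], [0, 0, 1, 0, 2, 0, 0, 2, 2], [0, 0, 2, 0,
  0, 1, 1, 1, 0, 1], [0, 0, 2, 0, 0, 2, 0, 2, 1], [0, 0, 0, 0, 0, 0, 0, 1, 0, 2], [0, 0, 0, 0, 0,
  0, 0, 0, 2], [0, 0, 0, 0, 0, 0, 0, 0, 0, 2]], [[2], [0, 2], [0, 0, 2, 0, 1], [0, 0, 0, 2], [0,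
  0, 0, 0, 2, 2], [0, 0, 0, 0, 1]], []⟩, ⟨9, 57, 10, 60, [[0, 1, 1, 1], [0, 0, 0, 0, 0, 0, 1], [],
  [0, 0, 1, 0, 1], [0, 0, 1, 0, 2]], [[], [0, 0, 2], [1, 1]], []⟩, ⟨2, 60, 4, 63, [[0, 0, 0, 2],
  [1, 2, 1, 2, 1]], [[0, 2, 1], [0, 0, 0, 2]], []⟩, ⟨4, 62, 4, 63, [[0, 0, 0, 1], [0, 0, 0, 0,
  1]], [[], [], [], [], [0, 0, 1], [0, 0, 0, 1]], []⟩, ⟨4, 63, 6, 66, [[0, 2, 2, 2], [0, 0, 1, 0,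
  2, 2], [0, 0, 1, 0, 2, 2], [0, 0, 0, 0, 1, 1], [0, 0, 0, 2]], [[2, 1, 1, 1], [0, 1, 2, 2], [0,
  0, 1, 1], [0, 0, 2]], []⟩, ⟨5, 59, 6, 66, [[0, 0, 0, 0, 2, 2], [0, 0, 0, 0, 0, 2], [0, 2, 2, 2,
  2]], [[0, 0, 2, 1], [0, 0, 1, 2], [0, 0, 1, 2], [0, 0, 2], [0, 0, 1], [0, 2]], []⟩, ⟨9, 63, 10,
  64, [[0, 0, 0, 0, 1], [0, 0, 0, 0, 1], [0, 0, 0, 0, 0, 2], [0, 0, 0, 0, 1, 2], [0, 2, 0, 2, 2],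
  [0, 0, 1, 2, 0, 2]], [[0, 1, 1], [], [0, 0, 2], [0, 0, 2], [0, 0, 2]], []⟩, ⟨9, 57, 10, 64, [[2,
  0, 1, 2, 1, 1], [0, 0, 0, 0, 2], [0, 0, 0, 0, 2], [0, 1, 2, 1, 2, 1], [0, 1, 0, 2]], [[0, 0, 1],
  [0, 1, 2], [0, 1]], []⟩, ⟨9, 63, 11, 66, [[2], [0, 2], [0, 0, 1, 1, 1, 0, 0, 0, 1], [2, 0, 2],
  [0, 0, 1, 0, 1, 1, 2, 1, 2], [1, 0, 2, 0, 1, 2], [0, 0, 0, 0, 0, 0, 0, 0, 2]], [[2, 0, 0, 0, 0,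
  2], [0, 2], [0, 0, 0, 2, 0, 2], [0, 0, 0, 0, 1, 1], [0, 0, 2, 0, 2, 1], [0, 0, 0, 0, 0, 2]],
  []⟩, ⟨9, 61, 11, 70, [[0, 2, 2, 2, 1, 1, 2], [0, 0, 0, 0, 0, 1, 0, 1], [0, 1, 0, 0, 0, 0, 0, 0,
  1], [0, 2], [0, 0, 0, 0, 0, 0, 0, 0, 1]], [[0, 0, 2, 2], [0, 0, 0, 1]], [[0, 1, 1, 0, 1], [],
  [], [0, 0, 0, 1]]⟩, ⟨11, 72, 12, 73, [[0, 0, 0, 2, 0, 1], [0, 0, 0, 0, 0, 1], [0, 0, 0, 0, 2,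
  2], [0, 0, 0, 0, 1, 1], [0, 0, 2, 1, 1], [0, 0, 1, 1, 1], [1, 0, 1, 2], [0, 0, 0, 0, 2, 2], [2,
  2, 1, 0, 1], [0, 0, 0, 0, 0, 1]], [[0, 2, 2], [0, 0, 1], [0, 0, 2], [0, 0, 2]], []⟩, ⟨11, 70,
  13, 73, [[2, 1, 0, 0, 1, 1, 0, 2], [0, 2, 0, 0, 0, 0, 1, 2], [0, 1, 1, 0, 0, 2, 0, 2], [0, 1, 0,
  0, 2, 0, 2, 2], [0, 0, 0, 2, 2, 0, 1, 2], [0, 0, 0, 0, 2, 0, 2, 1], [0, 0, 0, 0, 2, 1, 0, 1],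
  [0, 0, 0, 0, 0, 0, 0, 2], [0, 0, 0, 0, 0, 0, 0, 1]], [[2, 0, 0, 0, 2], [0, 2, 0, 0, 1], [0, 0,
  2, 0, 2], [0, 0, 0, 2, 2], [0, 0, 0, 0, 1]], []⟩]

/-- the constraints -/
def eds6 : List Ed :=
  [⟨12, 72, 13, 73, [[0, 1, 0, 0, 1, 2], [0, 2, 0, 2, 1, 0, 1], [], [0, 0, 0, 0, 0, 0, 0, 1], [0,
  2, 0, 0, 1, 0, 2, 2], [0, 0, 0, 0, 0, 0, 0, 2], [0, 2, 0, 0, 2, 0, 0, 1]], [[0, 0, 0, 0, 1], [0,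
  1, 1], [], [], [0, 0, 0, 2, 2]], []⟩, ⟨11, 70, 13, 79, [[0, 1, 1, 1, 2, 1, 0, 0, 2], [0, 0, 0,
  1, 1, 2, 0, 0, 1], [0, 0, 2, 1, 1, 0, 2, 1], [0, 0, 0, 1, 2, 2, 0, 0, 1], [0, 0, 0, 2, 1, 0, 0,
  0, 2], [0, 0, 0, 1, 2, 1], [0, 0, 0, 0, 1, 1, 0, 0, 2], [0, 0, 0, 0, 0, 2], [0, 0, 0, 0, 0, 0,
  0, 0, 2]], [[0, 0, 0, 1], [1, 0, 0, 2], [2, 0, 0, 1], [], [0, 0, 1, 1]], [[0, 2, 2, 1], [], [0,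
  0, 2, 1], [0, 0, 0, 2], [], [], [0, 0, 0, 2]]⟩, ⟨12, 76, 13, 79, [[0, 0, 0, 0, 0, 2, 0, 2, 2],
  [0, 0, 0, 0, 0, 0, 2, 1, 2], [0, 2, 0, 2, 1, 1, 0, 0, 2], [0, 0, 1, 1], [], [0, 0, 0, 0, 0, 0,
  0, 0, 1], [0, 0, 0, 0, 0, 2], [0, 0, 0, 0, 0, 0, 0, 0, 2]], [[0, 0, 2], [0, 2, 0, 2], [], [0, 0,
  0, 2], [1, 0, 0, 2], [0, 0, 0, 1]], []⟩, ⟨12, 72, 13, 79, [[0, 0, 0, 0, 2, 0, 0, 1], [0, 1, 0,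
  2, 0, 2, 0, 0, 2], [], [0, 0, 0, 0, 0, 0, 0, 0, 2], [0, 0, 0, 0, 2, 0, 0, 0, 2], [0, 0, 0, 0, 0,
  1, 0, 0, 2], [0, 0, 0, 2, 0, 0, 0, 0, 1]], [[0, 0, 1, 1], [0, 1, 2], [], [0, 0, 0, 1]], []⟩, ⟨4,
  81, 4, 82, [[], [], [], [], [], [0, 0, 0, 1]], [[], [], [], [0, 0, 0, 0, 1], [], [], [], [0, 0,
  0, 0, 0, 1]], []⟩, ⟨4, 75, 6, 84, [[0, 0, 1, 2, 0, 1, 2], [0, 0, 1, 2, 0, 0, 2], [0, 0, 1, 1],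
  [0, 0, 0, 0, 0, 0, 1]], [[0, 0, 1, 1, 2, 2, 0, 1, 1], [0, 0, 0, 2, 2, 2, 0, 0, 1], [0, 0, 0, 0,
  2, 1], [0, 0, 0, 0, 0, 0, 0, 1, 2], [0, 0, 0, 0, 0, 0, 0, 2, 1], [0, 0, 0, 0, 0, 0, 0, 2]], [[],
  [0, 0, 0, 0, 0, 0, 0, 2], [0, 0, 0, 0, 0, 0, 0, 2]]⟩, ⟨4, 81, 6, 84, [[0, 0, 0, 2, 0, 1, 1], [0,
  0, 0, 1, 0, 2], [0, 1, 1, 0, 0, 0, 2], [0, 0, 2], [0, 2, 1, 0, 0, 0, 2], [0, 0, 0, 0, 0, 0, 2]],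
  [[0, 0, 0, 0, 2, 2, 1, 1, 2], [0, 2, 0, 0, 0, 0, 0, 0, 1], [0, 0, 1, 0, 1, 0, 0, 1], [2, 0, 0,
  2, 2, 1, 0, 0, 2], [2, 0, 0, 0, 1, 0, 0, 2, 2], [1, 0, 0, 0, 0, 2], [0, 0, 0, 0, 0, 1, 0, 1, 2],
  [0, 0, 0, 0, 0, 0, 2, 2, 2], [0, 0, 0, 0, 0, 0, 0, 2], [0, 0, 0, 0, 0, 0, 0, 1, 1]], []⟩, ⟨4,
  75, 6, 78, [[0, 2, 2, 0, 2, 2], [0, 2, 0, 0, 1], [0, 1, 2], [0, 0, 0, 0, 0, 2]], [[0, 2, 0, 0,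
  0, 1, 2], [0, 0, 2, 0, 0, 1, 2], [0, 0, 0, 0, 1, 2], [1, 0, 0, 0, 0, 2, 2], [0, 0, 0, 0, 0, 1],
  [0, 0, 0, 0, 0, 1, 1]], []⟩, ⟨8, 57, 9, 60, [[0, 0, 2, 1, 1], [0, 0, 0, 2], [], [1, 0, 2], [2,
  0, 2]], [[], [0, 2]], []⟩, ⟨8, 81, 9, 84, [[0, 0, 0, 0, 0, 0, 0, 2, 2], [0, 0, 2, 1, 1, 0, 1, 0,
  2], [0, 0, 2, 0, 1, 0, 1, 2], [0, 0, 1, 0, 1, 0, 2, 1], [], [0, 0, 0, 0, 0, 0, 1, 0, 2], [0, 0,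
  0, 0, 2], [0, 0, 0, 0, 2, 0, 0, 0, 1]], [[0, 0, 0, 0, 0, 0, 0, 1], [0, 0, 0, 0, 0, 0, 0, 2], [1,
  0, 2, 0, 1, 2, 0, 0, 1], [0, 0, 0, 0, 0, 0, 0, 0, 2], [2, 0, 1, 0, 1, 0, 2, 0, 2], [2, 0, 1, 0,
  2]], []⟩, ⟨9, 81, 10, 84, [[0, 0, 0, 0, 0, 0, 0, 0, 1], [0, 0, 1, 1, 0, 0, 0, 2], [0, 0, 0, 2,
  0, 0, 0, 1], [0, 0, 0, 1]], [[0, 2, 0, 0, 2, 2], [0, 0, 0, 0, 0, 0, 2], [0, 0, 0, 0, 0, 2]],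
  []⟩, ⟨8, 57, 9, 58, [[0, 2, 0, 2], [0, 0, 2, 1], [0, 0, 1, 2], [1, 0, 0, 1], [2, 0, 1]], [[0,
  1], [0, 2]], []⟩, ⟨7, 58, 9, 61, [[0, 0, 2, 1], [0, 2, 2], [0, 0, 2, 0, 2], [0, 0, 0, 0, 2], [0,
  0, 0, 0, 2]], [[0, 1], [2, 1], [0, 2, 2]], []⟩, ⟨7, 58, 8, 61, [[2, 1, 0, 2], [0, 0, 1, 2], [0,
  0, 2]], [[0, 0, 2], [], [0, 2]], []⟩, ⟨10, 60, 12, 63, [[2, 0, 0, 0, 2, 1], [1, 2], [0, 0, 0, 0,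
  1], [2, 0, 2], [0, 0, 0, 0, 2, 2], [1, 0, 1, 2], [0, 0, 0, 0, 0, 0, 2]], [[2], [1, 1, 1], [0, 0,
  2]], []⟩, ⟨11, 56, 12, 63, [[0, 2, 1], [0, 0, 0, 0, 0, 0, 2]], [[1, 1, 1]], []⟩, ⟨8, 61, 10, 64,
  [[0, 0, 1, 1, 0, 1], [0, 0, 0, 1, 1, 1], [0, 0, 0, 0, 1, 2], [0, 0, 0, 0, 2, 2]], [[2], [0, 0,
  2], [0, 2]], []⟩, ⟨14, 79, 16, 82, [[0, 2, 0, 0, 0, 2, 2], [0, 0, 0, 0, 1, 1, 2], [1, 0, 2, 0,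
  0, 0, 2], [2, 0, 0, 2, 1, 1, 1], [0, 0, 0, 0, 2, 2, 2], [0, 0, 0, 0, 0, 1, 2], [1, 0, 0, 0, 1,
  1], [], [0, 0, 0, 0, 0, 0, 0, 1]], [[1, 2, 0, 2, 1, 2, 1], [0, 0, 0, 1, 2, 1, 2], [0, 0, 0, 2],
  [0, 0, 0, 0, 1, 0, 2], [2, 0, 0, 2, 1, 2, 1], [1, 0, 0, 2, 2, 1], [2, 0, 2, 0, 2, 1, 1]], []⟩,
  ⟨16, 82, 18, 85, [[1, 0, 0, 0, 2], [0, 2, 0, 0, 2], [0, 2, 2, 0, 2, 2, 2], [0, 0, 0, 2, 1, 0,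
  2], [0, 0, 0, 0, 2, 2, 2], [0, 0, 0, 0, 0, 2, 1], [0, 0, 0, 0, 0, 1, 1], [0, 0, 0, 0, 0, 0, 0,
  2]], [[0, 1, 1, 2, 0, 2], [2, 1, 1, 2, 0, 2], [0, 1, 1, 0, 2, 1], [0, 2], [0, 1, 1, 1], [0, 2,
  0, 2, 0, 0, 2], [0, 1, 0, 1]], []⟩, ⟨6, 69, 7, 70, [[0, 0, 0, 0, 0, 0, 1, 0, 1], [2, 2, 1, 0, 0,
  2, 0, 1], [0, 0, 2, 0, 1, 0, 1, 0, 2], [0, 0, 0, 0, 0, 1], [0, 0, 0, 0, 0, 0, 2, 2, 2], [0, 0,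
  0, 0, 0, 0, 0, 2], [0, 0, 1, 0, 0, 0, 1]], [[0, 2, 1, 1], [], [0, 0, 1, 1], [0, 0, 0, 1], [],
  [], [0, 0, 0, 1]], []⟩]

/-- the constraints -/
def eds7 : List Ed :=
  [⟨6, 69, 8, 78, [[0, 0, 2], [1, 2, 0, 1, 1, 2], [0, 0, 0, 2, 2, 0, 1], [0, 1, 0, 1], [0, 0, 2],
  [0, 0, 1], [0, 0, 1, 0, 0, 1, 1]], [[0, 1, 1, 1, 2, 1, 0, 0, 2], [0, 0, 0, 1, 1, 2, 0, 0, 1],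
  [0, 0, 2, 1, 1, 0, 2, 1], [0, 0, 0, 1, 2, 2, 0, 0, 1], [0, 0, 0, 2, 1, 0, 0, 0, 2], [0, 0, 0, 1,
  2, 1], [0, 0, 0, 0, 1, 1, 0, 0, 2], [0, 0, 0, 0, 0, 2], [0, 0, 0, 0, 0, 0, 0, 0, 2]], [[0, 0, 0,
  0, 0, 1], [2, 2, 2, 2, 1, 1, 1, 0, 1], [0, 0, 0, 0, 2, 1], [0, 0, 0, 0, 0, 0, 1], [0, 0, 0, 0,
  0, 2, 0, 0, 1], [0, 0, 0, 0, 0, 0, 0, 0, 1], [0, 0, 0, 2, 0, 2, 0, 0, 2]]⟩, ⟨6, 75, 8, 78, [[2,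
  2, 0, 1, 0, 0, 1], [0, 0, 2, 1, 1, 1], [0, 1, 1, 2], [0, 0, 0, 0, 0, 0, 2], [0, 0, 0, 0, 0, 2,
  1], [0, 0, 2], [0, 0, 0, 0, 0, 0, 2]], [[1, 1, 1, 0, 2, 2, 1], [0, 0, 0, 2, 2, 2, 0, 0, 1], [0,
  2, 1, 0, 2, 0, 1, 2, 2], [0, 0, 0, 0, 1, 1, 0, 0, 2], [0, 0, 2, 1, 2, 1, 2, 0, 2], [0, 0, 0, 0,
  0, 1, 1, 0, 2], [0, 0, 0, 0, 0, 1, 0, 0, 2], [0, 0, 0, 0, 0, 2]], []⟩, ⟨7, 71, 8, 78, [[0, 0, 1,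
  2, 0, 0, 2]], [[0, 0, 0, 0, 2, 0, 0, 1], [0, 1, 0, 2, 0, 2, 0, 0, 2], [], [0, 0, 0, 0, 0, 0, 0,
  0, 2], [0, 0, 0, 0, 2, 0, 0, 0, 2], [0, 0, 0, 0, 0, 1, 0, 0, 2], [0, 0, 0, 2, 0, 0, 0, 0, 1]],
  []⟩, ⟨3, 14, 5, 23, [[1]], [], [[1]]⟩, ⟨5, 22, 5, 23, [[1]], [[1]], []⟩, ⟨4, 25, 4, 26, [[0, 0,
  1]], [[0, 1]], []⟩, ⟨3, 25, 5, 28, [[2]], [[2], [0, 2]], []⟩, ⟨4, 25, 5, 28, [[0, 1]], [[1, 1]],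
  []⟩, ⟨4, 20, 6, 29, [[0, 2, 2]], [[1], [1]], [[0, 1]]⟩, ⟨4, 26, 6, 29, [[2], [0, 2], [0, 0, 2]],
  [[2], [0, 2]], []⟩, ⟨5, 22, 6, 29, [[0, 1]], [[0, 1]], []⟩, ⟨3, 25, 5, 34, [[2, 2]], [[0, 2,
  2]], [[1, 0, 2]]⟩, ⟨5, 28, 7, 37, [[0, 1], [1]], [[0, 2, 2]], [[1, 0, 2], [0, 0, 2]]⟩, ⟨6, 36,
  7, 37, [[1, 1]], [[1, 0, 2], [0, 0, 2]], []⟩, ⟨5, 34, 7, 43, [[2]], [[1], [], [2]], [[1]]⟩, ⟨5,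
  40, 7, 43, [[2, 2]], [[2]], []⟩, ⟨6, 36, 7, 43, [[0, 2]], [[1], [2]], []⟩, ⟨5, 40, 7, 49, [[1]],
  [[1]], [[2]]⟩, ⟨7, 49, 9, 58, [[0, 0, 1, 2], [1, 0, 1, 1]], [[0, 2]], [[0, 1], [0, 2]]⟩, ⟨8, 70,
  10, 79, [[1, 2, 1, 0, 2, 1, 1, 1], [1, 1, 1, 0, 2, 1, 1, 1], [0, 1, 0, 0, 1, 2], [0, 0, 0, 0, 1,
  0, 2], [0, 0, 0, 0, 1, 0, 1, 1], [0, 0, 0, 0, 2, 0, 2, 2], [0, 0, 0, 0, 0, 0, 0, 1], [0, 0, 0,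
  0, 0, 0, 0, 2]], [[0, 2, 0, 2, 1, 0, 1, 2], [0, 1, 0, 0, 0, 0, 2], [], [0, 2, 0, 0, 0, 0, 0, 2],
  [0, 2, 2, 1, 2, 1, 1, 2], [0, 1, 0, 0, 2, 2, 0, 2], [0, 2, 0, 1, 1, 0, 1, 1]], [[0, 2, 0, 0, 2,
  1, 2, 2], [], [0, 0, 0, 0, 0, 0, 1]]⟩]

/-- the constraints -/
def eds8 : List Ed :=
  [⟨6, 79, 8, 82, [[0, 2, 2, 0, 0, 2, 0, 2], [0, 1, 1, 1, 0, 1, 1], [1, 2, 1, 2, 0, 0, 1, 1], [1,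
  1, 1, 0, 0, 2, 2, 2], [2, 1, 2], [0, 0, 2], [0, 0, 0, 0, 0, 1, 2]], [[1, 1, 1, 0, 0, 0, 2], [0,
  0, 2, 1], [0, 1, 1, 0, 2, 2, 1], [0, 2, 0, 0, 1, 2, 1], [0, 0, 0, 0, 1, 2], [0, 0, 0, 0, 0, 2,
  2], [0, 0, 0, 0, 0, 0, 2]], []⟩, ⟨3, 57, 5, 60, [[0, 1, 1], [2]], [[2], [0, 0, 2], [0, 0, 1]],
  []⟩, ⟨2, 7, 4, 16, [[1]], [], [[1]]⟩, ⟨2, 15, 3, 16, [[0, 2], [2, 2]], [[1]], []⟩, ⟨3, 15, 4,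
  16, [[2]], [[2]], []⟩, ⟨3, 15, 3, 16, [[0, 1]], [[1]], []⟩, ⟨4, 20, 5, 21, [[0, 2]], [[2], [2]],
  []⟩, ⟨5, 20, 5, 21, [[0, 1]], [[1]], []⟩, ⟨2, 15, 4, 24, [[2, 1, 0, 1], [0, 0, 1, 2]], [[1], [2,
  1]], [[0, 1], [2]]⟩, ⟨2, 21, 4, 24, [[1, 1], [0, 2, 2], [2, 1, 1]], [[2], [0, 2]], []⟩, ⟨3, 23,
  4, 24, [], [[0, 2], [1], [0, 2]], []⟩, ⟨4, 24, 6, 27, [[2, 2], [0, 2], [0, 0, 0, 2], [0, 0, 1]],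
  [[2], [0, 2]], []⟩, ⟨5, 20, 6, 27, [[0, 2, 1]], [[1, 1]], []⟩, ⟨2, 21, 4, 30, [[2, 2, 2, 0, 0,
  1], [1, 0, 1, 2, 1, 1], [2, 1, 2, 1, 2]], [[1], [0, 0, 1]], [[0, 1], [2, 1], [1, 0, 2]]⟩, ⟨3,
  27, 4, 30, [[0, 1]], [[0, 1, 2], [0, 0, 1], [0, 0, 2]], []⟩, ⟨3, 23, 4, 30, [[0, 0, 0, 0, 0,
  2]], [[0, 2, 1], [2, 0, 1], [0, 0, 1]], []⟩, ⟨3, 27, 5, 36, [[2, 0, 1]], [[0, 1], [0, 2], [0,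
  1]], [[0, 1]]⟩, ⟨3, 35, 4, 36, [], [[0, 1], [2, 2]], []⟩, ⟨3, 33, 5, 36, [[1, 0, 2]], [[2], [0,
  2]], []⟩, ⟨3, 33, 5, 42, [[0, 1, 2, 2]], [[2, 1], [1]], [[1]]⟩]

/-- the constraints -/
def eds9 : List Ed :=
  [⟨3, 39, 5, 42, [[2, 2, 2, 2]], [[2], [0, 2]], []⟩, ⟨3, 35, 4, 42, [[0, 0, 0, 0, 2]], [[0, 0,
  2], [1]], []⟩, ⟨4, 41, 5, 42, [[2, 1], [0, 0, 0, 2]], [[0, 2], [1, 2]], []⟩, ⟨4, 41, 4, 42, [[0,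
  0, 0, 0, 1]], [[], [0, 0, 1]], []⟩, ⟨3, 39, 5, 48, [[0, 1, 2]], [[2, 2]], [[1, 1]]⟩, ⟨3, 45, 5,
  48, [[0, 2, 1], [2, 2, 2]], [[2, 2], [2, 1], [0, 2]], []⟩, ⟨5, 48, 7, 51, [[1], [0, 2]], [[2,
  2], [0, 1]], []⟩, ⟨3, 45, 5, 54, [[0, 2, 2], [0, 0, 2]], [[1, 1], [1, 2], [0, 1]], [[1, 1], [1,
  1]]⟩, ⟨3, 51, 5, 54, [[2], [0, 0, 2]], [[1, 1], [0, 1]], []⟩, ⟨7, 51, 9, 54, [[], [0, 2, 1], [1,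
  1]], [[2], [0, 2]], []⟩, ⟨3, 51, 5, 60, [[0, 1, 1], [1]], [[1], [0, 0, 2]], [[], [1]]⟩]

/-- the constraints -/
def eds : List Ed :=
  eds0 ++ (eds1 ++ (eds2 ++ (eds3 ++ (eds4 ++ (eds5 ++ (eds6 ++ (eds7 ++ (eds8 ++ (eds9)))))))))

/-- the hypotheses -/
def Gam : Ctx where
  dims :=
    [(9, 82, 10), (10, 83, 6), (11, 80, 7), (12, 81, 8), (13, 82, 8), (14, 84, 7), (15, 80, 8),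
    (18, 85, 8)]
  surs :=
    [(2, 7, 1), (2, 15, 2), (2, 21, 3), (2, 60, 2), (3, 14, 1), (3, 15, 1), (3, 23, 1), (3, 25,
    1), (3, 27, 1), (3, 33, 1), (3, 35, 2), (3, 39, 1), (3, 45, 2), (3, 51, 2), (3, 57, 2), (4,
    20, 1), (4, 24, 4), (4, 25, 2), (4, 26, 3), (4, 41, 2), (4, 62, 2), (4, 63, 5), (4, 64, 4),
    (4, 68, 1), (4, 69, 7), (4, 75, 4), (4, 81, 6), (5, 20, 1), (5, 22, 1), (5, 28, 2), (5, 34,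
    3), (5, 40, 1), (5, 48, 3), (5, 59, 3), (5, 64, 2), (5, 65, 6), (5, 66, 4), (5, 67, 7), (5,
    70, 3), (5, 72, 7), (5, 76, 6), (5, 82, 5), (6, 36, 2), (6, 47, 2), (6, 59, 1), (6, 60, 4),
    (6, 61, 4), (6, 65, 4), (6, 67, 6), (6, 69, 7), (6, 71, 4), (6, 72, 7), (6, 73, 9), (6, 75,
    7), (6, 76, 5), (6, 78, 6), (6, 79, 7), (6, 82, 6), (7, 42, 2), (7, 48, 2), (7, 49, 2), (7,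
    51, 3), (7, 56, 2), (7, 58, 5), (7, 62, 6), (7, 69, 5), (7, 71, 2), (7, 73, 5), (7, 75, 7),
    (7, 79, 8), (7, 80, 5), (7, 85, 11), (8, 51, 3), (8, 56, 2), (8, 57, 6), (8, 61, 4), (8, 62,
    3), (8, 63, 7), (8, 64, 6), (8, 69, 7), (8, 70, 8), (8, 75, 6), (8, 81, 9), (8, 82, 8), (8,
    85, 10), (9, 57, 6), (9, 61, 5), (9, 63, 7), (9, 65, 7), (9, 76, 6), (9, 78, 8), (9, 81, 7),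
    (9, 82, 10), (9, 83, 6), (9, 85, 7), (10, 60, 7), (10, 61, 3), (10, 65, 4), (10, 67, 6), (10,
    73, 9), (10, 78, 9), (10, 79, 8), (11, 56, 2), (11, 66, 9), (11, 70, 9), (11, 72, 11), (11,
    74, 9), (11, 78, 11), (11, 81, 8), (12, 70, 6), (12, 72, 7), (12, 76, 9), (12, 81, 8), (13,
    84, 7), (14, 79, 9), (16, 82, 8)]
  dds :=
    [(5, 82), (7, 80), (9, 83), (13, 84)]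
  maps :=
    [(4, 81), (8, 81), (6, 79), (10, 79)]
  eds := eds

/-- the operators -/
def ks : List ℕ :=
  [2, 3, 2, 2, 2, 3, 4, 1, 1, 3, 2, 3, 5, 5, 2, 2, 2, 4, 0, 2, 4, 1, 5, 2, 2, 2, 2, 5, 2, 2, 4, 4,
  2, 0, 3, 1, 2, 3, 0, 2, 4, 5, 2, 5, 2, 5, 1, 2, 0, 1, 1, 5, 2, 2, 5, 1, 3, 2, 4, 2, 0, 5, 2, 2,
  5, 2, 2, 1, 4, 3, 3, 5, 2, 1, 5, 2, 5, 2, 3, 2, 5, 2, 3, 2, 2, 2, 2, 2, 1, 2, 1, 5, 4, 0, 1, 0,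
  2, 4, 2, 5, 0, 5, 4, 5, 2, 3, 5, 5, 2, 3, 2, 0, 2, 4, 1, 4, 2, 5, 1, 2, 1, 5, 3, 4, 0, 5, 2, 2,
  3, 3, 3, 1, 2, 3, 2, 4, 2, 2, 2, 1, 5, 2, 4, 5, 0, 0, 2, 3, 5, 2, 4, 5, 5, 1, 5, 2, 4, 5, 5, 5,
  2, 2, 5, 1, 1, 0, 1, 0, 5, 2, 1, 2, 4, 5, 3, 4, 5, 1, 2, 5, 2, 4, 1, 0, 5, 2, 2, 5, 2, 2, 5]

/-- the derivation -/
def der0 : List Step :=
  [.lem 5 82 [0, 0, 0, 1] [0, 1] 0 [(0, [0, 0, 0, 2], [0, 1]), (1, [0, 0, 2, 1], [0, 2])] [], .lem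
  5 82 [0, 0, 0, 1] [0, 0, 1] 0 [(0, [0, 0, 0, 2], [0, 0, 0, 1]), (1, [0, 0, 2, 1], [0, 0, 0, 2])]
  [], .lem 5 82 [1, 0, 0, 1] [0, 1] 0 [(0, [2, 0, 0, 2], [0, 1]), (1, [2, 2, 2], [0, 2]), (2, [2,
  1, 1, 0, 2, 0, 0, 0, 0, 1], [2])] [], .lem 5 82 [1, 0, 0, 1] [0, 0, 1] 0 [(0, [2, 0, 0, 2], [0,
  0, 0, 1]), (1, [2, 2, 2], [0, 0, 0, 2]), (2, [2, 1, 1, 0, 2, 0, 0, 0, 0, 1], [1, 0, 2, 1])] []]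

/-- the derivation -/
def der1 : List Step :=
  [.lem 5 82 [1, 0, 0, 1] [1] 0 [(0, [2, 0, 0, 0, 1], [0, 0, 1]), (0, [0, 0, 0, 2, 2], [1, 1]),
  (3, [2, 2, 2, 0, 2, 1], [0, 1]), (1, [2, 2], [0, 0, 2]), (1, [0, 0, 2, 0, 2, 1], [2, 2]), (1,
  [0, 0, 0, 0, 2, 1], [0, 1]), (2, [2, 1, 1, 0, 2, 0, 0, 0, 0, 1], [0, 0, 2]), (4, [2, 0, 1, 0, 0,
  2, 2, 1], [2]), (5, [2, 1], [2]), (6, [0, 2], [1])] [(1, 1)], .lem 5 82 [0, 0, 0, 1] [1] 0 [(7,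
  [0, 2], [0, 0, 2, 2]), (8, [0, 2, 1, 0, 0, 1], [0, 0, 2, 1]), (8, [0, 0, 2, 0, 0, 2], [0, 0, 0,
  2]), (9, [0, 2], [0, 0, 2]), (10, [0, 2], [0, 0, 1]), (10, [0, 0, 2, 0, 0, 2], [2]), (11, [0, 0,
  2, 0, 0, 2], [0, 0, 0, 0, 0, 2]), (12, [0, 0, 0, 2], [0, 2, 0, 1]), (13, [0, 0, 0, 0, 2], [0, 0,
  2, 1, 0, 0, 2]), (14, [0, 2, 2, 2], [0, 0, 1, 2, 0, 0, 1]), (15, [0, 2, 0, 2, 1], [0, 0, 0, 0,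
  2, 1]), (16, [2, 0, 0, 2], [1]), (17, [0, 2], [0, 0, 0, 0, 0, 2, 1]), (18, [0, 0, 0, 2, 0, 0,
  1], [0, 0, 0, 0, 0, 2, 1]), (19, [0, 0, 2], [2]), (0, [0, 0, 0, 2], [1]), (20, [0, 0, 0, 2],
  [1])] [], .lem 10 83 [0, 0, 0, 0, 1] [0, 0, 0, 0, 0, 0, 0, 1] 1 [(21, [2, 1, 1, 1], [0, 2, 0, 0,
  0, 0, 0, 2]), (22, [0, 2], [0, 2, 0, 1]), (23, [2, 1, 1, 1], [0, 0, 0, 0, 0, 0, 2]), (24, [0, 0,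
  2], [0, 2, 2, 2, 1]), (25, [0, 0, 0, 0, 0, 2], [2, 0, 0, 1, 2, 2, 1]), (7, [0, 2, 1], [2, 0,
  2]), (7, [0, 0, 2], [0, 0, 2, 1]), (8, [0, 2], [0, 0, 0, 1, 1, 2, 1]), (26, [0, 2, 1], [0, 1, 1,
  1, 2, 1, 2]), (9, [0, 2], [0, 0, 1, 2, 0, 0, 0, 2, 2]), (9, [0, 0, 2], [0, 0, 0, 0, 0, 0, 0, 1,
  1]), (27, [0, 0, 2, 0, 1], [0, 0, 0, 0, 0, 0, 0, 0, 2]), (28, [0, 0, 0, 0, 0, 0, 0, 2], [0, 0,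
  0, 0, 0, 0, 0, 0, 1]), (29, [0, 0, 0, 2], [0, 0, 0, 2, 0, 2, 1]), (30, [0, 2, 0, 2], [0, 0, 0,
  0, 0, 0, 0, 0, 2]), (13, [0, 2, 1, 2], [0, 0, 0, 0, 0, 0, 0, 2]), (31, [0, 0, 0, 2, 2], [0, 0,
  0, 0, 0, 0, 0, 1])] [], .lem 5 82 [0, 0, 0, 1] [0, 0, 0, 1] 0 [(21, [2, 1, 1, 1], [2, 0, 0, 0,
  0, 0, 0, 0, 0, 1]), (23, [2, 1, 1, 1], [0, 1, 1, 1, 0, 0, 2]), (24, [2, 0, 1], [2, 1]), (25, [0,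
  0, 0, 0, 0, 2], [1, 1, 0, 0, 0, 0, 2]), (32, [0, 0, 0, 2], [0, 2]), (8, [0, 2], [2, 0, 0, 0, 0,
  0, 1, 0, 2]), (33, [0, 2, 0, 1, 0, 1], [0, 0, 0, 0, 0, 0, 0, 0, 2]), (10, [0, 2], [0, 2, 0, 2,
  1]), (27, [0, 0, 2, 0, 1], [0, 0, 0, 0, 0, 0, 0, 2]), (28, [0, 0, 0, 0, 0, 0, 0, 2], [0, 0, 0,
  0, 0, 0, 0, 1]), (30, [0, 2, 0, 2], [0, 0, 0, 0, 0, 0, 0, 2]), (12, [0, 0, 0, 2], [0, 1, 2, 1]),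
  (15, [0, 2, 0, 2, 1], [0, 0, 0, 0, 1, 1]), (17, [0, 2], [0, 0, 0, 0, 0, 1, 1]), (18, [0, 0, 0,
  2, 0, 0, 1], [0, 0, 0, 0, 0, 1, 1]), (0, [0, 0, 0, 2], [0, 0, 0, 0, 0, 2]), (20, [0, 0, 0, 2],
  [0, 0, 0, 0, 0, 2])] [(6, 2), (5, 1)]]

/-- the derivation -/
def der2 : List Step :=
  [.lem 10 83 [0, 0, 0, 0, 0, 1] [0, 0, 0, 0, 0, 0, 0, 1] 0 [(21, [2, 1], [0, 0, 0, 0, 0, 0, 2]),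
  (34, [0, 2], [0, 0, 0, 0, 0, 0, 1]), (35, [2], [0, 0, 0, 2, 1, 1, 2]), (36, [2, 0, 0, 0, 2, 1],
  [0, 1]), (37, [0, 2], [0, 2]), (38, [2], [2, 1]), (39, [2], [0, 0, 0, 0, 0, 0, 2, 0, 1, 2]), (7,
  [2], [0, 0, 0, 0, 0, 0, 1, 0, 2, 1]), (7, [0, 2, 1], [2, 0, 0, 2]), (40, [2], [0, 0, 0, 0, 0, 0,
  2, 0, 1, 2]), (32, [2, 0, 2, 1, 0, 0, 1], [2, 1]), (32, [0, 0, 0, 2], [0, 2]), (8, [0, 2], [0,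
  0, 0, 0, 0, 0, 0, 0, 2]), (26, [0, 2, 1], [0, 1, 1, 1, 2, 1, 2]), (9, [0, 2, 1], [0, 0, 0, 0, 0,
  0, 0, 2, 2]), (33, [2, 2, 0, 1], [0, 0, 0, 0, 0, 0, 0, 1, 2]), (33, [0, 2, 0, 1, 0, 1], [0, 0,
  0, 0, 0, 0, 0, 0, 2]), (41, [2, 2], [2, 0, 0, 2, 1, 1, 0, 1, 2, 0, 1]), (42, [0, 0, 2], [1, 0,
  0, 1, 2, 2, 0, 2, 1, 0, 2]), (10, [0, 2], [0, 2, 0, 2, 1]), (29, [0, 0, 0, 2], [0, 0, 0, 2, 0,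
  2, 1]), (12, [2, 0, 2, 1], [1, 1, 2, 1]), (12, [0, 0, 0, 2], [0, 1, 2, 1]), (43, [0, 2], [0, 0,
  0, 1]), (44, [2, 2, 1], [0, 0, 0, 1]), (45, [2, 0, 2, 1], [0, 1]), (46, [2, 2, 0, 0, 0, 1], [0,
  1]), (15, [0, 2, 0, 2, 1], [0, 0, 0, 0, 1, 1]), (47, [2, 0, 1, 0, 0, 1, 2], [0, 0, 0, 0, 0, 0,
  0, 1]), (17, [0, 2], [0, 0, 0, 0, 0, 1, 1]), (18, [0, 0, 0, 2, 0, 0, 1], [0, 0, 0, 0, 0, 1, 1]),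
  (48, [0, 2], [1, 2, 2, 0, 1, 2, 0, 1]), (48, [0, 0, 0, 2], [0, 0, 0, 0, 0, 0, 0, 2]), (49, [0,
  0, 0, 0, 0, 0, 0, 2], [0, 0, 0, 0, 0, 0, 0, 2]), (31, [0, 0, 0, 2, 2], [0, 0, 0, 0, 0, 0, 0,
  1]), (0, [0, 0, 0, 2], [0, 0, 0, 0, 0, 2]), (3, [2, 0, 0, 0, 0, 1], [2, 0, 1]), (1, [2, 0, 0, 0,
  0, 1], [2, 0, 0, 0, 2]), (20, [2, 2], [1, 0, 0, 0, 1]), (20, [0, 0, 0, 2], [0, 0, 0, 0, 0, 2]),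
  (4, [2, 0, 0, 0, 0, 0, 0, 0, 1], [0, 2, 2]), (5, [2, 2], [0, 2, 2]), (6, [0, 2, 0, 1], [0, 2,
  2])] [(1, 2), (0, 1), (7, 2), (6, 1)], .lem 10 83 [0, 0, 0, 1, 2] [0, 0, 0, 0, 0, 0, 0, 1] 0
  [(50, [2], [1, 2]), (51, [0, 0, 2], [1, 1, 1]), (52, [0, 0, 0, 0, 0, 2], [1, 1, 1]), (53, [2, 0,
  2, 1], [0, 1]), (21, [2, 1, 0, 2], [2, 0, 0, 1, 2, 0, 2, 1, 2]), (21, [0, 0, 2], [0, 0, 0, 0, 0,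
  0, 0, 1]), (21, [0, 0, 0, 2], [0, 2, 0, 2, 1, 0, 1, 0, 1]), (34, [2], [1]), (34, [0, 2], [0, 0,
  0, 0, 0, 0, 2]), (35, [2], [1, 1, 1, 1, 0, 1, 1, 1]), (54, [0, 0, 0, 0, 0, 2], [0, 1, 2, 1]),
  (55, [2, 0, 0, 0, 2], [0, 2, 1, 2]), (23, [2, 1, 2], [1, 0, 2, 0, 0, 1]), (23, [0, 0, 2, 1], [0,
  0, 0, 0, 0, 0, 2]), (56, [2, 1, 2, 2], [0, 2]), (57, [0, 2, 1, 2, 0, 2], [0, 0, 1]), (36, [2, 1,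
  0, 0, 0, 2], [1, 2, 0, 0, 0, 1, 1]), (36, [0, 2, 0, 0, 2, 2], [0, 2, 0, 0, 0, 1, 1]), (36, [0,
  0, 0, 2, 2], [0, 0, 0, 0, 0, 2, 2]), (37, [2], [0, 0, 0, 0, 0, 1, 1]), (37, [0, 2], [0, 1]),
  (37, [0, 0, 2], [1]), (58, [2, 0, 2, 1], [1]), (59, [0, 0, 2, 1, 0, 2, 1], [0, 1, 2]), (25, [2,
  0, 2, 1, 0, 2], [2, 0, 0, 0, 1, 1]), (25, [0, 0, 0, 2, 2, 1], [0, 0, 0, 2, 2, 2, 2]), (60, [2],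
  [0, 1, 2]), (61, [2, 0, 2], [1, 0, 1, 2]), (62, [0, 2, 1, 1, 2, 1], [0, 0, 1]), (39, [2], [2, 0,
  0, 0, 2, 0, 2, 0, 1, 1]), (7, [2], [1, 2, 0, 2, 1, 0, 0, 1, 2, 1]), (40, [2], [2, 1, 0, 1, 2, 0,
  0, 2, 1, 2]), (8, [2, 0, 0, 2, 1], [2, 0, 0, 2, 2, 1]), (8, [0, 2, 0, 1], [0, 0, 0, 2, 2, 1,
  1]), (9, [2], [2, 0, 0, 0, 0, 0, 2]), (33, [0, 0, 0, 0, 2], [1, 0, 0, 1, 1, 2]), (63, [2, 1, 2,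
  2, 2, 1, 2, 2], [1, 0, 0, 0, 2]), (63, [0, 0, 2, 2, 1, 0, 0, 2], [0, 2, 0, 2, 1, 1, 1]), (41,
  [2, 2], [1, 0, 1, 1, 2, 0, 0, 0, 0, 0, 2]), (41, [0, 2], [0, 0, 2, 1, 0, 2, 2, 2]), (42, [0, 0,
  2], [2, 0, 1, 0, 1, 2, 2, 2, 0, 0, 1]), (42, [0, 0, 0, 2], [0, 0, 2, 1, 0, 2, 2, 2]), (64, [2,
  0, 0, 0, 2], [0, 0, 1, 0, 2, 1]), (27, [2, 1, 2, 1, 2], [0, 1, 0, 0, 1]), (27, [0, 2, 1, 1, 1],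
  [2, 0, 0, 0, 0, 0, 1]), (28, [2, 2], [2, 0, 0, 0, 0, 0, 1]), (28, [0, 2, 2, 2, 0, 0, 0, 0, 1],
  [0, 2, 0, 0, 2]), (30, [2], [2, 0, 0, 0, 0, 0, 1]), (65, [2, 0, 1, 1, 2, 0, 1, 1], [2, 0, 0, 0,
  1, 2]), (65, [0, 0, 2, 1, 2, 0, 2], [0, 2, 0, 0, 1, 2, 1]), (66, [0, 0, 0, 0, 2, 2, 0, 1, 2],
  [0, 0, 0, 0, 2, 2]), (67, [2, 1, 1], [0, 0, 0, 0, 0, 1]), (67, [0, 2, 1, 0, 1, 0, 2], [0, 0, 0,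
  0, 1]), (68, [0, 0, 2, 1], [0, 0, 0, 0, 2, 2]), (68, [0, 0, 0, 2], [0, 0, 0, 0, 0, 2]), (43,
  [2], [0, 2]), (43, [0, 2], [2, 0, 0, 2, 1, 1, 0, 2]), (44, [0, 0, 0, 2], [0, 1]), (69, [0, 0, 0,
  2], [0, 0, 2]), (70, [0, 0, 2], [0, 2]), (71, [2, 2, 1, 1, 2], [1, 2, 0, 0, 2]), (71, [0, 0, 2,
  0, 2, 1], [0, 1, 1, 0, 0, 1]), (72, [0, 2, 1, 0, 2], [1, 2, 0, 0, 2]), (45, [2, 0, 2, 1], [0, 0,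
  0, 0, 0, 0, 0, 1]), (45, [0, 0, 2, 1], [0, 0, 0, 1]), (46, [0, 2, 1, 1, 0, 1], [0, 0, 0, 1, 0,
  0, 0, 2]), (46, [0, 0, 2, 2, 0, 1, 1], [0, 0, 0, 0, 0, 0, 0, 2]), (47, [0, 2, 0, 0, 0, 2, 1, 2],
  [2, 1, 1, 0, 2, 1, 0, 2]), (49, [0, 0, 2], [0, 0, 0, 0, 0, 0, 0, 2])] [], .lem 10 83 [0, 0, 0,
  1, 2] [0, 0, 0, 0, 0, 0, 0, 0, 1] 1 [(73, [2], [1]), (74, [2, 1], [2]), (75, [2, 2], [2]), (76,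
  [2], [0, 2]), (50, [2], [1, 2]), (51, [0, 0, 2], [2, 2, 2]), (52, [0, 0, 0, 0, 0, 2], [2, 2,
  2]), (77, [2], [2, 1, 0, 0, 2]), (78, [2], [2, 2, 2, 0, 0, 2, 1]), (53, [0, 0, 2, 2], [1]), (21,
  [2, 1, 2], [1, 1, 0, 0, 0, 0, 1, 0, 0, 1]), (21, [0, 2], [0, 0, 0, 0, 0, 0, 0, 0, 2]), (21, [0,
  0, 2, 1], [0, 1, 0, 0, 0, 0, 2, 2]), (21, [0, 0, 0, 2], [0, 0, 0, 0, 0, 0, 2, 0, 0, 2]), (34,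
  [0, 2], [0, 0, 0, 0, 0, 0, 2]), (35, [2], [2, 2, 0, 0, 0, 1, 0, 1, 2]), (79, [2, 0, 0, 0, 0, 2],
  [0, 2, 2, 0, 2, 1, 1]), (80, [2, 1], [1, 1, 0, 0, 2]), (81, [0, 2, 1], [1, 1, 0, 0, 2]), (22,
  [0, 2], [2]), (54, [0, 0, 0, 0, 0, 2], [1, 1, 1, 1]), (55, [2, 0, 0, 0, 2], [2, 2, 2, 2]), (23,
  [2, 0, 1, 2], [2, 1]), (23, [0, 2, 2, 1], [0, 2, 1, 1, 0, 2]), (23, [0, 0, 2, 2], [0, 0, 1, 2,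
  0, 1]), (23, [0, 0, 0, 2], [0, 0, 0, 2, 0, 0, 1]), (56, [2, 1, 2, 2], [0, 1, 2]), (56, [0, 0, 2,
  1], [0, 0, 2]), (57, [0, 2, 0, 0, 0, 1], [1]), (36, [2, 0, 0, 1, 0, 1], [1, 2, 0, 0, 0, 1, 2,
  1]), (36, [0, 0, 0, 2, 2], [0, 2]), (36, [0, 0, 0, 0, 2], [0, 0, 0, 0, 0, 0, 1]), (37, [2], [1,
  0, 0, 0, 0, 1, 0, 1]), (37, [0, 2], [0, 1]), (37, [0, 0, 2, 2], [0, 0, 0, 0, 0, 0, 2]), (58, [2,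
  2], [0, 0, 0, 0, 0, 0, 2]), (58, [0, 0, 2, 2], [0, 0, 0, 0, 0, 2, 0, 2]), (24, [0, 0, 2], [2]),
  (59, [0, 0, 2, 1, 0, 0, 1], [0, 2, 1]), (59, [0, 0, 0, 0, 0, 2], [0, 0, 1]), (25, [2, 2, 1, 2,
  1, 1], [0, 0, 0, 2, 2, 2, 2]), (25, [0, 2, 2, 1, 1], [2, 1, 0, 0, 0, 2, 2]), (25, [0, 0, 2, 2,
  1, 1], [0, 0, 0, 0, 0, 0, 2]), (25, [0, 0, 0, 2, 2], [0, 1, 0, 0, 0, 1]), (60, [2, 2, 1, 2], [0,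
  2, 1]), (60, [0, 2, 1, 2], [0, 0, 2]), (61, [2], [0, 0, 0, 2]), (62, [0, 0, 2], [2, 2]), (39,
  [2], [2, 0, 0, 0, 2, 0, 2, 0, 1, 1]), (7, [2], [0, 2, 2, 1, 2, 0, 2, 2, 0, 2]), (7, [0, 2], [1,
  0, 0, 0, 0, 0, 0, 0, 0, 0, 2]), (40, [2], [2, 0, 1, 0, 2, 2, 1, 0, 0, 0, 1]), (8, [2, 1, 0, 2,
  2], [1, 2, 0, 2, 2, 1, 1]), (8, [0, 2, 0, 2, 1], [0, 1, 0, 1, 1, 2, 1]), (8, [0, 0, 0, 2, 2],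
  [0, 0, 0, 0, 0, 0, 2]), (9, [2], [1, 0, 0, 0, 0, 0, 1]), (33, [0, 0, 0, 0, 2], [2, 1, 0, 1, 1,
  2, 2]), (63, [2, 1, 0, 0, 0, 0, 2], [2, 1, 0, 1, 0, 2, 2]), (63, [0, 2, 1, 0, 1, 1, 2], [0, 0,
  0, 1]), (63, [0, 0, 2, 2, 2, 1, 0, 2], [0, 1, 0, 0, 2, 2, 1]), (63, [0, 0, 0, 0, 2, 2], [0, 0,
  0, 0, 1, 1, 2]), (41, [2, 2, 1, 1], [1, 0, 2, 0, 1, 1, 0, 1, 0, 2, 2]), (41, [0, 2, 1, 1], [0,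
  0, 1, 2, 1, 1, 2, 1, 0, 1]), (41, [0, 0, 2, 2], [0, 0, 0, 2, 0, 2, 2, 2, 0, 0, 2]), (42, [2, 1,
  1], [1, 0, 0, 0, 2]), (42, [0, 0, 2, 1], [0, 0, 2, 2, 2, 0, 2, 0, 0, 2, 1]), (42, [0, 0, 0, 2],
  [0, 0, 0, 1, 0, 1, 1, 1, 0, 0, 1]), (64, [2, 0, 0, 0, 2], [0, 0, 1, 2, 2]), (64, [0, 2], [2, 0,
  0, 2, 0, 2, 1]), (27, [2, 1, 2, 1, 2], [0, 0, 0, 0, 1, 0, 2]), (27, [0, 2, 2, 1, 2], [1, 0, 0,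
  0, 0, 0, 2]), (27, [0, 0, 2, 0, 2], [0, 0, 0, 0, 0, 0, 2]), (28, [2, 2, 0, 0, 0, 0, 2], [1, 0,
  0, 0, 0, 0, 2]), (28, [0, 2, 2, 2, 0, 0, 0, 0, 1], [0, 0, 0, 0, 2, 0, 1]), (28, [0, 0, 0, 0, 0,
  0, 2], [0, 0, 0, 0, 0, 0, 1]), (30, [2, 1, 0, 1], [1, 0, 0, 0, 0, 0, 2]), (30, [0, 2, 0, 2], [0,
  0, 0, 0, 0, 0, 2]), (65, [2, 1, 2, 1, 0, 0, 2, 2, 2], [2, 1, 0, 0, 0, 0, 2]), (65, [0, 2, 1, 2,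
  0, 0, 1, 2], [0, 2, 1, 0, 0, 1, 1]), (65, [0, 0, 2, 1, 2, 0, 2], [0, 0, 2, 0, 0, 1]), (65, [0,
  0, 0, 2, 1, 0, 0, 0, 1], [0, 0, 0, 0, 0, 0, 2]), (66, [0, 0, 2, 0, 0, 0, 0, 0, 2], [2, 0, 0, 0,
  0, 2, 1]), (66, [0, 0, 0, 0, 2, 2, 0, 1, 2], [0, 0, 0, 0, 2]), (67, [2, 0, 2, 0, 1, 0, 1], [0,
  0, 0, 0, 2, 0, 2]), (67, [0, 2, 1, 0, 0, 0, 1, 0, 1], [0, 0, 0, 0, 0, 0, 2]), (67, [0, 0, 0, 0,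
  2], [1, 0, 0, 0, 0, 1]), (68, [0, 0, 2], [2, 0, 0, 0, 2, 2, 1]), (43, [2], [0, 2]), (43, [0, 2],
  [0, 0, 0, 2, 0, 0, 1]), (44, [2, 2, 1], [0, 0, 0, 1]), (44, [0, 0, 0, 2], [0, 1]), (69, [0, 0,
  0, 2], [0, 0, 2]), (70, [0, 0, 2], [0, 2]), (71, [0, 0, 2, 0, 0, 1], [0, 2, 0, 1]), (71, [0, 0,
  0, 2], [1, 0, 0, 1]), (71, [0, 0, 0, 0, 2], [0, 0, 0, 1]), (72, [0, 0, 0, 0, 0, 0, 2], [1, 0, 0,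
  1]), (72, [0, 0, 0, 0, 0, 0, 0, 2], [0, 2]), (45, [2, 0, 2, 1], [0, 1, 0, 2, 0, 0, 0, 1, 2]),
  (45, [0, 2, 2, 1], [0, 0, 0, 2, 0, 0, 0, 1, 1, 2]), (45, [0, 0, 2, 1], [0, 0, 0, 0, 0, 0, 0, 1,
  1, 2]), (46, [2, 2, 0, 0, 0, 1], [0, 1, 0, 2, 0, 0, 0, 1, 1, 2]), (46, [0, 2, 0, 1, 0, 2], [0,
  0, 0, 1, 0, 0, 0, 0, 2, 2]), (46, [0, 0, 2, 0, 0, 1], [0, 0, 0, 0, 0, 0, 0, 2, 2, 1]), (46, [0,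
  0, 0, 2, 0, 0, 1], [0, 0, 0, 0, 0, 0, 0, 0, 2, 2]), (47, [2, 1, 1, 0, 0, 2, 1, 1], [0, 0, 1, 2,
  1]), (47, [0, 2, 0, 0, 0, 2, 1, 2], [1, 1, 0, 1, 0, 2, 2]), (48, [0, 0, 0, 2], [0, 0, 2, 1, 2]),
  (49, [0, 0, 2], [0, 0, 0, 0, 0, 0, 0, 0, 2])] [], .dd 5 82 6 [0, 0, 0, 1] [0, 0, 0, 0, 0, 0, 0,
  1] [⟨[0, 0, 0, 0, 0, 1], [0, 0, 0, 0, 0, 1], false, 0⟩, ⟨[0, 0, 0, 0, 1], [0, 0, 0, 0, 1],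
  false, 1⟩]]

/-- the derivation -/
def der3 : List Step :=
  [.lem 5 82 [1] [1] 0 [] [(6, 1), (7, 2)], .lem 5 82 [1] [0, 1] 0 [] [(10, 2), (12, 1)], .lem 5
  82 [1] [0, 0, 1] 0 [] [(10, 2), (12, 1)], .lem 5 82 [1] [0, 0, 0, 1] 0 [(0, [2, 0, 0, 2], [0, 1,
  0, 0, 0, 2]), (3, [2, 2, 2, 0, 2, 1], [0, 1, 2, 2]), (1, [2, 2, 2], [0, 2, 0, 0, 0, 1]), (1, [0,
  0, 0, 0, 2, 1], [0, 0, 0, 0, 0, 1]), (2, [2, 1, 1, 0, 2, 0, 0, 0, 0, 1], [0, 0, 0, 2, 0, 2]),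
  (4, [2, 0, 1, 0, 0, 2, 2, 1], [1, 0, 0, 1]), (5, [2, 1], [1, 0, 0, 1]), (6, [0, 2], [2, 0, 0,
  2])] [(7, 1), (11, 1)]]

/-- the derivation -/
def der4 : List Step :=
  [.dd 5 82 6 [1] [0, 0, 0, 0, 0, 0, 0, 1] [⟨[0, 0, 0, 0, 0, 1], [0, 0, 0, 0, 0, 1], false, 0⟩,
  ⟨[0, 0, 0, 0, 1], [0, 0, 0, 0, 1], false, 1⟩], .lem 12 81 [0, 0, 0, 1] [0, 0, 1] 0 [(82, [2],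
  [0, 0, 2])] [], .lem 12 81 [0, 0, 0, 0, 0, 0, 0, 1] [0, 0, 1] 0 [(82, [2], [0, 0, 2]), (83, [0,
  0, 0, 2, 0, 0, 0, 1], [0, 0, 2])] [], .lem 12 81 [0, 0, 0, 0, 0, 0, 1] [0, 0, 1] 0 [(38, [2],
  [0, 0, 1]), (32, [0, 0, 0, 0, 0, 0, 2], [0, 2, 2]), (84, [0, 0, 0, 0, 0, 2, 2], [0, 2]), (85,
  [0, 0, 0, 0, 0, 2], [0, 0, 1]), (86, [0, 0, 0, 0, 0, 0, 0, 0, 2], [0, 0, 2])] []]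

/-- the derivation -/
def der5 : List Step :=
  [.lem 14 84 [0, 0, 0, 0, 0, 2] [0, 0, 1] 0 [(83, [0, 0, 0, 0, 0, 0, 2], [0, 0, 2])] [(0, 2)],
  .lem 7 80 [0, 1] [0, 1] 0 [(38, [2], [1]), (32, [0, 0, 2, 2, 2, 0, 1], [1]), (33, [0, 2, 2, 0,
  0, 1], [0, 0, 0, 0, 0, 0, 0, 1]), (12, [0, 0, 2, 2, 2], [2, 1, 2]), (15, [0, 2, 2, 0, 1], [2, 2,
  2, 0, 1]), (87, [0, 2], [1]), (88, [2], [1]), (89, [0, 0, 0, 0, 0, 2, 0, 0, 1], [0, 1]), (90,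
  [2, 0, 1, 1], [0, 1])] [], .lem 5 82 [1, 0, 0, 1] [0, 0, 0, 0, 0, 1] 1 [(48, [0, 2], [2, 1, 1,
  0, 2, 1, 0, 2]), (49, [0, 0, 0, 0, 0, 0, 0, 2], [0, 0, 0, 0, 0, 0, 0, 1]), (0, [2, 0, 0, 0, 1],
  [0, 1, 2, 0, 2]), (0, [0, 0, 0, 2, 2], [2, 0, 0, 0, 2]), (3, [2, 2, 2, 0, 2, 1], [1, 0, 2]), (1,
  [2, 2], [0, 2, 1, 0, 1]), (1, [0, 0, 2, 0, 2, 1], [1, 0, 0, 0, 1]), (2, [2, 1, 1, 0, 2, 0, 0, 0,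
  0, 1], [0, 0, 0, 0, 1]), (4, [2, 0, 1, 0, 0, 2, 2, 1], [0, 2, 2]), (5, [2, 1], [0, 2, 2]), (6,
  [0, 2], [0, 1, 1])] [(13, 2), (15, 2), (17, 2), (19, 2), (10, 2), (5, 2)], .lem 9 83 [0, 2] [0,
  0, 0, 0, 1] 0 [(38, [2], [0, 1, 2]), (32, [2, 0, 1, 0, 1], [0, 2]), (32, [0, 0, 0, 0, 2, 0, 2],
  [0, 0, 1]), (8, [0, 2], [0, 0, 0, 0, 0, 0, 0, 0, 2]), (33, [2, 0, 0, 1, 0, 2], [0, 0, 0, 0, 0,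
  0, 0, 0, 1]), (10, [0, 2], [0, 2, 0, 2, 1]), (84, [0, 0, 2, 0, 0, 1, 1], [0, 2]), (12, [2, 0, 1,
  0, 2], [0, 1, 2, 1]), (12, [0, 0, 0, 0, 2], [0, 0, 2, 0, 1]), (15, [2, 1, 1, 0, 2], [0, 0, 1, 1,
  0, 2]), (15, [0, 2, 0, 2, 1], [0, 0, 0, 0, 1, 1]), (17, [0, 2], [0, 0, 0, 0, 0, 1, 1]), (18, [0,
  0, 0, 2, 0, 0, 1], [0, 0, 0, 0, 0, 1, 1]), (89, [2, 0, 0, 0, 1, 0, 0, 0, 2], [0, 2, 0, 0, 1]),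
  (90, [0, 2], [0, 1, 0, 0, 2]), (0, [0, 0, 0, 2], [0, 0, 0, 0, 0, 2]), (20, [0, 0, 0, 2], [0, 0,
  0, 0, 0, 2]), (91, [2, 1, 1], [0, 1])] [(15, 1), (22, 2), (21, 1)]]

/-- the derivation -/
def der6 : List Step :=
  [.lem 7 80 [0, 1] [0, 0, 0, 0, 1, 1] 0 [(50, [2], [1]), (92, [0, 0, 2], [0, 2]), (93, [0, 2, 2],
  [0, 1]), (94, [2], [2]), (95, [2], [0, 0, 1]), (51, [0, 0, 2], [1]), (52, [0, 0, 0, 0, 0, 2],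
  [1]), (96, [2, 2, 0, 1], [1, 2, 0, 2]), (96, [0, 0, 0, 2], [0, 2, 0, 2]), (97, [2, 2], [0, 1, 0,
  1]), (97, [0, 2], [2]), (80, [2, 2], [2, 0, 0, 0, 1]), (54, [0, 0, 0, 0, 0, 2], [0, 1, 0, 2]),
  (98, [0, 0, 0, 0, 0, 2], [0, 1, 0, 2]), (99, [0, 2, 2], [0, 0, 1, 2, 2]), (100, [2, 1], [0, 2,
  0, 1]), (38, [2], [0, 1, 2]), (101, [2, 2], [1, 2]), (32, [0, 0, 2, 2, 2], [0, 1, 1, 0, 1]),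
  (32, [0, 0, 0, 0, 0, 0, 2], [0, 0, 1]), (102, [2, 1, 1, 2], [0, 0, 0, 2]), (33, [0, 0, 0, 0, 0,
  2], [0, 0, 0, 0, 0, 0, 0, 0, 2]), (84, [0, 2, 2, 0, 0, 0, 2], [0, 2, 2, 0, 2, 1]), (84, [0, 0,
  0, 0, 0, 2, 2], [0, 0, 0, 0, 2, 1]), (84, [0, 0, 0, 0, 0, 0, 2], [0, 0, 1]), (103, [0, 2], [0,
  0, 2, 2]), (104, [0, 2, 1, 0, 0, 1], [0, 0, 2, 2]), (105, [2, 2], [0, 0, 2, 2]), (12, [0, 0, 2,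
  2, 2], [0, 1, 2, 2, 0, 2]), (106, [0, 2, 0, 0, 0, 2], [0, 0, 0, 2]), (106, [0, 0, 0, 0, 0, 2],
  [2, 2]), (85, [2, 0, 1], [0, 0, 0, 2]), (85, [0, 0, 0, 0, 0, 2], [0, 0, 2]), (15, [0, 2, 2, 0,
  1], [1, 2, 0, 1, 1, 1, 0, 2]), (86, [0, 0, 0, 0, 0, 0, 0, 0, 2], [0, 0, 0, 1, 2]), (107, [0, 0,
  2, 2, 0, 0, 0, 0, 0, 0, 1], [1, 2]), (108, [0, 0, 2], [2, 1]), (82, [0, 0, 2], [0, 0, 0, 2, 1]),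
  (87, [0, 2], [0, 2, 0, 1, 2]), (88, [2], [0, 2, 0, 1, 2]), (89, [0, 0, 0, 0, 0, 2, 0, 0, 1], [0,
  2, 0, 0, 1, 0, 1]), (90, [2, 0, 1, 1], [0, 2, 0, 0, 1, 0, 1])] [], .lem 9 83 [0, 2] [0, 1, 1] 0
  [(76, [2], [0, 0, 2]), (50, [0, 2], [1, 1, 2]), (52, [0, 0, 0, 0, 0, 2], [0, 0, 2]), (109, [0,
  2, 2], [0, 0, 2]), (97, [0, 2], [0, 0, 2, 2]), (80, [2, 1], [0, 0, 2, 0, 2]), (80, [0, 2], [0,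
  0, 0, 0, 1]), (54, [0, 2, 2, 0, 0, 2], [0, 0, 2, 1]), (98, [2, 1], [0, 0, 1, 2]), (99, [0, 2,
  2], [1, 0, 1, 1, 1]), (100, [2, 1, 2], [0, 0, 1, 2]), (100, [0, 0, 2], [0, 0, 0, 1]), (38, [2],
  [0, 2]), (32, [2, 0, 1, 0, 0, 0, 2], [0, 1]), (32, [0, 0, 0, 0, 2], [0, 0, 0, 2]), (102, [2, 1,
  1, 2], [2, 2, 2, 1]), (8, [0, 2], [0, 0, 0, 0, 0, 0, 0, 0, 1]), (33, [2, 0, 0, 1, 0, 2], [0, 0,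
  0, 0, 0, 0, 0, 0, 2]), (10, [0, 2], [0, 1, 0, 1, 2]), (84, [0, 0, 2], [2, 0, 0, 0, 1]), (103,
  [0, 2], [2, 2, 1, 1]), (104, [0, 2, 1, 0, 0, 1], [2, 2, 1, 1]), (105, [2, 2], [2, 2, 1, 1]),
  (12, [2, 0, 1, 2, 1], [0, 1, 1, 1]), (12, [0, 0, 0, 2, 2], [0, 0, 2]), (12, [0, 0, 0, 0, 2], [1,
  0, 0, 1, 0, 0, 1]), (106, [0, 0, 0, 0, 0, 2], [2]), (85, [0, 0, 0, 0, 0, 2], [0, 0, 0, 0, 2]),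
  (15, [2, 1, 1, 0, 2], [2, 2, 1, 0, 0, 0, 2, 1]), (15, [0, 2, 0, 2, 1], [0, 0, 0, 0, 2, 2]), (86,
  [0, 0, 0, 0, 0, 0, 0, 0, 2], [0, 0, 0, 0, 1]), (107, [0, 0, 2, 2, 0, 0, 0, 0, 0, 0, 1], [0, 1]),
  (108, [0, 0, 2], [0, 2]), (82, [0, 0, 2], [0, 0, 0, 0, 2]), (17, [0, 2], [0, 0, 0, 0, 0, 2, 2]),
  (18, [0, 0, 0, 2, 0, 0, 1], [0, 0, 0, 0, 0, 2, 2]), (89, [2, 0, 0, 0, 1, 0, 0, 0, 2], [0, 1, 0,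
  0, 0, 2, 2]), (90, [0, 2], [0, 2, 0, 0, 0, 1, 1]), (0, [0, 0, 0, 2], [0, 0, 0, 0, 0, 1]), (20,
  [0, 0, 0, 2], [0, 0, 0, 0, 0, 1]), (91, [2, 1, 1], [0, 1, 0, 0, 0, 0, 0, 1, 2])] [(17, 2), (24,
  1), (23, 2)], .lem 9 83 [1] [0, 1, 1] 0 [(50, [2, 1], [2, 2]), (50, [0, 2], [0, 1]), (92, [0, 0,
  2], [0, 1]), (94, [0, 2, 2], [2, 2, 2]), (51, [0, 0, 2], [2]), (52, [0, 0, 0, 0, 0, 2], [2]),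
  (110, [0, 2], [0, 2, 2]), (111, [0, 2], [0, 1, 1]), (96, [2, 2], [0, 2, 0, 2]), (97, [2], [0, 1,
  0, 1]), (21, [2, 1], [0, 2, 2, 0, 1, 2, 2]), (34, [0, 2], [2, 1, 1, 0, 2, 1, 1]), (112, [2, 1,
  2, 1], [0, 1, 0, 2]), (113, [0, 2, 2], [0, 2, 0, 1]), (54, [0, 2, 2], [2, 2, 0, 1]), (98, [2, 1,
  0, 0, 0, 2], [1, 1, 0, 2]), (36, [2, 0, 0, 1, 0, 1], [1, 0, 0, 1]), (36, [0, 0, 0, 2, 2], [0, 0,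
  0, 1]), (37, [2], [1]), (37, [0, 2], [0, 0, 0, 2]), (38, [2], [0, 1, 0, 0, 1]), (101, [2, 2],
  [2, 2, 2]), (39, [2], [1, 0, 0, 0, 1, 0, 1, 0, 2]), (32, [0, 0, 2, 2, 2, 0, 1], [0, 2, 2, 2,
  2]), (32, [0, 0, 0, 0, 2], [0, 0, 0, 2]), (32, [0, 0, 0, 0, 0, 0, 2], [0, 0, 1, 0, 1]), (33, [0,
  0, 2, 0, 0, 1], [0, 0, 0, 0, 0, 0, 0, 0, 2]), (41, [0, 2], [0, 0, 0, 2, 0, 0, 1]), (42, [0, 0,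
  2, 2], [0, 0, 0, 2, 0, 0, 1]), (84, [0, 2], [2, 1, 1, 0, 2, 2]), (84, [0, 0, 2, 0, 0, 0, 2], [0,
  1, 0, 0, 0, 2]), (84, [0, 0, 0, 0, 0, 2, 1], [0, 0, 0, 0, 2]), (12, [0, 0, 2, 2, 1], [1, 1, 2,
  1, 0, 1, 1]), (12, [0, 0, 0, 0, 2], [0, 1, 2, 2, 0, 2]), (106, [0, 2, 0, 0, 0, 2], [0, 0, 0, 1,
  2]), (85, [2, 0, 1, 0, 0, 1], [0, 0, 0, 1, 2]), (15, [0, 2, 2, 0, 2], [1, 0, 1, 2, 2, 2, 2, 2]),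
  (15, [0, 0, 0, 0, 2], [0, 2, 2, 2, 2, 2, 1]), (87, [0, 2], [0, 1, 0, 2, 1]), (88, [2], [0, 1, 0,
  2, 1]), (89, [0, 0, 0, 0, 0, 2, 0, 0, 2], [0, 2, 0, 0, 2, 2, 1]), (89, [0, 0, 0, 0, 0, 0, 0, 0,
  2], [0, 0, 0, 0, 2, 1]), (90, [2, 0, 2, 2], [0, 2, 0, 0, 2, 2, 1]), (90, [0, 0, 2, 2], [0, 0, 0,
  0, 2, 1])] [(1, 2)], .lem 7 80 [0, 1] [1, 0, 1] 0 [(32, [0, 0, 0, 0, 2], [0, 1, 1]), (84, [0, 0,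
  2], [0, 2]), (12, [2, 0, 1, 1, 1], [0, 2, 0, 2]), (12, [0, 0, 0, 0, 2], [0, 0, 1, 0, 1]), (85,
  [0, 0, 0, 0, 0, 2], [0, 0, 1]), (15, [2, 1, 1], [2, 2, 2, 1, 0, 2, 2, 1]), (15, [0, 0, 0, 0, 2],
  [0, 0, 1, 1, 0, 2]), (86, [0, 0, 0, 0, 0, 0, 0, 0, 2], [0, 0, 2]), (87, [0, 2], [0, 1, 1]), (88,
  [2], [0, 1, 1]), (89, [2, 0, 0, 0, 1, 0, 0, 0, 2], [0, 0, 0, 0, 1, 2, 2]), (89, [0, 0, 0, 0, 0,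
  0, 0, 0, 2], [0, 2, 0, 0, 0, 1, 1]), (90, [0, 2], [0, 0, 0, 0, 2, 1, 1]), (90, [0, 0, 2, 2], [0,
  2, 0, 0, 0, 1, 1]), (91, [2, 1, 1], [0, 2, 0, 0, 0, 0, 0, 1, 2])] [(5, 1), (0, 2), (2, 2), (1,
  1), (3, 1), (7, 1)]]

/-- the derivation -/
def der7 : List Step :=
  [.lem 14 84 [0, 0, 0, 0, 0, 2] [0, 0, 0, 0, 1] 1 [(76, [2], [0, 0, 2]), (50, [2, 2], [2, 2, 2]),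
  (50, [0, 2], [0, 0, 2]), (92, [0, 0, 2], [0, 2]), (93, [0, 2, 1], [0, 2]), (94, [2], [0, 1, 2,
  2]), (51, [0, 0, 2], [2, 1, 1]), (52, [0, 0, 0, 0, 0, 2], [2, 1, 2]), (109, [0, 2, 2, 0, 0, 2],
  [0, 0, 1]), (77, [2], [2, 0, 2, 0, 2]), (78, [2], [0, 2, 2, 1, 2]), (110, [2], [1, 1, 1]), (111,
  [2], [0, 2, 0, 1]), (96, [0, 0, 0, 2], [0, 1, 1, 2]), (97, [2], [0, 2, 2, 1]), (97, [0, 2], [0,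
  0, 1, 1]), (53, [2, 2, 0, 1], [2, 2, 1, 2]), (53, [0, 2, 0, 2], [0, 1]), (53, [0, 0, 0, 2], [0,
  0, 2, 1]), (114, [0, 0, 2, 1], [0, 1, 1]), (115, [0, 2], [0, 2]), (115, [0, 0, 2, 0, 0, 1], [0,
  0, 2]), (21, [2, 2, 2], [1, 2, 0, 0, 0, 0, 0, 2, 1, 2]), (21, [0, 2, 2, 1], [0, 2, 0, 2, 1, 0,
  2, 1, 1]), (21, [0, 0, 2, 1], [0, 0, 0, 1, 2, 0, 1, 0, 1, 1]), (21, [0, 0, 0, 2], [0, 0, 0, 0,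
  0, 0, 0, 2, 2, 1]), (34, [2], [0, 0, 0, 2, 1, 0, 2, 1, 1]), (79, [2, 0, 0, 0, 0, 2], [2, 2, 0,
  2, 1, 2]), (80, [2, 1], [0, 0, 2, 0, 1]), (80, [0, 2], [1]), (81, [0, 2, 1], [2, 0, 1, 0, 2]),
  (22, [0, 2], [0, 0, 0, 2]), (112, [0, 0, 0, 2], [0, 0, 2]), (113, [2], [0, 0, 2]), (54, [0, 2,
  2, 0, 0, 1], [0, 0, 1, 2]), (54, [0, 0, 0, 0, 0, 2], [2, 0, 0, 1]), (98, [2, 1], [0, 0, 2, 1]),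
  (99, [0, 2, 1, 0, 0, 1], [0, 0, 2]), (99, [0, 0, 2, 0, 0, 1], [1, 0, 0, 1, 2]), (55, [2, 0, 0,
  0, 2], [1, 0, 2]), (116, [0, 0, 2, 1], [2, 0, 1, 2, 1]), (100, [2, 1, 1], [0, 0, 2, 1]), (100,
  [0, 0, 2], [0, 0, 0, 1]), (23, [2, 2], [0, 2, 0, 0, 1, 0, 1]), (23, [0, 2, 0, 2], [1, 0, 2, 2,
  1, 1, 1]), (23, [0, 0, 2, 1], [0, 0, 0, 1, 1, 2]), (23, [0, 0, 0, 2], [0, 0, 2, 0, 2, 2, 2]),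
  (56, [2, 1, 2, 1], [0, 1, 1, 2]), (56, [0, 0, 2], [0, 0, 1]), (57, [2, 1, 0, 1, 1, 1], [1, 1, 0,
  2]), (57, [0, 2, 2, 1], [0, 0, 1]), (57, [0, 0, 0, 0, 0, 2], [0, 2, 0, 1]), (36, [2, 0, 0, 1, 2,
  1], [1, 0, 0, 0, 0, 1, 1, 1]), (36, [0, 2, 0, 1, 0, 2], [0, 0, 0, 0, 0, 2, 2]), (36, [0, 0, 0,
  0, 2], [0, 0, 0, 0, 0, 0, 0, 1]), (37, [2, 0, 1], [1]), (37, [0, 0, 2, 2], [0, 0, 0, 0, 0, 0, 0,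
  1]), (58, [2, 1, 0, 2], [1, 0, 0, 0, 0, 2, 2, 1]), (58, [0, 2, 0, 2], [0, 0, 0, 0, 0, 1, 1, 2]),
  (58, [0, 0, 0, 2], [0, 0, 0, 0, 0, 0, 0, 2]), (24, [0, 0, 2], [1, 0, 1]), (59, [0, 0, 2, 1, 0,
  1, 1], [0, 2, 0, 2]), (59, [0, 0, 0, 0, 0, 2, 1], [0, 0, 0, 1]), (25, [2, 0, 2, 0, 2], [1, 2, 0,
  1, 0, 0, 1]), (25, [0, 2, 2, 2, 2], [0, 1, 1, 2, 2, 1]), (25, [0, 0, 2, 2, 1], [0, 0, 0, 0, 0,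
  0, 2]), (25, [0, 0, 0, 2, 2], [0, 0, 2, 0, 0, 2]), (25, [0, 0, 0, 0, 0, 2], [0, 0, 0, 2]), (60,
  [2, 1, 2, 1], [0, 2, 0, 2]), (60, [0, 2, 0, 2], [0, 0, 0, 2]), (117, [0, 2], [1]), (61, [2, 0,
  2], [1, 0, 1, 1]), (62, [2, 2, 0, 1, 1], [1, 2, 0, 1]), (62, [0, 2, 0, 1, 2, 1], [0, 0, 2]),
  (62, [0, 0, 0, 0, 2], [0, 1, 0, 1]), (7, [2], [2, 0, 1, 0, 1, 1, 1, 2]), (7, [0, 2], [0, 0, 1,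
  1]), (102, [2, 1, 0, 2], [0, 1, 0, 2, 2, 1]), (102, [0, 0, 2], [2, 0, 2, 2, 2, 1]), (8, [2, 1,
  0, 0, 1], [0, 1, 0, 2, 2, 1, 2]), (8, [0, 2], [0, 0, 0, 2, 2, 1]), (8, [0, 0, 0, 2], [0, 0, 0,
  0, 0, 0, 1]), (8, [0, 0, 0, 0, 2], [1]), (9, [2], [1, 2, 2, 2, 2, 1, 1]), (9, [0, 2], [0, 0,
  1]), (33, [0, 0, 0, 0, 2], [0, 2, 0, 1, 1, 2, 1]), (63, [2, 2, 2, 0, 2, 2], [1, 0, 0, 2, 1, 1,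
  1]), (63, [0, 2, 2, 1, 2, 0, 2, 1], [0, 0, 1, 1, 0, 1, 2]), (63, [0, 0, 2, 2, 0, 2, 0, 2], [0,
  0, 0, 2, 1, 1, 2]), (63, [0, 0, 0, 0, 2, 2], [0, 0, 0, 0, 2, 1, 2]), (118, [0, 0, 2, 2], [0, 1,
  1]), (119, [0, 2, 0, 2, 2, 0, 1, 2, 1], [0, 0, 0, 2, 1]), (119, [0, 0, 0, 2, 0, 1, 1, 1, 1], [2,
  1, 2]), (119, [0, 0, 0, 0, 0, 2, 0, 2], [0, 2, 1]), (120, [2], [1, 2, 1, 1, 2]), (120, [0, 2],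
  [0, 0, 0, 1, 2]), (120, [0, 0, 0, 2, 1, 0, 2], [0, 2, 1]), (41, [0, 0, 2, 2], [1, 1, 0, 0, 2]),
  (42, [2, 1], [2, 2, 0, 0, 1]), (64, [2, 0, 0, 0, 2], [0, 0, 0, 1, 0, 1]), (64, [0, 2], [2, 0, 2,
  0, 1, 2]), (103, [0, 2, 2, 1, 1, 0, 0, 0, 2], [0, 0, 2, 2, 1, 2]), (103, [0, 0, 2, 1, 1, 0, 0,
  0, 2], [0, 2, 0, 1]), (104, [0, 2, 2, 1, 0, 1], [0, 0, 2, 2, 1, 2]), (104, [0, 0, 2, 2], [0, 1,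
  0, 2]), (105, [2, 2], [0, 0, 2, 2, 1, 2]), (27, [2, 1, 2, 1, 2], [0, 2, 0, 0, 1, 0, 1]), (27,
  [0, 2, 2, 1, 2], [2, 0, 2, 0, 0, 0, 2]), (27, [0, 0, 2, 0, 1], [0, 0, 1, 0, 0, 0, 2]), (27, [0,
  0, 0, 0, 2], [0, 0, 0, 0, 0, 0, 1]), (28, [2, 2, 0, 0, 0, 0, 2], [2, 0, 2, 0, 0, 0, 2]), (28,
  [0, 2, 2, 2, 0, 0, 0, 0, 1], [0, 1, 0, 0, 2, 0, 2]), (28, [0, 0, 0, 0, 0, 2, 1, 1], [0, 0, 1]),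
  (28, [0, 0, 0, 0, 0, 0, 2], [0, 0, 0, 0, 0, 0, 1]), (30, [2, 1, 0, 1], [2, 0, 2, 0, 0, 0, 2]),
  (30, [0, 2, 0, 2], [0, 0, 2, 0, 0, 0, 2]), (65, [2, 2, 0, 0, 2, 0, 0, 0, 2], [0, 1, 2, 0, 2, 1,
  1]), (65, [0, 2, 2, 2, 0, 0, 2, 2, 2], [2, 0, 2, 1, 0, 1, 2]), (65, [0, 0, 2, 2, 1, 0, 2, 0, 2],
  [0, 0, 2, 0, 0, 1, 1]), (65, [0, 0, 0, 2, 1, 0, 0, 0, 1], [0, 0, 0, 1, 2, 0, 1]), (66, [0, 0, 2,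
  0, 0, 0, 0, 0, 2], [2, 0, 0, 0, 2, 2]), (66, [0, 0, 0, 0, 2, 2, 0, 1, 2], [0, 0, 0, 0, 0, 2]),
  (67, [2, 2, 0, 0, 0, 0, 2], [2, 0, 0, 0, 1, 2]), (67, [0, 2, 1, 0, 1, 0, 2], [0, 0, 0, 0, 0,
  1]), (67, [0, 0, 0, 0, 2, 0, 2], [0, 0, 0, 0, 2]), (67, [0, 0, 0, 0, 0, 0, 2, 0, 2], [0, 0, 0,
  0, 0, 0, 1]), (68, [0, 0, 2], [2, 0, 0, 0, 2, 1]), (68, [0, 0, 0, 2], [0, 0, 0, 0, 1, 1, 2]),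
  (121, [2, 2, 2, 2, 2, 1], [0, 1]), (121, [0, 2, 0, 1, 2, 2, 2, 1, 2], [0, 0, 1, 1]), (121, [0,
  0, 0, 2, 0, 2, 1, 2, 1], [0, 0, 0, 1]), (71, [2, 2, 0, 2, 1], [2, 0, 1, 1, 1]), (71, [0, 0, 2,
  2, 1, 2], [0, 1, 1, 0, 2, 2]), (71, [0, 0, 0, 2, 2, 2], [0, 0, 2, 1, 2, 1]), (71, [0, 0, 0, 0,
  2, 1], [0, 0, 0, 2, 2]), (71, [0, 0, 0, 0, 0, 2], [0, 0, 0, 0, 1, 1]), (72, [0, 2, 1, 0, 2, 0,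
  1, 0, 2], [2, 0, 1, 1, 1]), (72, [0, 0, 0, 0, 0, 0, 2, 1, 1], [0, 1, 0, 1, 1]), (72, [0, 0, 0,
  0, 0, 0, 0, 2], [0, 0, 0, 1, 1]), (72, [0, 0, 0, 0, 0, 0, 0, 0, 2], [0, 0, 1]), (122, [2, 2],
  [0, 2, 0, 1]), (122, [0, 2, 1, 0, 1], [0, 0, 0, 2]), (123, [2, 2], [0, 2, 0, 1]), (107, [0, 0,
  2, 2, 0, 0, 0, 0, 0, 0, 1], [1]), (108, [0, 0, 2], [2]), (82, [0, 0, 2], [0, 0, 0, 2]), (83, [0,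
  0, 0, 0, 0, 0, 2], [0, 0, 0, 0, 2])] [], .lem 12 81 [1, 0, 2] [0, 0, 1] 2 [(76, [2], [0, 0, 2]),
  (50, [2], [2, 1]), (50, [0, 2], [0, 2, 2]), (92, [0, 0, 2], [0, 1]), (93, [0, 2, 2], [0, 1]),
  (94, [2], [2]), (95, [2], [0, 0, 1]), (51, [0, 0, 2], [2]), (52, [0, 0, 0, 0, 0, 2], [2, 0, 2]),
  (109, [0, 2, 2], [0, 0, 2]), (96, [2, 2, 0, 1], [1]), (97, [0, 2], [2, 1, 2]), (80, [2, 2], [2,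
  0, 2]), (80, [0, 2], [0, 0, 2]), (54, [0, 2, 2], [1, 1, 2]), (54, [0, 0, 0, 0, 0, 2], [0, 1,
  2]), (98, [2, 1, 0, 0, 0, 2], [2, 2, 1]), (98, [0, 0, 0, 0, 0, 2], [0, 1, 2]), (99, [0, 2, 2],
  [1, 0, 2]), (100, [2, 1], [0, 2, 1]), (100, [0, 0, 2], [0, 0, 1]), (101, [2, 2], [2]), (102, [2,
  1, 1, 2], [2, 2, 2]), (103, [0, 2], [2, 2]), (104, [0, 2, 1, 0, 0, 1], [2, 2]), (105, [2, 2],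
  [2, 2]), (106, [0, 2, 0, 0, 0, 2], [0, 0, 2]), (86, [2, 2, 0, 2, 1, 0, 1, 1, 1], [0, 0, 2]),
  (107, [0, 0, 2, 2, 0, 0, 0, 0, 0, 0, 1], [1]), (108, [0, 0, 2], [2]), (82, [0, 0, 2], [0, 0, 0,
  2]), (83, [0, 0, 0, 0, 0, 0, 2], [0, 0, 0, 0, 2])] [(9, 2), (0, 1)], .lem 14 84 [0, 0, 0, 2] [0,
  0, 1] 1 [(76, [2], [0, 0, 1]), (50, [2], [1, 2]), (50, [0, 2], [0, 1, 1]), (92, [0, 0, 2], [0,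
  2]), (93, [0, 2, 2], [0, 2]), (94, [2], [1]), (95, [2], [0, 0, 2]), (51, [0, 0, 2], [1]), (52,
  [0, 0, 0, 0, 0, 2], [1, 0, 1]), (109, [0, 2, 2], [0, 0, 1]), (96, [2, 2, 0, 1], [2]), (97, [0,
  2], [1, 2, 1]), (80, [2, 2], [1, 0, 1]), (80, [0, 2], [0, 0, 1]), (54, [0, 2, 2], [2, 2, 1]),
  (54, [0, 0, 0, 0, 0, 2], [0, 2, 1]), (98, [2, 1, 0, 0, 0, 2], [1, 1, 2]), (98, [0, 0, 0, 0, 0,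
  2], [0, 2, 1]), (99, [0, 2, 2], [2, 0, 1]), (100, [2, 1], [0, 1, 2]), (100, [0, 0, 2], [0, 0,
  2]), (101, [2, 2], [1]), (102, [2, 1, 1, 2], [1, 1, 1]), (103, [0, 2], [1, 1]), (104, [0, 2, 1,
  0, 0, 1], [1, 1]), (105, [2, 2], [1, 1]), (106, [0, 2, 0, 0, 0, 2], [0, 0, 1]), (86, [2, 2, 0,
  2, 1, 0, 1, 1, 1], [0, 0, 1]), (107, [0, 0, 2, 2, 0, 0, 0, 0, 0, 0, 1], [2]), (108, [0, 0, 2],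
  [1]), (82, [0, 0, 2], [0, 0, 0, 1]), (82, [0, 0, 0, 0, 0, 0, 2], [0, 0, 2]), (83, [2, 0, 0, 0,
  0, 2], [0, 0, 1]), (83, [0, 0, 0, 0, 0, 0, 2], [0, 0, 0, 0, 1])] [(10, 1), (1, 2)], .lem 9 83
  [1] [0, 0, 0, 0, 1] 1 [(76, [2], [0, 0, 1]), (50, [2], [1, 2]), (50, [0, 2], [0, 1, 1]), (92,
  [0, 0, 2], [0, 2]), (93, [0, 2, 2], [0, 2]), (94, [2], [1]), (95, [2], [0, 0, 2]), (51, [0, 0,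
  2], [1]), (52, [0, 0, 0, 0, 0, 2], [1, 0, 1]), (109, [0, 2, 2], [0, 0, 1]), (96, [2, 2, 0, 1],
  [2]), (97, [0, 2], [1, 2, 1]), (80, [2, 2], [1, 0, 1]), (80, [0, 2], [0, 0, 1]), (54, [0, 2, 2],
  [2, 2, 1]), (54, [0, 0, 0, 0, 0, 2], [0, 2, 1]), (98, [2, 1, 0, 0, 0, 2], [1, 1, 2]), (98, [0,
  0, 0, 0, 0, 2], [0, 2, 1]), (99, [0, 2, 2], [2, 0, 1]), (100, [2, 1], [0, 1, 2]), (100, [0, 0,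
  2], [0, 0, 2]), (38, [2], [0, 0, 1]), (101, [2, 2], [1]), (32, [0, 0, 2, 2, 1, 0, 1], [0, 1,
  1]), (102, [2, 1, 1, 2], [1, 1, 1]), (84, [0, 2, 1, 0, 0, 1], [0, 2]), (103, [0, 2], [1, 1]),
  (104, [0, 2, 1, 0, 0, 1], [1, 1]), (105, [2, 2], [1, 1]), (12, [0, 0, 2, 2, 1], [0, 1, 1, 1,
  1]), (106, [0, 2, 0, 0, 0, 2], [0, 0, 1]), (85, [2, 0, 1, 0, 0, 1], [0, 0, 1]), (15, [0, 2, 2],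
  [0, 0, 1, 1, 0, 2]), (107, [0, 0, 2, 2, 0, 0, 0, 0, 0, 0, 1], [2]), (108, [0, 0, 2], [1]), (82,
  [0, 0, 2], [0, 0, 0, 1]), (89, [0, 0, 0, 0, 0, 2], [0, 2, 0, 0, 1]), (90, [2], [0, 2, 0, 0, 1]),
  (83, [0, 0, 0, 0, 0, 0, 2], [0, 0, 0, 0, 1])] [(2, 2)]]

/-- the derivation -/
def der8 : List Step :=
  [.lem 7 80 [0, 1] [0, 0, 0, 0, 0, 1] 1 [(76, [2], [0, 0, 1]), (50, [2], [1, 2]), (50, [0, 2],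
  [0, 1, 1]), (92, [0, 0, 2], [0, 2]), (93, [0, 2, 2], [0, 2]), (94, [2], [1]), (95, [2], [0, 0,
  2]), (51, [0, 0, 2], [1]), (52, [0, 0, 0, 0, 0, 2], [1, 0, 1]), (109, [0, 2, 2], [0, 0, 1]),
  (96, [2, 2, 0, 1], [2]), (97, [0, 2], [1, 2, 1]), (80, [2, 2], [1, 0, 1]), (80, [0, 2], [0, 0,
  1]), (54, [0, 2, 2], [2, 2, 1]), (54, [0, 0, 0, 0, 0, 2], [0, 2, 1]), (98, [2, 1, 0, 0, 0, 2],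
  [1, 1, 2]), (98, [0, 0, 0, 0, 0, 2], [0, 2, 1]), (99, [0, 2, 2], [2, 0, 1]), (100, [2, 1], [0,
  1, 2]), (100, [0, 0, 2], [0, 0, 2]), (101, [2, 2], [1]), (32, [0, 0, 2, 2, 2], [0, 1, 1]), (102,
  [2, 1, 1, 2], [1, 1, 1]), (84, [0, 2, 2, 0, 0, 2, 1], [0, 2]), (103, [0, 2], [1, 1]), (104, [0,
  2, 1, 0, 0, 1], [1, 1]), (105, [2, 2], [1, 1]), (12, [0, 0, 2, 2, 2], [0, 1, 1, 1, 1]), (106,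
  [0, 2, 0, 0, 0, 2], [0, 0, 1]), (85, [2, 0, 1], [0, 0, 1]), (15, [0, 2, 2, 0, 1], [0, 0, 1, 1,
  0, 2]), (86, [0, 0, 0, 0, 0, 0, 0, 0, 2], [0, 0, 2]), (107, [0, 0, 2, 2, 0, 0, 0, 0, 0, 0, 1],
  [2]), (108, [0, 0, 2], [1]), (82, [0, 0, 2], [0, 0, 0, 1]), (87, [0, 2], [0, 0, 0, 0, 1]), (88,
  [2], [0, 0, 0, 0, 1]), (89, [0, 0, 0, 0, 0, 2, 0, 0, 1], [0, 2, 0, 0, 1]), (90, [2, 0, 1, 1],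
  [0, 2, 0, 0, 1]), (83, [0, 0, 0, 0, 0, 0, 2], [0, 0, 0, 0, 1])] [(7, 2), (3, 2), (12, 1)], .dd 7
  80 8 [0, 1] [0, 0, 1] [⟨[0, 0, 2], [1, 0, 2], false, 2⟩, ⟨[0, 0, 0, 1], [0, 0, 0, 1], false, 0⟩,
  ⟨[0, 0, 0, 0, 0, 0, 1], [0, 0, 0, 0, 0, 0, 1], false, 0⟩, ⟨[0, 0, 0, 0, 0, 0, 0, 1], [0, 0, 0,
  0, 0, 0, 0, 1], false, 0⟩, ⟨[0, 0, 0, 0, 0, 1], [0, 0, 0, 0, 2, 1], true, 1⟩], .lem 7 80 [1] [0,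
  0, 0, 0, 1, 1] 0 [(15, [2, 1, 1], [2, 1, 0, 2, 2, 2, 0, 1]), (87, [2, 2], [0, 2, 0, 1, 2]), (88,
  [2, 0, 0, 0, 1], [0, 1, 0, 2, 1]), (89, [2, 0, 0, 0, 1], [0, 1, 0, 0, 2, 0, 2]), (90, [0, 2, 2,
  2], [0, 2, 0, 0, 1, 0, 1]), (91, [2, 1, 1], [0, 2, 0, 0, 0, 0, 0, 0, 2])] [(9, 1)], .lem 7 80
  [1] [0, 0, 0, 0, 0, 2] 1 [(32, [0, 0, 0, 0, 2], [0, 2, 2]), (84, [0, 0, 2], [0, 1]), (12, [0, 0,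
  0, 0, 2], [0, 2, 2, 2, 2]), (85, [0, 0, 0, 0, 0, 2], [0, 0, 2]), (15, [2, 1, 1], [1, 2, 0, 1, 1,
  1, 0, 2]), (15, [0, 0, 0, 0, 2], [0, 0, 2, 2, 0, 1]), (86, [0, 0, 0, 0, 0, 0, 0, 0, 2], [0, 0,
  1]), (87, [2, 2], [0, 1, 0, 2]), (88, [2, 0, 0, 0, 1], [0, 2, 0, 1]), (89, [2, 0, 0, 0, 1, 0, 0,
  0, 1], [0, 2, 0, 0, 1, 0, 1]), (89, [0, 0, 0, 0, 0, 0, 0, 0, 2], [0, 0, 0, 0, 0, 0, 1]), (90,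
  [0, 2, 1, 1], [0, 1, 0, 0, 2, 0, 2]), (90, [0, 0, 2, 2], [0, 0, 0, 0, 0, 0, 1]), (91, [2, 1, 1],
  [0, 1, 0, 0, 0, 0, 0, 0, 1])] [(2, 2), (11, 2), (15, 2)]]

/-- the derivation -/
def der9 : List Step :=
  [.lem 7 80 [1] [0, 1, 0, 0, 0, 2] 0 [(38, [2], [2, 2]), (7, [0, 2, 1], [1, 0, 0, 1]), (32, [2,
  0, 1, 1, 0, 0, 2], [1, 1]), (32, [0, 0, 0, 0, 2], [0, 1, 1]), (26, [0, 2, 1], [0, 2, 2, 2, 1, 2,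
  1]), (9, [0, 2, 1], [0, 0, 0, 0, 0, 0, 0, 1, 1]), (33, [2, 2, 0, 2], [0, 0, 0, 0, 0, 0, 0, 2,
  2]), (84, [0, 0, 2], [0, 2]), (29, [0, 0, 0, 2], [0, 0, 0, 1, 0, 1, 2]), (12, [2, 0, 1, 1], [2,
  0, 0, 2]), (12, [0, 0, 0, 0, 2], [0, 1, 1, 1, 1]), (85, [0, 0, 0, 0, 0, 2], [0, 0, 1]), (15, [2,
  1, 1], [2, 0, 0, 0, 0, 2, 0, 2]), (15, [0, 0, 0, 0, 2], [0, 0, 1, 1, 0, 2]), (86, [0, 0, 0, 0,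
  0, 0, 0, 0, 2], [0, 0, 2]), (87, [2, 2], [1, 1, 0, 2]), (88, [2, 0, 0, 0, 1], [2, 2, 0, 1]),
  (31, [0, 0, 0, 2, 2], [0, 0, 0, 0, 0, 0, 0, 2]), (89, [2, 0, 0, 0, 1, 0, 0, 0, 2], [0, 2, 0, 0,
  0, 0, 1]), (89, [0, 0, 0, 0, 0, 0, 0, 0, 2], [0, 0, 0, 0, 1, 0, 2]), (90, [0, 2], [0, 1, 0, 0,
  0, 0, 2]), (90, [0, 0, 2, 2], [0, 0, 0, 0, 1, 0, 2]), (91, [2, 1, 1], [0, 0, 0, 0, 0, 0, 0, 0,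
  1])] [(3, 2), (12, 1), (14, 1), (29, 2), (16, 1)], .lem 7 80 [1] [1, 0, 1, 0, 0, 1] 0 [(21, [2,
  1, 1, 1], [2, 1, 0, 0, 0, 0, 0, 1, 0, 1]), (22, [0, 2], [0, 1, 0, 2]), (23, [2, 1, 1, 1], [0, 1,
  1, 1]), (38, [2], [1]), (24, [2, 0, 1], [2, 1]), (24, [0, 0, 2], [0, 1, 1, 1, 2]), (25, [0, 0,
  0, 0, 0, 2], [2, 1, 0, 2, 1, 1, 1]), (7, [0, 2], [0, 0, 1, 2]), (32, [2, 0, 1, 1, 0, 0, 2],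
  [2]), (8, [0, 2], [2, 0, 0, 2, 2, 1]), (9, [0, 2], [0, 0, 2, 1]), (33, [2, 2, 0, 2], [0, 0, 0,
  0, 0, 0, 0, 1]), (27, [0, 0, 2, 0, 1], [0, 0, 0, 0, 0, 0, 0, 2, 1]), (28, [0, 0, 0, 0, 0, 0, 0,
  2], [0, 0, 0, 0, 0, 0, 0, 1, 2]), (30, [0, 2, 0, 2], [0, 0, 0, 0, 0, 0, 0, 2, 1]), (12, [2, 0,
  1, 1], [1, 0, 1, 1]), (13, [0, 2, 1, 2], [0, 0, 0, 0, 0, 0, 0, 1]), (15, [2, 1, 1], [1, 2, 0, 0,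
  2, 2, 1, 1]), (87, [2, 2], [2, 2, 1, 2, 2]), (88, [2, 0, 0, 0, 1], [1, 1, 2, 1, 1]), (89, [2, 0,
  0, 0, 1], [0, 0, 0, 0, 0, 1, 2]), (90, [0, 2, 2, 2], [0, 0, 0, 0, 0, 2, 1]), (91, [2, 1, 1], [0,
  2, 0, 0, 0, 0, 0, 2, 2])] [(4, 1), (9, 1)], .dd 7 80 8 [1] [0, 0, 1] [⟨[0, 0, 2, 0, 0, 2], [1,
  0, 2], false, 2⟩, ⟨[0, 0, 0, 1], [0, 0, 0, 1], false, 0⟩, ⟨[0, 0, 0, 0, 0, 0, 1], [0, 0, 0, 0,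
  0, 0, 1], false, 0⟩, ⟨[0, 0, 0, 0, 0, 0, 0, 1], [0, 0, 0, 0, 0, 0, 0, 1], false, 0⟩, ⟨[0, 0, 0,
  0, 0, 2], [0, 2, 1, 0, 1, 2], true, 1⟩], .lem 14 84 [0, 0, 0, 0, 0, 1] [0, 0, 1] 0 [(83, [0, 0,
  0, 0, 0, 0, 2], [0, 0, 1])] [(19, 1)]]

/-- the derivation -/
def der10 : List Step :=
  [.lem 14 84 [0, 0, 0, 0, 0, 0, 1] [0, 0, 1] 0 [(82, [2], [0, 0, 2]), (83, [0, 0, 0, 2], [0, 0,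
  2])] [], .lem 14 84 [0, 1, 2, 1] [0, 0, 1] 2 [(83, [2, 0, 1, 0, 0, 0, 1], [0, 0, 2])] [(11, 2),
  (21, 1)], .lem 9 83 [1] [1] 0 [(32, [0, 0, 0, 0, 2], [1]), (33, [0, 0, 2], [0, 0, 0, 0, 0, 0, 0,
  1]), (12, [0, 0, 0, 0, 2], [2, 1, 2]), (15, [0, 0, 0, 0, 2], [2, 2, 2, 0, 1]), (87, [0, 2],
  [2]), (88, [2], [2]), (89, [0, 0, 0, 0, 0, 0, 0, 0, 2], [0, 1]), (90, [0, 0, 2, 2], [0, 1])]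
  [(20, 2)], .lem 9 83 [1] [0, 1, 0, 2, 2] 0 [(50, [2, 1], [2, 2]), (50, [0, 2], [0, 1]), (92, [0,
  0, 2], [0, 1]), (51, [0, 0, 2], [2]), (52, [0, 0, 0, 0, 0, 2], [2]), (96, [2, 2], [0, 2, 0, 2]),
  (97, [2], [0, 1, 0, 1]), (54, [0, 2, 2], [2, 2, 0, 1]), (98, [2, 1, 0, 0, 0, 2], [1, 1, 0, 2]),
  (38, [2], [0, 1, 1]), (101, [2, 2], [2, 2]), (32, [0, 0, 2, 2, 2, 0, 1], [0, 2, 2, 0, 1]), (32,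
  [0, 0, 0, 0, 2, 0, 1], [0, 0, 0, 0, 2]), (32, [0, 0, 0, 0, 0, 0, 2], [0, 0, 1]), (33, [0, 0, 0,
  0, 0, 2], [0, 0, 0, 0, 0, 0, 0, 0, 2]), (84, [0, 2, 2, 0, 0, 0, 2], [0, 1, 2, 0, 2, 1]), (84,
  [0, 0, 2, 0, 0, 0, 2], [0, 0, 1, 0, 1, 2]), (84, [0, 0, 0, 0, 0, 2, 1], [0, 0, 0, 0, 2, 1]),
  (12, [0, 0, 2, 2, 2], [0, 2, 0, 0, 1, 2]), (12, [0, 0, 0, 0, 2], [0, 0, 2, 2, 1, 1]), (106, [0,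
  2, 0, 0, 0, 2], [0, 0, 1, 2]), (85, [2, 0, 1, 0, 0, 1], [0, 0, 1, 2]), (15, [0, 2, 2, 0, 2], [1,
  2, 1, 2, 1, 0, 0, 2]), (15, [0, 0, 0, 0, 2], [0, 0, 2, 2, 0, 1]), (87, [0, 2], [0, 1, 0, 2, 1]),
  (88, [2], [0, 1, 0, 2, 1]), (89, [0, 0, 0, 0, 0, 2, 0, 0, 1], [0, 1, 0, 0, 2, 0, 1]), (89, [0,
  0, 0, 0, 0, 0, 0, 0, 2], [0, 0, 0, 0, 0, 0, 2]), (90, [2, 0, 1, 1], [0, 1, 0, 0, 2, 0, 1]), (90,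
  [0, 0, 2, 2], [0, 0, 0, 0, 0, 0, 2])] [(18, 2)]]

/-- the derivation -/
def der11 : List Step :=
  [.lem 9 83 [1] [0, 0, 1, 1, 1] 0 [(94, [0, 2, 2], [2, 2, 2]), (110, [0, 2], [0, 2, 2]), (111,
  [0, 2], [0, 1, 1]), (21, [2, 1], [0, 2, 2, 0, 1, 2, 2]), (34, [0, 2], [2, 1, 1, 0, 2, 1, 1]),
  (112, [2, 1, 2, 1], [0, 1, 0, 2]), (113, [0, 2, 2], [0, 2, 0, 1]), (36, [2, 0, 0, 1, 0, 1], [1,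
  0, 0, 1]), (36, [0, 0, 0, 2, 2], [0, 0, 0, 1]), (37, [2], [1]), (37, [0, 2], [0, 0, 0, 2]), (38,
  [2], [0, 0, 2, 0, 1]), (101, [2, 2], [0, 0, 2]), (39, [2], [1, 0, 0, 0, 1, 0, 1, 0, 2]), (32,
  [0, 0, 2, 2, 1, 0, 1], [0, 0, 0, 2, 1]), (33, [0, 0, 2, 0, 0, 2], [0, 0, 0, 0, 0, 0, 0, 0, 2]),
  (41, [0, 2], [0, 0, 0, 2, 0, 0, 1]), (42, [0, 0, 2, 2], [0, 0, 0, 2, 0, 0, 1]), (84, [0, 2], [2,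
  0, 2, 0, 0, 1]), (84, [0, 0, 2, 0, 0, 2], [0, 0, 0, 0, 0, 2]), (12, [0, 0, 2, 2, 1], [1, 2, 2,
  1, 2, 2, 1]), (106, [0, 2, 0, 0, 0, 2], [0, 0, 2, 2, 2]), (85, [2, 0, 1, 0, 0, 1], [0, 0, 2, 2,
  2]), (15, [0, 2, 2], [0, 1, 0, 0, 1, 2, 2]), (89, [0, 0, 0, 0, 0, 2], [0, 1, 0, 0, 0, 2]), (90,
  [2], [0, 1, 0, 0, 0, 2])] [], .dd 9 83 7 [1] [0, 0, 1] [⟨[0, 0, 0, 1, 1], [0, 1, 2, 1], false,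
  2⟩, ⟨[0, 0, 0, 0, 0, 1], [0, 0, 0, 0, 0, 1], false, 0⟩, ⟨[0, 0, 0, 0, 0, 0, 1], [0, 0, 0, 0, 0,
  0, 1], false, 0⟩, ⟨[0, 0, 0, 0, 1], [0, 0, 0, 2, 1], true, 1⟩], .lem 7 80 [0, 0, 1] [0, 1] 0
  [(32, [0, 0, 0, 0, 2], [2]), (33, [0, 0, 2], [0, 0, 0, 0, 0, 0, 0, 2]), (12, [0, 0, 0, 0, 2],
  [1, 2, 1]), (15, [0, 0, 0, 0, 2], [1, 1, 1, 0, 2]), (87, [0, 0, 2], [1]), (89, [0, 0, 0, 0, 0,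
  0, 0, 0, 2], [0, 2]), (90, [0, 0, 2], [0, 2])] [], .lem 7 80 [0, 0, 1] [0, 0, 0, 0, 1] 0 [(32,
  [0, 0, 0, 0, 2], [0, 1, 1]), (84, [0, 0, 2], [0, 2]), (12, [0, 0, 0, 0, 2], [0, 1, 1, 1, 1]),
  (85, [0, 0, 0, 0, 0, 2], [0, 0, 1]), (15, [0, 0, 0, 0, 2], [0, 0, 1, 1, 0, 2]), (86, [0, 0, 0,
  0, 0, 0, 0, 0, 2], [0, 0, 2]), (87, [0, 0, 2], [0, 0, 0, 0, 2]), (89, [0, 0, 0, 0, 0, 0, 0, 0,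
  2], [0, 2, 0, 0, 1]), (90, [0, 0, 2], [0, 2, 0, 0, 1])] [(27, 1)]]

/-- the derivation -/
def der12 : List Step :=
  [.lem 7 80 [0, 0, 1] [1, 0, 1, 0, 0, 2] 0 [(12, [2, 0, 1, 1], [0, 2, 0, 2]), (15, [2, 1, 1], [2,
  2, 2, 1, 0, 2, 2, 1]), (87, [0, 0, 2], [0, 1, 1, 0, 1]), (89, [2, 0, 0, 0, 1], [0, 0, 0, 0, 1,
  2, 2]), (90, [0, 2, 2], [0, 0, 0, 0, 2, 1, 1]), (91, [2, 1, 1], [0, 2, 0, 0, 0, 0, 0, 1, 2])]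
  [(22, 1), (24, 1), (1, 1), (0, 1)], .lem 7 80 [0, 0, 1] [0, 0, 0, 0, 0, 2] 1 [(50, [2, 1], [1,
  1]), (50, [0, 2], [0, 2]), (92, [0, 0, 2], [0, 2]), (51, [0, 0, 2], [1]), (52, [0, 0, 0, 0, 0,
  2], [1]), (96, [2, 2], [0, 1, 0, 1]), (97, [2], [0, 2, 0, 2]), (54, [0, 2, 2], [1, 1, 0, 2]),
  (98, [2, 1, 0, 0, 0, 2], [2, 2, 0, 1]), (38, [2], [0, 2]), (101, [2, 2], [1, 1]), (32, [0, 0, 2,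
  2, 0, 0, 2], [0, 1, 1, 0, 2]), (32, [0, 0, 0, 0, 0, 0, 2], [0, 0, 2, 0, 1]), (33, [0, 0, 0, 0,
  0, 2], [0, 0, 0, 0, 0, 0, 0, 0, 1]), (84, [0, 2, 0, 0, 0, 2, 1], [0, 2, 1, 0, 1, 2]), (84, [0,
  0, 0, 0, 0, 2, 1], [0, 0, 2]), (12, [0, 0, 2, 2], [0, 1, 0, 0, 2, 1]), (106, [0, 2, 0, 0, 0, 2],
  [0, 0, 2, 1]), (85, [2, 0, 1, 0, 0, 1], [0, 0, 2, 1]), (15, [0, 2, 2, 0, 2], [2, 1, 2, 1, 2, 0,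
  0, 1]), (87, [0, 2, 2], [0, 1, 0, 2]), (88, [2], [0, 1, 0, 2]), (89, [0, 0, 0, 0, 0, 2, 0, 0,
  2], [0, 2, 0, 0, 1, 0, 2]), (90, [2, 0, 2, 1], [0, 2, 0, 0, 1, 0, 2])] [(16, 2)], .lem 9 83 [0,
  2] [0, 0, 1] 1 [(50, [2, 1], [1, 1]), (50, [0, 2], [0, 2]), (92, [0, 0, 2], [0, 2]), (51, [0, 0,
  2], [1]), (52, [0, 0, 0, 0, 0, 2], [1]), (96, [2, 2], [0, 1, 0, 1]), (97, [2], [0, 2, 0, 2]),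
  (54, [0, 2, 2], [1, 1, 0, 2]), (98, [2, 1, 0, 0, 0, 2], [2, 2, 0, 1]), (38, [2], [1, 0, 1]),
  (101, [2, 2], [1, 1]), (7, [0, 2, 1], [2, 0, 0, 2]), (32, [2, 0, 1, 1, 0, 0, 2], [2, 1, 2]),
  (32, [0, 0, 2, 2], [0, 0, 0, 0, 2]), (32, [0, 0, 0, 0, 0, 0, 2], [0, 1]), (26, [0, 2, 1], [0, 1,
  1, 1, 2, 1, 2]), (9, [0, 2, 1], [0, 0, 0, 0, 0, 0, 0, 2, 2]), (33, [2, 2, 0, 2], [0, 0, 0, 0, 0,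
  0, 0, 1, 1]), (33, [0, 0, 0, 0, 0, 2], [0, 0, 0, 0, 0, 0, 0, 0, 1]), (84, [2, 2, 0, 2], [0, 2]),
  (84, [0, 2], [0, 0, 1, 0, 1, 2]), (84, [0, 0, 0, 0, 0, 2, 1], [0, 0, 0, 0, 1, 2]), (29, [0, 0,
  0, 2], [0, 0, 0, 2, 0, 2, 1]), (12, [2, 0, 1, 1], [1, 2, 2, 0, 2]), (12, [0, 0, 2, 2], [0, 0, 2,
  2, 1, 1]), (106, [0, 2, 0, 0, 0, 2], [0, 0, 2, 1]), (85, [2, 0, 1, 0, 1], [0, 0, 1, 1]), (85,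
  [0, 0, 0, 0, 2, 1], [0, 0, 0, 1]), (15, [2, 2, 2, 0, 1], [1, 0, 1, 1, 0, 0, 0, 1]), (15, [0, 2,
  2, 0, 2], [0, 1, 2, 1, 2, 1, 0, 2]), (86, [0, 2, 1, 2, 0, 0, 2, 1, 1], [0, 0, 2]), (82, [0, 0,
  0, 0, 0, 0, 2], [0, 0, 2]), (18, [0, 0, 2], [2]), (87, [2, 2], [2, 2, 1, 1]), (87, [0, 2], [0,
  2, 1, 1, 1]), (88, [2, 0, 0, 0, 1], [1, 0, 0, 0, 1]), (88, [0, 0, 0, 0, 2], [0, 2, 1, 1, 1]),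
  (31, [0, 0, 0, 2, 2], [0, 0, 0, 0, 0, 0, 0, 1]), (89, [2, 0, 0, 0, 1], [0, 0, 0, 0, 1, 0, 2]),
  (89, [0, 0, 0, 0, 0, 2, 0, 0, 2], [0, 0, 0, 0, 0, 0, 2]), (90, [2, 1], [0, 0, 0, 0, 0, 0, 2]),
  (90, [0, 2, 2, 2], [0, 0, 0, 0, 2]), (83, [2, 0, 0, 0, 1, 1], [0, 0, 1]), (91, [2, 1, 1], [0, 0,
  0, 0, 0, 0, 0, 0, 2])] [(23, 2), (25, 2), (43, 1), (31, 1), (30, 2), (28, 1), (16, 2), (11, 1),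
  (4, 2)], .dd 7 80 8 [0, 0, 1] [0, 0, 1] [⟨[0, 0, 2, 0, 0, 1], [1, 0, 2], false, 2⟩, ⟨[0, 0, 0,
  1], [0, 0, 0, 1], false, 0⟩, ⟨[0, 0, 0, 0, 0, 0, 1], [0, 0, 0, 0, 0, 0, 1], false, 0⟩, ⟨[0, 0,
  0, 0, 0, 0, 0, 1], [0, 0, 0, 0, 0, 0, 0, 1], false, 0⟩, ⟨[0, 0, 0, 0, 0, 2], [0, 0, 2, 0, 0, 2],
  true, 1⟩]]

/-- the derivation -/
def der13 : List Step :=
  [.lem 9 83 [0, 2, 2] [0, 0, 0, 0, 1] 0 [(87, [0, 0, 2], [0, 0, 0, 0, 2])] [(28, 2), (4, 1)],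
  .lem 9 83 [0, 0, 0, 0, 0, 1] [1] 0 [(88, [0, 0, 0, 0, 2], [2])] [], .lem 9 83 [0, 0, 0, 0, 0, 1]
  [0, 0, 0, 0, 1] 0 [(88, [0, 0, 0, 0, 2], [0, 0, 0, 0, 2])] [], .lem 4 81 [0, 0, 0, 1] [0, 0, 0,
  1] 0 [(124, [0, 0, 0, 2], [0, 0, 0, 0, 2])] []]

/-- the derivation -/
def der14 : List Step :=
  [.lem 4 81 [0, 0, 0, 1] [0, 0, 0, 0, 0, 0, 0, 1] 0 [(124, [0, 0, 0, 2], [0, 0, 0, 0, 0, 2])] [],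
  .lem 9 83 [0, 0, 0, 0, 0, 1] [0, 0, 1] 0 [(18, [0, 0, 2], [1]), (88, [0, 0, 0, 0, 2], [0, 0,
  2])] [], .lem 9 83 [0, 0, 0, 0, 0, 1] [0, 1, 1] 0 [(88, [0, 0, 0, 0, 2], [0, 2, 2])] [], .lem 4
  81 [0, 0, 0, 1] [0, 1] 0 [(125, [0, 2, 2, 2], [0, 2]), (126, [0, 0, 0, 2], [0, 1])] []]

/-- the derivation -/
def der15 : List Step :=
  [.lem 4 81 [0, 0, 0, 1] [1] 0 [(124, [0, 0, 0, 2], [0, 0, 0, 0, 0, 2]), (125, [0, 2, 2, 2], [0,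
  0, 0, 0, 0, 0, 1]), (126, [0, 0, 0, 2], [0, 0, 0, 0, 0, 0, 2])] [], .lem 4 81 [0, 0, 0, 1] [0,
  0, 1] 0 [(12, [0, 2], [0, 1]), (127, [0, 2, 2, 2], [0, 1]), (125, [0, 2, 2, 2], [0, 0, 1]),
  (126, [0, 0, 0, 2], [0, 0, 2])] [], .lem 12 81 [0, 0, 0, 0, 0, 0, 1] [0, 0, 0, 0, 1] 0 [(32, [0,
  0, 0, 0, 2], [1, 0, 0, 1]), (33, [0, 0, 2], [0, 0, 0, 0, 0, 0, 0, 1]), (84, [0, 0, 2], [1, 0, 0,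
  0, 2]), (12, [0, 0, 0, 0, 2], [1, 2, 1, 0, 0, 0, 2]), (106, [0, 0, 0, 0, 0, 2], [1]), (85, [0,
  0, 0, 0, 0, 2], [0, 0, 0, 0, 1]), (15, [0, 0, 0, 0, 2], [0, 0, 1, 0, 1, 0, 1, 2]), (86, [0, 0,
  0, 0, 0, 0, 0, 0, 2], [0, 0, 0, 0, 2]), (87, [0, 0, 2], [2, 1, 1]), (89, [0, 0, 0, 0, 0, 0, 0,
  0, 2], [0, 0, 0, 0, 0, 1, 1]), (90, [0, 0, 2], [0, 0, 0, 0, 0, 1, 1])] [(13, 1), (14, 2)], .lem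
  4 81 [0, 0, 0, 1] [0, 0, 0, 0, 0, 0, 1] 0 [(32, [0, 2], [0, 1]), (33, [0, 2, 2, 2], [0, 0, 0, 0,
  0, 0, 0, 0, 2]), (12, [0, 2], [0, 0, 1]), (127, [0, 2, 2, 2], [0, 0, 1]), (124, [0, 0, 0, 2],
  [0, 0, 0, 0, 2]), (125, [0, 2, 2, 2], [1, 0, 2, 0, 1, 1]), (126, [0, 0, 0, 2], [2, 0, 1, 0, 2,
  2])] [(2, 1)]]

/-- the derivation -/
def der16 : List Step :=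
  [.lem 4 81 [0, 0, 0, 1] [0, 0, 0, 0, 1] 0 [(50, [2], [2, 1]), (50, [0, 2], [0, 2]), (92, [0, 0,
  2], [0, 2]), (94, [2], [1]), (95, [2], [0, 0, 2]), (51, [0, 0, 2], [1]), (52, [0, 0, 0, 0, 0,
  2], [1]), (128, [0, 0, 2], [0, 2]), (96, [0, 2], [2]), (97, [0, 2], [2]), (54, [0, 2, 0, 0, 0,
  2], [2]), (98, [2, 0, 0, 0, 0, 2], [1]), (101, [0, 2, 0, 2], [1]), (32, [0, 2], [0, 2, 1]), (33,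
  [0, 2, 2, 2], [0, 0, 0, 0, 0, 0, 0, 0, 2]), (84, [0, 2, 2, 2], [0, 1]), (12, [0, 2], [0, 0, 2,
  0, 1]), (127, [0, 2, 2, 2], [0, 0, 2, 0, 1]), (106, [2, 0, 0, 0, 0, 2], [0, 0, 2]), (85, [0, 0,
  2, 0, 0, 2], [0, 0, 1]), (86, [0, 0, 0, 0, 0, 0, 0, 0, 2], [0, 0, 1]), (124, [0, 0, 0, 2], [0,
  0, 0, 0, 2]), (125, [0, 2, 2, 2], [0, 0, 1, 0, 1]), (126, [0, 0, 0, 2], [0, 0, 2, 0, 2])] [(44,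
  2), (3, 2), (2, 2)], .lem 4 81 [0, 0, 0, 1] [0, 0, 0, 0, 0, 1] 0 [(124, [0, 0, 0, 2], [0, 0, 0,
  0, 2]), (125, [0, 2, 2, 2], [1]), (126, [0, 0, 0, 2], [2])] [(0, 2)], .lem 9 83 [0, 2, 2] [0, 1,
  1] 0 [(12, [2, 0, 1, 1], [0, 2, 0, 2]), (15, [2, 1, 1], [2, 2, 2, 1, 0, 2, 2, 1]), (87, [0, 0,
  2], [0, 0, 0, 0, 1]), (89, [2, 0, 0, 0, 1], [0, 0, 0, 0, 1, 2, 2]), (90, [0, 2, 2], [0, 0, 0, 0,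
  2, 1, 1]), (91, [2, 1, 1], [0, 2, 0, 0, 0, 0, 0, 1, 2])] [(42, 1), (18, 2)], .lem 12 81 [1, 0,
  2] [0, 0, 0, 0, 1] 0 [(32, [0, 0, 2, 2, 2], [0, 0, 0, 1]), (32, [0, 0, 0, 0, 2], [2]), (33, [0,
  0, 2], [0, 0, 0, 0, 0, 0, 0, 2]), (84, [0, 2, 2], [1, 0, 0, 0, 2]), (84, [0, 0, 0, 0, 0, 2, 1],
  [0, 0, 0, 0, 2]), (12, [0, 0, 2, 2], [2, 1, 2, 0, 0, 0, 2]), (12, [0, 0, 0, 0, 2], [0, 0, 0, 0,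
  0, 0, 2]), (106, [0, 2, 0, 0, 0, 1], [1]), (85, [2, 0, 1], [0, 0, 0, 0, 1]), (15, [0, 2, 2], [1,
  1, 2, 0, 0, 0, 1, 2]), (15, [0, 0, 0, 0, 2], [0, 0, 2, 0, 2, 0, 2, 1]), (86, [2, 2, 0, 2, 1, 0,
  1, 1], [0, 0, 0, 0, 2]), (87, [0, 0, 2], [1, 2, 2]), (89, [0, 0, 0, 0, 0, 2], [0, 2, 0, 0, 0, 1,
  1]), (89, [0, 0, 0, 0, 0, 0, 0, 0, 2], [0, 0, 0, 0, 0, 2, 2]), (90, [2], [0, 2, 0, 0, 0, 1, 1]),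
  (90, [0, 0, 2], [0, 0, 0, 0, 0, 2, 2])] [(40, 2), (18, 2), (19, 1)]]

/-- the derivation -/
def der17 : List Step :=
  [.lem 9 83 [0, 2, 2] [1] 1 [(38, [2], [1, 1]), (7, [0, 2, 1], [2, 0, 0, 2]), (32, [2, 0, 1, 1,
  0, 0, 2], [2, 2]), (26, [0, 2, 1], [0, 1, 1, 1, 2, 1, 2]), (9, [0, 2, 1], [0, 0, 0, 0, 0, 0, 0,
  2, 2]), (33, [2, 2, 0, 2], [0, 0, 0, 0, 0, 0, 0, 1, 1]), (29, [0, 0, 0, 2], [0, 0, 0, 2, 0, 2,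
  1]), (12, [2, 0, 1, 1], [1, 0, 0, 1]), (15, [2, 1, 1], [2, 2, 0, 1, 1, 2]), (31, [0, 0, 0, 2,
  2], [0, 0, 0, 0, 0, 0, 0, 1]), (89, [2, 0, 0, 0, 1], [0, 0, 0, 0, 1]), (90, [0, 2, 2], [0, 0, 0,
  0, 2]), (91, [2, 1, 1], [0, 1])] [(15, 1), (61, 1)], .lem 9 83 [0, 0, 0, 0, 0, 1] [0, 0, 0, 0,
  0, 0, 1] 1 [(7, [0, 2, 1], [1, 0, 0, 1]), (32, [2], [1, 1]), (32, [0, 0, 0, 2], [0, 2]), (26,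
  [0, 2, 1], [0, 2, 2, 2, 1, 2, 1]), (9, [0, 2, 1], [0, 0, 0, 0, 0, 0, 0, 1, 1]), (33, [2, 0, 0,
  2, 0, 2], [0, 0, 0, 0, 0, 0, 0, 2, 2]), (33, [0, 2, 0, 1, 0, 1], [0, 0, 0, 0, 0, 0, 0, 0, 2]),
  (29, [0, 0, 0, 2], [0, 0, 0, 1, 0, 1, 2]), (12, [2], [2]), (12, [0, 0, 2], [0, 0, 0, 1]), (12,
  [0, 0, 0, 2], [0, 1, 2]), (15, [2, 1, 0, 0, 1], [0, 0, 1, 1, 0, 2]), (15, [0, 2, 1, 2], [0, 2]),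
  (15, [0, 0, 2, 0, 1], [1, 0, 0, 2, 2, 1]), (18, [0, 0, 2], [1, 0, 0, 1]), (48, [0, 2], [1, 2, 2,
  0, 1, 2, 0, 1]), (87, [0, 0, 2], [1, 0, 0, 0, 1]), (88, [0, 0, 0, 0, 2], [0, 0, 0, 0, 0, 0, 2]),
  (49, [0, 0, 0, 0, 0, 0, 0, 2], [0, 0, 0, 0, 0, 0, 0, 2]), (31, [0, 0, 0, 2, 2], [0, 0, 0, 0, 0,
  0, 0, 2]), (89, [2, 0, 1, 1, 2, 0, 2], [0, 2, 0, 0, 1]), (89, [0, 0, 2, 2, 2, 0, 1], [0, 0, 0,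
  0, 1]), (129, [0, 0, 2, 2, 0, 0, 1], [1, 0, 0, 0, 2, 1, 0, 2]), (90, [0, 2], [0, 1, 0, 0, 2]),
  (90, [0, 0, 2], [0, 0, 0, 0, 2]), (130, [0, 2, 0, 2], [0, 2]), (3, [2, 0, 0, 0, 0, 1], [1, 0,
  2]), (1, [2, 0, 0, 0, 0, 1], [1, 0, 0, 0, 1]), (20, [2, 2], [2, 0, 0, 0, 2]), (91, [2, 1, 1],
  [0, 1]), (4, [2, 0, 0, 0, 0, 0, 0, 0, 1], [0, 1, 1]), (5, [2, 2], [0, 1, 1]), (6, [0, 2, 0, 1],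
  [0, 1, 1])] [(60, 1), (45, 1), (21, 2), (22, 1)], .lem 9 83 [0, 2, 2] [0, 0, 1] 0 [(50, [2, 1],
  [1, 1]), (50, [0, 2], [0, 2]), (92, [0, 0, 2], [0, 2]), (51, [0, 0, 2], [1]), (52, [0, 0, 0, 0,
  0, 2], [1]), (96, [2, 2], [0, 1, 0, 1]), (97, [2], [0, 2, 0, 2]), (54, [0, 2, 2], [1, 1, 0, 2]),
  (98, [2, 1, 0, 0, 0, 2], [2, 2, 0, 1]), (38, [2], [0, 2, 1]), (101, [2, 2], [1, 1]), (32, [2, 0,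
  1, 1], [0, 2, 2]), (32, [0, 0, 2, 2], [0, 0, 0, 0, 2]), (32, [0, 0, 0, 0, 0, 0, 2], [0, 0, 2]),
  (33, [0, 0, 0, 0, 0, 2], [0, 0, 0, 0, 0, 0, 0, 0, 1]), (84, [2, 2, 0, 2], [0, 2]), (84, [0, 2],
  [0, 0, 1, 0, 1, 2]), (84, [0, 0, 0, 0, 0, 2, 1], [0, 0, 0, 0, 1, 2]), (12, [2, 0, 1, 1], [0, 2,
  2, 2, 2]), (12, [0, 0, 2, 2], [0, 0, 2, 2, 1, 1]), (106, [0, 2, 0, 0, 0, 2], [0, 0, 2, 1]), (85,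
  [2, 0, 1, 0, 1], [0, 0, 1, 1]), (85, [0, 0, 0, 0, 2, 1], [0, 0, 0, 1]), (15, [2, 0, 0, 0, 2],
  [0, 0, 1, 1, 0, 2]), (15, [0, 2, 2, 0, 2], [2, 1, 0, 2, 2, 2, 0, 1]), (86, [0, 2, 1, 2, 0, 0, 2,
  1, 1], [0, 0, 2]), (87, [2, 1, 1], [0, 0, 1]), (87, [0, 0, 2], [0, 2, 0, 1, 2]), (89, [2, 0, 0,
  0, 1], [0, 2, 0, 0, 1]), (89, [0, 0, 0, 0, 0, 2, 0, 0, 2], [0, 0, 0, 0, 0, 0, 2]), (90, [2, 0,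
  2], [0, 0, 0, 0, 0, 0, 2]), (90, [0, 2, 2], [0, 1, 0, 0, 2]), (83, [2, 0, 0, 0, 1, 1], [0, 0,
  1])] [(33, 1), (25, 2), (26, 1), (46, 1), (48, 2), (51, 1), (23, 2), (22, 1), (50, 2), (12, 1),
  (18, 2), (36, 2), (31, 1), (24, 2)], .lem 12 81 [0, 0, 0, 1] [0, 0, 0, 0, 1] 0 [(50, [2, 2], [1,
  2]), (131, [2], [0, 2]), (92, [2, 0, 2], [0, 1]), (93, [0, 0, 0, 0, 2], [0, 1]), (51, [2, 0, 1],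
  [0, 1, 1]), (51, [0, 0, 2], [1]), (52, [2, 1, 2], [2, 2]), (52, [0, 0, 2], [0, 1]), (128, [0, 0,
  2], [0, 2]), (109, [2, 0, 0, 2], [1, 2, 1]), (109, [0, 2, 1, 2, 2, 2], [0, 0, 2]), (109, [0, 0,
  0, 2], [0, 1]), (132, [0, 2, 2], [2, 2]), (133, [0, 2, 2], [0, 1, 2]), (134, [2, 1, 1, 2, 2],
  [2, 0, 1]), (135, [2], [2, 0, 1]), (136, [0, 0, 0, 2], [0, 2, 1]), (114, [0, 0, 2, 2, 1, 2], [0,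
  2, 2]), (114, [0, 0, 0, 2, 1, 2], [0, 0, 1]), (115, [0, 0, 2, 0, 0, 2], [0, 0, 2]), (115, [0, 0,
  0, 2, 2], [0, 2]), (80, [2], [0, 0, 0, 0, 1]), (99, [2, 1, 0, 2, 0, 2], [0, 0, 2, 2, 2]), (99,
  [0, 0, 2, 1, 1, 2], [1, 0, 0, 2]), (99, [0, 0, 0, 2, 2], [0, 0, 0, 2]), (116, [0, 0, 2, 1, 2,
  1], [1, 0, 2, 1, 2]), (116, [0, 0, 0, 2, 1, 2], [0, 0, 2, 1, 2]), (100, [0, 0, 2], [0, 0, 1]),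
  (117, [0, 2], [2, 2, 1, 1]), (117, [0, 0, 2, 0, 1], [0, 0, 2, 2]), (117, [0, 0, 0, 2], [0, 2]),
  (102, [0, 0, 2], [2, 2, 2, 1]), (118, [0, 2, 2, 2, 0, 0, 0, 0, 0, 1], [0, 2]), (118, [0, 0, 2,
  2], [0, 0, 2]), (119, [0, 2, 0, 0, 2, 2, 0, 0, 2], [1, 1, 2, 0, 1]), (119, [0, 0, 0, 0, 2, 0, 0,
  1, 2], [0, 1, 2, 0, 2]), (119, [0, 0, 0, 0, 0, 2, 0, 0, 1], [0, 0, 0, 0, 1]), (119, [0, 0, 0, 0,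
  0, 0, 0, 2, 2], [0, 0, 0, 1]), (120, [0, 2], [2, 1, 2]), (120, [0, 0, 0, 2, 0, 0, 2], [0, 1,
  2]), (120, [0, 0, 0, 0, 2], [0, 0, 0, 0, 2]), (103, [2, 1, 2], [2, 2, 2, 0, 1, 2]), (103, [0, 2,
  2, 2], [0, 2, 2, 0, 2, 1]), (103, [0, 0, 2, 0, 1, 0, 0, 0, 2], [0, 0, 2, 1, 1, 2]), (103, [0, 0,
  0, 2, 0, 0, 1], [0, 0, 0, 0, 1, 2]), (104, [0, 2, 1, 2, 2, 2, 0, 0, 0, 1], [0, 2, 1, 1]), (104,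
  [0, 0, 2, 0, 2, 2], [2, 0, 1, 2]), (104, [0, 0, 0, 2, 1, 1], [0, 0, 1, 2]), (105, [0, 2], [2, 2,
  1, 1]), (105, [0, 0, 0, 0, 2], [0, 1, 1, 0, 1, 2]), (121, [0, 2, 0, 0, 1, 2], [0, 0, 0, 2]),
  (121, [0, 0, 0, 0, 2, 2, 0, 2, 1], [0, 0, 2]), (123, [0, 0, 0, 0, 2], [0, 0, 0, 1]), (107, [0,
  2, 0, 1, 2, 2, 0, 0, 0, 1, 1], [0, 1]), (108, [0, 2], [0, 2]), (82, [0, 2], [0, 0, 0, 0, 2])]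
  [(8, 2)]]

/-- the derivation -/
def der18 : List Step :=
  [.lem 12 81 [0, 0, 0, 0, 0, 0, 0, 1] [0, 0, 0, 0, 1] 0 [(83, [0, 0, 0, 2, 0, 0, 0, 1], [2, 2, 0,
  2])] [(0, 2)], .dd 7 80 8 [0, 0, 1] [0, 0, 0, 0, 1] [⟨[0, 0, 2, 0, 0, 1], [1, 0, 2], false, 0⟩,
  ⟨[0, 0, 0, 1], [0, 0, 0, 1], false, 0⟩, ⟨[0, 0, 0, 0, 0, 0, 1], [0, 0, 0, 0, 0, 0, 1], false,
  0⟩, ⟨[0, 0, 0, 0, 0, 0, 0, 1], [0, 0, 0, 0, 0, 0, 0, 1], false, 0⟩, ⟨[0, 0, 0, 0, 0, 2], [0, 0,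
  2, 0, 0, 2], true, 1⟩], .lem 8 81 [0, 0, 0, 0, 1] [0, 1] 0 [(15, [0, 0, 2, 0, 1], [0, 1])] [],
  .lem 8 81 [0, 0, 0, 0, 1] [0, 0, 1] 0 [(12, [0, 0, 2, 1], [0, 1]), (15, [0, 0, 2, 0, 1], [0, 0,
  1])] []]

/-- the derivation -/
def der19 : List Step :=
  [.lem 18 85 [0, 0, 0, 0, 0, 0, 0, 1] [1] 0 [(71, [0, 0, 2, 0, 2], [1]), (137, [0, 0, 0, 0, 0, 0,
  0, 0, 2], [0, 1]), (138, [0, 0, 0, 0, 0, 0, 0, 2], [2])] [], .lem 18 85 [0, 0, 0, 0, 0, 1] [1] 0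
  [(71, [0, 0, 0, 2, 2], [2]), (137, [0, 0, 0, 0, 0, 2], [0, 2]), (138, [0, 0, 0, 0, 0, 2, 1],
  [1])] [], .lem 8 81 [0, 0, 0, 0, 1] [0, 0, 0, 0, 1] 0 [(38, [2], [0, 2]), (32, [0, 0, 2, 1, 0,
  0, 1], [0, 2]), (33, [0, 2, 0, 2, 0, 1], [0, 0, 0, 0, 0, 0, 0, 0, 1]), (12, [0, 0, 2, 1], [0, 2,
  2]), (15, [0, 0, 2, 0, 1], [0, 0, 0, 0, 1])] [], .lem 8 81 [0, 0, 0, 0, 1] [0, 0, 0, 0, 0, 1] 0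
  [(12, [0, 0, 2, 1], [0, 1, 0, 2]), (15, [0, 0, 2, 0, 1], [0, 0, 0, 0, 2, 1])] [(0, 2)]]

/-- the derivation -/
def der20 : List Step :=
  [.lem 8 81 [0, 0, 0, 0, 1] [1] 0 [(38, [2], [2, 2]), (32, [0, 0, 2, 1, 0, 0, 1], [2, 2]), (33,
  [0, 2, 0, 2, 0, 1], [0, 0, 0, 0, 0, 0, 0, 1, 1]), (12, [0, 0, 2, 1], [1]), (15, [0, 0, 2, 0, 1],
  [1])] [], .lem 8 81 [0, 0, 0, 0, 1] [0, 0, 0, 1] 0 [(50, [2], [2, 1]), (50, [0, 2], [0, 2]),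
  (92, [0, 0, 2], [0, 2]), (94, [2], [1]), (95, [2], [0, 0, 2]), (51, [0, 0, 2], [1]), (52, [0, 0,
  0, 0, 0, 2], [1]), (128, [0, 0, 2], [0, 2]), (96, [0, 2], [2]), (97, [0, 2], [2]), (54, [0, 2,
  0, 0, 0, 2], [2]), (98, [2, 0, 0, 0, 0, 2], [1]), (38, [2], [0, 2]), (101, [0, 2, 0, 2], [1]),
  (32, [0, 0, 2, 1], [0, 0, 1]), (32, [0, 0, 0, 0, 0, 0, 2], [0, 1]), (33, [0, 2, 0, 2, 0, 1], [0,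
  0, 0, 0, 0, 0, 0, 0, 1]), (84, [0, 2, 0, 2, 0, 0, 2], [0, 1]), (12, [0, 0, 2, 1], [0, 0, 0, 0,
  1]), (106, [2, 0, 0, 0, 0, 2], [0, 0, 2]), (85, [0, 0, 2], [0, 0, 1]), (15, [0, 0, 2, 0, 1], [0,
  0, 0, 1]), (86, [0, 0, 0, 0, 0, 0, 0, 0, 2], [0, 0, 2])] [(61, 1)], .lem 13 84 [0, 1, 0, 1] [0,
  1] 0 [(21, [2, 1, 1, 2], [1, 2]), (23, [0, 0, 0, 2], [0, 0, 1, 1, 0, 0, 2]), (56, [2, 1, 1, 1],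
  [0, 1]), (59, [0, 0, 0, 0, 0, 2, 1], [0, 2, 1]), (139, [2, 0, 0, 1], [0, 2, 2]), (60, [2, 2, 0,
  2], [0, 2, 2]), (60, [0, 2, 0, 2], [0, 0, 1]), (7, [0, 2], [0, 0, 2]), (8, [2, 1], [2]), (8, [0,
  2, 2, 0, 0, 2], [0, 0, 1, 2]), (8, [0, 0, 2, 0, 0, 1], [0, 0, 0, 1]), (9, [0, 2], [0, 0, 0, 1]),
  (33, [0, 0, 0, 0, 2], [2, 0, 0, 0, 1, 2]), (10, [2, 1, 1, 2, 1], [0, 1]), (10, [0, 2, 2, 0, 0,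
  2], [2]), (11, [2, 2, 0, 2, 1], [1, 0, 1, 0, 2, 1]), (11, [0, 0, 2, 0, 0, 1], [0, 0, 0, 0, 0,
  1]), (27, [2, 1, 0, 1, 2], [1]), (27, [0, 0, 0, 0, 2], [0, 0, 0, 1]), (28, [0, 2, 2, 2, 0, 0,
  1], [2]), (28, [0, 0, 0, 0, 0, 0, 0, 0, 2], [0, 0, 0, 2]), (30, [0, 2], [0, 0, 0, 1]), (30, [0,
  0, 0, 2], [2]), (140, [2, 0, 0, 1], [0, 0, 0, 0, 0, 0, 2]), (141, [0, 0, 2, 1, 0, 2], [0, 0, 0,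
  0, 0, 0, 2]), (13, [2, 2], [2, 0, 2]), (13, [0, 0, 0, 0, 2], [0, 0, 2, 1, 0, 0, 2]), (14, [2, 0,
  2, 1], [2, 0, 2]), (14, [0, 2, 2, 2], [0, 0, 1, 2, 0, 0, 1]), (142, [2], [0, 0, 0, 0, 0, 0, 2]),
  (16, [2, 0, 0, 2], [1]), (16, [0, 0, 2, 1, 2, 2, 0, 1], [0, 2, 2]), (19, [0, 0, 2], [2]), (19,
  [0, 0, 0, 0, 2, 2, 1, 1], [0, 1])] [], .lem 8 81 [0, 0, 0, 0, 1] [0, 0, 0, 0, 0, 0, 0, 1] 2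
  [(143, [2], [1]), (144, [2], [2]), (145, [2], [0, 1]), (146, [2], [1]), (147, [2], [2]), (148,
  [2], [0, 1]), (149, [0, 0, 2], [0, 2]), (150, [2], [0, 1]), (151, [2], [1, 0, 2]), (152, [2, 2],
  [1, 2, 2]), (153, [2], [2, 1, 1]), (154, [2, 2], [2]), (155, [2], [1]), (156, [2], [2]), (157,
  [2], [1]), (50, [2, 2], [2, 2]), (50, [0, 2], [0, 1]), (158, [2], [0, 2]), (131, [0, 2], [0,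
  2]), (92, [0, 0, 2], [0, 1]), (94, [2], [1]), (95, [2], [0, 0, 2]), (51, [0, 0, 2], [2]), (52,
  [0, 0, 0, 0, 0, 2], [2]), (128, [0, 0, 2], [0, 1]), (96, [2, 1, 0, 1], [1, 1, 0, 1]), (96, [0,
  0, 0, 2], [0, 2, 0, 2]), (97, [2, 2], [0, 1, 0, 1]), (97, [0, 2], [1]), (54, [0, 2, 1, 0, 0, 1],
  [1, 2, 0, 1]), (98, [2, 2, 0, 0, 0, 2], [2, 1, 0, 2]), (38, [2], [0, 1]), (101, [2, 1, 0, 2],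
  [0, 1]), (32, [0, 0, 2, 0, 2], [0, 0, 0, 0, 1]), (32, [0, 0, 0, 2, 2], [2]), (32, [0, 0, 0, 0,
  0, 0, 2], [0, 2]), (33, [0, 2, 2, 1, 0, 1], [0, 0, 0, 0, 0, 0, 0, 2]), (33, [0, 0, 2], [0, 0, 0,
  0, 0, 0, 0, 0, 1]), (84, [0, 0, 2, 2, 0, 1, 1], [0, 0, 0, 0, 2, 1]), (84, [0, 0, 0, 2], [0, 0,
  2]), (12, [0, 0, 2, 0, 2], [0, 2, 1, 0, 2, 2]), (12, [0, 0, 0, 2, 2], [1, 0, 1, 1]), (106, [2,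
  1], [0, 0, 2, 2]), (85, [2, 0, 0, 0, 0, 2], [0, 0, 1, 1]), (15, [0, 2, 2], [1, 0, 0, 0, 0, 1, 0,
  1]), (15, [0, 0, 2, 0, 1], [0, 0, 0, 0, 0, 2, 0, 1]), (89, [0, 0, 0, 0, 0, 2], [0, 1, 0, 0, 0,
  0, 2]), (90, [2], [0, 1, 0, 0, 0, 0, 2])] [(39, 1), (40, 1), (3, 2)]]

/-- the derivation -/
def der21 : List Step :=
  [.lem 13 84 [0, 1, 0, 1] [0, 0, 0, 1] 0 [(21, [2, 1, 1, 2], [1, 1, 0, 0, 0, 0, 0, 2, 1]), (21,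
  [0, 2, 1, 2], [0, 0, 0, 0, 0, 0, 0, 0, 2]), (21, [0, 0, 0, 2], [0, 2, 0, 0, 0, 0, 0, 2]), (23,
  [2, 0, 2, 2], [1, 0, 1, 1, 0, 1]), (23, [0, 2, 1, 2], [0, 0, 2, 2, 0, 0, 1]), (36, [2, 0, 0, 1,
  1, 1], [0, 0, 0, 0, 0, 0, 2]), (37, [0, 0, 2, 2], [0, 0, 0, 0, 0, 0, 2]), (58, [2, 2], [0, 0, 0,
  0, 0, 0, 2]), (25, [0, 0, 0, 0, 0, 2], [0, 0, 0, 2, 1, 2, 2]), (7, [2], [1, 0, 2, 0, 1, 2, 1]),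
  (7, [0, 2], [0, 0, 2]), (8, [2, 1, 0, 1, 1], [0, 1, 0, 0, 1, 2, 2]), (8, [0, 2, 0, 1], [1]), (8,
  [0, 0, 2], [0, 0, 0, 1]), (8, [0, 0, 0, 2], [0, 0, 0, 0, 2, 1]), (9, [2], [2, 2, 0, 0, 2, 1,
  1]), (9, [0, 2], [0, 0, 0, 1]), (33, [0, 0, 0, 0, 2], [1, 2, 0, 0, 1, 2, 1]), (41, [0, 0, 2, 2],
  [2, 0, 0, 0, 1]), (42, [2, 1], [1, 0, 0, 0, 2]), (10, [2, 1, 1, 2, 1], [0, 0, 0, 1]), (27, [2,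
  1, 2, 1, 1], [1, 1, 0, 2, 0, 0, 1]), (27, [0, 2, 1, 1], [0, 2, 0, 1, 0, 0, 2]), (27, [0, 0, 2,
  0, 2], [0, 0, 0, 2]), (28, [2, 1, 2, 2, 0, 0, 0, 0, 1], [0, 2, 0, 1, 0, 0, 2]), (28, [0, 2, 2,
  2], [2]), (28, [0, 0, 0, 0, 0, 2, 2, 1, 2], [0, 0, 0, 1]), (30, [2], [0, 2, 0, 1, 0, 0, 2]),
  (30, [0, 2], [1, 0, 0, 2]), (13, [2, 2], [0, 0, 0, 2]), (14, [2, 0, 2, 1], [0, 0, 0, 2]), (16,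
  [0, 0, 2, 1, 2, 2, 0, 1], [0, 0, 0, 2]), (19, [0, 0, 0, 0, 2, 2, 1, 1], [0, 0, 0, 1])] [], .lem
  13 84 [0, 1, 0, 1] [0, 0, 1] 0 [(21, [2, 1, 1, 2], [2, 1, 0, 0, 0, 0, 0, 1, 0, 1]), (22, [0, 2],
  [2]), (23, [2, 1, 1, 2], [0, 1, 1, 1]), (23, [0, 0, 0, 2], [2]), (56, [0, 0, 0, 2], [0, 0, 2]),
  (24, [0, 0, 2], [2]), (59, [0, 0, 0, 0, 0, 0, 2], [0, 1]), (25, [2, 1, 0, 1, 0, 2], [2]), (25,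
  [0, 0, 0, 0, 0, 2], [0, 1, 0, 2, 1, 1, 1]), (60, [0, 0, 2], [0, 1]), (7, [2], [1]), (7, [0, 2],
  [0, 0, 1, 2]), (8, [2, 0, 0, 0, 1], [2, 2, 0, 2, 2, 2]), (8, [0, 2, 0, 2], [0, 2, 2, 0, 2, 2]),
  (8, [0, 0, 2], [0, 0, 1, 2]), (8, [0, 0, 0, 2], [0, 0, 0, 2, 2]), (9, [2], [2]), (9, [0, 2], [0,
  0, 2, 1]), (33, [0, 0, 0, 0, 2], [2, 1, 0, 1, 1, 1]), (63, [2, 2, 1, 2, 2, 1, 0, 2], [2]), (41,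
  [0, 0, 2, 2], [1]), (42, [2, 1], [2]), (10, [2, 1, 1, 2, 1], [0, 0, 1]), (27, [2, 0, 0, 2, 2],
  [1, 2, 0, 0, 1, 1]), (27, [0, 2, 1, 1], [0, 1, 0, 0, 2, 2]), (27, [0, 0, 2], [0, 0, 1, 2]), (28,
  [2, 0, 1, 1], [1]), (28, [0, 2, 2, 2, 0, 0, 0, 0, 1], [0, 1, 0, 0, 2, 2]), (28, [0, 0, 0, 0, 0,
  2, 2, 1], [0, 0, 2, 1]), (30, [2, 2], [1]), (65, [2, 1, 1, 1, 0, 0, 1, 2], [0, 2]), (13, [2, 2],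
  [0, 0, 2]), (14, [2, 0, 2, 1], [0, 0, 2]), (71, [2, 2, 2, 2], [1]), (72, [0, 2, 1, 0, 2, 0, 1,
  0, 1], [1]), (16, [0, 0, 2, 1, 2, 2, 0, 1], [0, 0, 2]), (19, [0, 0, 0, 0, 2, 2, 1, 1], [0, 0,
  1])] [], .lem 13 84 [0, 1, 0, 1] [0, 0, 0, 0, 1] 0 [(21, [0, 0, 0, 2], [1, 1, 0, 0, 0, 0, 0, 0,
  0, 1]), (23, [0, 0, 0, 2], [0, 1, 2, 2, 0, 0, 1]), (24, [2, 0, 1], [1, 2]), (8, [2, 0, 0, 2, 1],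
  [2, 0, 1, 2, 0, 1, 0, 0, 2]), (8, [0, 2, 0, 1], [0, 0, 1, 2, 0, 1, 2, 0, 1]), (8, [0, 0, 2, 2],
  [0, 0, 0, 0, 0, 0, 0, 0, 1]), (33, [0, 0, 0, 0, 2], [2, 0, 2, 1, 1, 1, 1]), (10, [2, 1, 1, 2,
  1], [0, 2, 0, 2, 1]), (27, [2, 1, 2, 1, 1], [2, 0, 1, 2, 2, 1, 1, 1]), (27, [0, 0, 0, 0, 2], [0,
  0, 2, 2, 1, 2, 2]), (28, [0, 2, 2, 2], [1, 0, 2, 1, 1, 2, 2, 2]), (28, [0, 0, 0, 0, 0, 2, 2, 2,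
  1], [0, 0, 0, 0, 0, 0, 0, 1]), (28, [0, 0, 0, 0, 0, 0, 0, 0, 2], [0, 0, 1, 1, 2, 1, 1]), (30,
  [0, 2], [2, 0, 0, 1]), (30, [0, 0, 0, 2], [0, 0, 0, 0, 0, 0, 0, 1]), (13, [2, 2], [0, 1, 1, 2,
  2, 0, 2]), (14, [2, 0, 2, 1], [0, 1, 1, 2, 2, 0, 2]), (16, [0, 0, 2, 1, 2, 2, 0, 1], [2, 0, 0,
  2, 2]), (19, [0, 0, 0, 0, 2, 2, 1, 1], [0, 2, 0, 2, 1])] [(3, 2), (1, 2)], .lem 13 84 [0, 1, 0,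
  1] [1, 0, 0, 0, 0, 0, 1] 0 [(21, [0, 0, 0, 2], [0, 1, 0, 0, 0, 0, 0, 0, 0, 2]), (23, [0, 0, 0,
  2], [0, 2]), (24, [2, 0, 2], [2, 1]), (8, [2, 2, 0, 0, 1], [0, 0, 2, 1, 0, 2, 0, 0, 1]), (8, [0,
  2, 0, 1], [2, 0, 0, 0, 0, 0, 1, 0, 1]), (8, [0, 0, 2, 2], [0, 0, 0, 0, 0, 0, 0, 0, 2]), (33, [0,
  0, 0, 0, 2], [0, 0, 1, 2, 1, 0, 2]), (10, [2, 1, 1, 2, 1], [1, 0, 2, 1, 2]), (27, [2, 1, 2, 1,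
  1], [2, 0, 2, 1, 1, 2, 2, 2]), (27, [0, 0, 0, 0, 2], [0, 0, 1, 0, 2, 1, 1]), (28, [0, 2, 2, 2],
  [1, 0, 1, 2, 2, 1, 1, 1]), (28, [0, 0, 0, 0, 0, 2, 2, 2, 1], [0, 0, 0, 0, 0, 0, 0, 2]), (28, [0,
  0, 0, 0, 0, 0, 0, 0, 2], [0, 0, 2, 0, 1, 2, 2]), (30, [0, 2], [2, 0, 0, 1]), (30, [0, 0, 0, 2],
  [0, 0, 0, 0, 0, 0, 0, 2]), (13, [2, 1, 1], [2, 1, 2, 0, 1, 0, 2]), (13, [0, 2, 1], [0, 0, 1, 0,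
  2, 0, 1]), (14, [2, 2, 2], [2, 1, 2, 0, 1, 0, 2]), (14, [0, 2, 0, 2], [0, 0, 1, 0, 2, 0, 1]),
  (16, [0, 0, 2, 1, 2, 2], [1, 0, 2, 0, 2, 1, 1]), (16, [0, 0, 0, 0, 0, 0, 0, 2], [0, 2, 1, 2,
  2]), (19, [0, 0, 0, 0, 2, 2, 1, 1], [1, 0, 0, 2, 0, 0, 1])] [(2, 2)]]

/-- the derivation -/
def der22 : List Step :=
  [.lem 8 81 [0, 0, 0, 0, 1] [0, 0, 0, 0, 0, 0, 1] 1 [(50, [2, 2], [1, 2, 1]), (50, [0, 2], [0, 1,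
  1]), (131, [2, 1], [0, 1]), (92, [2], [0, 2]), (93, [0, 0, 2, 2], [0, 2]), (94, [2], [2]), (95,
  [2], [0, 0, 1]), (51, [2, 0, 2], [0, 2, 2]), (51, [0, 0, 2], [2]), (52, [2, 1, 2], [1, 1]), (52,
  [0, 0, 2, 0, 0, 1], [0, 2, 2]), (52, [0, 0, 0, 0, 0, 2], [0, 0, 2]), (128, [0, 0, 2], [0, 2]),
  (109, [2, 0, 0, 2], [2, 1, 2]), (109, [0, 0, 2, 2, 0, 1], [0, 0, 2]), (109, [0, 0, 0, 2], [0,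
  2]), (132, [2, 0, 2], [2, 2]), (133, [2, 0, 2], [0, 1, 2]), (96, [0, 2], [1, 1, 2]), (96, [0, 0,
  0, 2], [0, 1, 2]), (97, [2], [0, 2, 1]), (97, [0, 2], [2, 0, 2, 2]), (134, [2, 1, 1, 2, 2], [1,
  0, 2]), (135, [2], [1, 0, 2]), (136, [2, 1, 2, 2], [0, 2, 1]), (114, [0, 0, 2, 2, 2], [0, 2,
  1]), (115, [0, 2, 0, 2], [0, 2, 1]), (115, [0, 0, 0, 0, 0, 2], [0, 0, 1]), (80, [2, 2], [1]),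
  (80, [0, 2], [0, 0, 0, 0, 2]), (54, [0, 2, 0, 0, 0, 2], [2, 0, 2, 1]), (54, [0, 0, 2], [0, 2, 0,
  1]), (98, [2, 0, 0, 0, 0, 2], [1, 0, 1, 2]), (98, [0, 2, 0, 0, 0, 2], [0, 2, 0, 1]), (99, [2, 0,
  2, 1], [1, 0, 1, 1, 1]), (99, [0, 2, 1, 1, 0, 1], [0, 0, 0, 0, 2]), (99, [0, 0, 2, 1, 0, 1], [0,
  0, 2, 1]), (116, [0, 0, 2, 2, 2], [0, 0, 1, 2, 1]), (100, [2, 1], [0, 1, 0, 2]), (100, [0, 0,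
  2], [0, 0, 1]), (38, [2], [0, 2]), (101, [0, 2, 0, 2], [0, 0, 1]), (117, [0, 0, 2, 2, 1], [0, 0,
  2, 2]), (32, [0, 0, 2, 1], [0, 0, 0, 1, 2]), (32, [0, 0, 0, 0, 0, 0, 2], [0, 1]), (102, [2, 1,
  0, 2], [0, 0, 0, 1]), (102, [0, 0, 2], [2, 2, 2]), (33, [0, 0, 2, 0, 0, 1], [0, 0, 0, 0, 0, 0,
  0, 0, 1]), (118, [0, 2, 1, 1, 0, 0, 0, 0, 0, 1], [0, 2, 2]), (84, [0, 2, 1, 2], [2, 0, 2, 0, 0,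
  1]), (84, [0, 0, 2, 0, 0, 0, 2], [0, 0, 0, 0, 0, 1]), (103, [2, 1, 1, 1, 0, 1, 0, 1], [0, 0, 2,
  1]), (103, [0, 2, 2, 0, 0, 1, 2, 1], [1, 1]), (103, [0, 0, 2, 1, 1, 0, 2, 0, 2], [0, 2]), (103,
  [0, 0, 0, 2, 2, 1, 0, 1, 1], [0, 0, 0, 1]), (104, [0, 2, 2, 0, 1, 2, 0, 0, 2], [2, 1, 1, 2]),
  (104, [0, 0, 2, 1, 2, 1, 0, 0, 1, 1], [0, 2, 0, 1]), (104, [0, 0, 0, 2, 0, 1, 0, 0, 0, 2], [0,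
  0, 1, 1]), (105, [2, 2], [0, 0, 1, 1]), (12, [0, 0, 2, 1], [2, 0, 1, 0, 1, 1, 2]), (106, [2, 0,
  0, 0, 0, 2], [0, 0, 2, 2, 2]), (106, [0, 0, 0, 0, 0, 2], [2, 1]), (85, [0, 0, 2], [0, 0, 1, 1,
  1]), (15, [0, 0, 2, 0, 1], [0, 0, 0, 0, 0, 0, 1]), (86, [0, 0, 0, 0, 0, 0, 0, 0, 2], [0, 0, 0,
  2]), (107, [0, 0, 2, 2, 0, 0, 0, 0, 0, 0, 1], [2]), (107, [0, 0, 0, 2, 2, 1, 0, 0, 1, 1, 1], [0,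
  2]), (108, [0, 0, 2], [1, 1]), (108, [0, 0, 0, 0, 0, 0, 2], [0, 2]), (82, [0, 0, 2], [0, 0, 0,
  1, 1]), (82, [0, 0, 0, 0, 0, 0, 2], [0, 0, 0, 0, 2])] [(25, 2), (14, 1)], .lem 4 81 [0, 0, 0, 1]
  [0, 0, 0, 0, 0, 0, 0, 0, 0, 1] 0 [(32, [0, 2], [0, 1, 1, 2, 1]), (32, [0, 0, 2, 1], [0, 0, 2, 1,
  2]), (33, [0, 2, 1, 2], [0, 0, 0, 0, 0, 0, 0, 0, 2]), (84, [0, 0, 2], [2, 1, 2, 0, 0, 2]), (84,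
  [0, 0, 0, 0, 0, 0, 2], [0, 2, 0, 0, 0, 1]), (12, [0, 2, 1, 2], [1, 0, 0, 0, 0, 2, 1]), (12, [0,
  0, 2, 1], [0, 0, 1]), (127, [0, 2, 2, 2], [1, 0, 0, 0, 0, 2, 1]), (106, [0, 0, 0, 0, 0, 2], [1,
  2]), (85, [0, 0, 0, 0, 0, 2], [0, 0, 0, 2, 2]), (15, [0, 0, 2, 0, 1], [0, 0, 0, 2, 0, 0, 1]),
  (86, [0, 0, 0, 0, 0, 0, 0, 0, 2], [0, 0, 2, 1]), (124, [0, 0, 0, 2], [0, 0, 0, 0, 2, 2]), (125,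
  [0, 2, 2, 2], [2, 0, 0, 0, 0, 2, 0, 0, 1]), (126, [0, 0, 0, 2], [1, 0, 0, 0, 0, 1, 0, 0, 2]),
  (83, [0, 0, 0, 0, 0, 0, 2], [0, 0, 0, 0, 1])] [(60, 2), (25, 1), (69, 1), (29, 1), (0, 1), (7,
  2)], .lem 4 81 [0, 0, 0, 1] [0, 0, 0, 0, 0, 0, 0, 0, 1] 1 [(50, [2, 1], [1, 1]), (50, [0, 2],
  [0, 2]), (92, [0, 0, 2], [0, 2]), (51, [0, 0, 2], [1]), (52, [0, 0, 0, 0, 0, 2], [1]), (96, [2,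
  2], [0, 1, 0, 1]), (97, [2], [0, 2, 0, 2]), (54, [0, 2, 2], [1, 1, 0, 2]), (98, [2, 1, 0, 0, 0,
  2], [2, 2, 0, 1]), (101, [2, 2], [1, 1]), (32, [0, 2], [0, 1, 0, 2, 2]), (32, [0, 0, 2, 1], [0,
  0, 0, 1]), (32, [0, 0, 0, 2, 2], [0, 0, 0, 0, 1]), (33, [0, 2, 1, 2, 0, 2], [0, 0, 0, 0, 0, 0,
  0, 0, 2]), (84, [0, 2], [0, 0, 1, 0, 1, 2]), (84, [0, 0, 2], [2, 0, 0, 0, 0, 2]), (84, [0, 0, 0,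
  0, 0, 2, 2], [0, 0, 0, 0, 1, 2]), (84, [0, 0, 0, 0, 0, 0, 2], [0, 0, 0, 0, 0, 1]), (12, [0, 2,
  1, 2], [1, 0, 1, 0, 1, 1, 1]), (12, [0, 0, 2, 2, 1], [0, 0, 0, 2, 1, 1]), (12, [0, 0, 0, 2, 2],
  [0, 0, 1]), (127, [0, 2, 2, 2], [1, 0, 1, 0, 1, 1, 1]), (106, [0, 2, 0, 0, 0, 2], [0, 0, 2, 1]),
  (106, [0, 0, 0, 0, 0, 2], [2]), (85, [2, 0, 1, 0, 0, 1], [0, 0, 1, 1]), (85, [0, 0, 0, 0, 0, 2],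
  [0, 0, 0, 0, 2]), (15, [0, 2, 1, 0, 1], [2, 1, 1, 0, 2, 1, 0, 1]), (15, [0, 0, 2, 0, 1], [0, 2,
  1, 0, 1, 2, 1]), (86, [2, 2, 0, 2, 1, 0, 1, 1, 1], [0, 0, 1]), (86, [0, 0, 0, 0, 0, 0, 0, 0, 2],
  [0, 0, 0, 0, 1]), (124, [0, 0, 0, 2], [0, 0, 0, 0, 2]), (125, [0, 2, 2, 2], [0, 0, 0, 0, 0, 0,
  0, 2, 1]), (126, [0, 0, 0, 2], [0, 0, 0, 0, 0, 0, 0, 1, 2]), (89, [0, 0, 0, 0, 0, 2], [0, 0, 0,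
  0, 0, 0, 2]), (90, [2], [0, 0, 0, 0, 0, 0, 2])] [(60, 2), (70, 1), (30, 1), (28, 2), (26, 1),
  (29, 1), (6, 1), (1, 1), (27, 2), (46, 1), (9, 2), (14, 2)], .lem 13 84 [0, 1, 0, 1] [0, 0, 0,
  0, 0, 0, 1] 1 [(77, [2], [0, 0, 0, 0, 1]), (78, [2], [1, 0, 1, 2, 0, 1]), (53, [0, 0, 2, 2], [0,
  2]), (21, [2, 1, 1], [0, 1]), (21, [0, 0, 2, 2], [1]), (79, [2, 0, 0, 0, 0, 2], [2, 1, 1, 0, 1,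
  1]), (80, [2, 1], [1, 0, 0, 0, 1]), (81, [0, 2, 1], [1, 0, 0, 0, 1]), (23, [2, 1, 0, 2], [2, 0,
  1, 0, 0, 2, 2]), (23, [0, 0, 0, 2], [0, 0, 2, 2, 0, 0, 1]), (56, [2, 1, 2, 2], [0, 1]), (57, [0,
  2, 0, 0, 0, 1], [0, 0, 1]), (36, [2, 0, 0, 1, 0, 1], [2]), (37, [2], [2]), (58, [0, 0, 2, 2],
  [2]), (59, [0, 0, 2, 1, 0, 2, 1], [0, 2, 1]), (25, [2, 0, 2, 1, 0, 2], [2, 0, 0, 2, 0, 0, 2]),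
  (60, [2], [0, 2, 1]), (61, [2, 0, 2], [2, 0, 2, 1]), (62, [0, 0, 2], [0, 0, 1]), (8, [2, 2, 0,
  0, 1], [0, 0, 0, 2, 2, 1, 1]), (33, [0, 0, 0, 0, 2], [1, 0, 0, 1, 0, 0, 2]), (63, [2, 1, 0, 0,
  1, 1, 2], [0, 1, 0, 1, 2, 2, 2]), (64, [0, 2], [0, 0, 1, 1, 2, 2]), (10, [2, 1, 1, 2, 1], [1, 2,
  2]), (27, [2, 1, 2, 1, 1], [1, 1, 0, 0, 1, 0, 2]), (27, [0, 0, 0, 0, 2], [0, 2, 0, 2, 2, 0, 1]),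
  (28, [0, 2, 2, 2], [2, 2, 0, 0, 2, 0, 1]), (28, [0, 0, 0, 0, 0, 0, 0, 0, 2], [0, 1, 0, 1, 1, 0,
  2]), (30, [0, 2], [1, 0, 0, 2]), (65, [2, 0, 0, 2, 1, 0, 0, 1], [1, 1, 0, 0, 1, 2, 2]), (66, [0,
  0, 2, 0, 0, 0, 0, 0, 2], [0, 0, 0, 0, 1, 2]), (67, [2, 2, 0, 0, 1], [0, 0, 0, 0, 2, 1]), (68,
  [0, 0, 2, 1], [0, 0, 0, 0, 1, 2]), (13, [2, 2], [1, 0, 0, 2, 0, 0, 1]), (14, [2, 0, 2, 1], [1,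
  0, 0, 2, 0, 0, 1]), (71, [2, 2, 1, 1, 2], [2, 1, 0, 0, 1]), (71, [0, 0, 2, 0, 2, 1], [0, 2, 2,
  0, 0, 2]), (72, [0, 2, 1, 0, 2], [2, 1, 0, 0, 1]), (16, [0, 0, 2, 1, 2, 2, 0, 1], [2, 1, 2]),
  (19, [0, 0, 0, 0, 2, 2, 1, 1], [2, 2, 2])] [(8, 2), (5, 2), (3, 2)]]

/-- the derivation -/
def der23 : List Step :=
  [.dd 13 84 8 [0, 1, 0, 1] [1] [⟨[0, 0, 0, 0, 0, 1], [0, 0, 0, 0, 0, 1], false, 0⟩, ⟨[0, 0, 0, 0,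
  0, 0, 0, 1], [0, 0, 0, 0, 0, 0, 0, 1], false, 0⟩, ⟨[0, 0, 0, 0, 0, 0, 1], [2, 0, 0, 0, 0, 0, 1],
  true, 1⟩], .lem 18 85 [0, 0, 0, 0, 0, 0, 0, 1] [0, 1] 0 [(53, [0, 0, 0, 2], [0, 1]), (57, [0, 0,
  0, 0, 0, 2], [0, 0, 1]), (58, [0, 0, 0, 2], [1]), (61, [0, 0, 2], [2, 0, 2]), (62, [0, 0, 0, 0,
  2], [0, 0, 1]), (71, [0, 0, 2, 0, 2], [1]), (71, [0, 0, 0, 0, 0, 2], [0, 2, 1]), (137, [0, 0, 0,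
  0, 0, 0, 0, 0, 2], [2, 2, 2, 1, 2, 1, 2]), (138, [0, 0, 0, 0, 0, 0, 0, 2], [0, 2])] [], .lem 18
  85 [0, 0, 0, 0, 0, 1] [0, 1] 0 [(53, [0, 0, 2], [0, 1]), (57, [0, 2], [0, 0, 2]), (58, [0, 0,
  2], [1]), (61, [2], [2, 0, 2]), (62, [0, 0, 2, 0, 2], [0, 0, 2]), (71, [0, 0, 0, 2, 2], [2, 1,
  2]), (137, [0, 0, 0, 0, 0, 2], [1, 1, 1, 2, 1, 2, 1]), (138, [0, 0, 0, 0, 0, 2, 1], [0, 1])] [],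
  .lem 18 85 [0, 2, 1, 2] [1] 0 [(22, [0, 2], [2]), (23, [2, 1, 2, 1], [2]), (56, [2, 1, 2, 1],
  [0, 0, 2]), (24, [0, 0, 2], [2]), (59, [0, 0, 2, 1, 0, 2], [0, 1]), (25, [0, 2, 2], [1]), (60,
  [2, 0, 2], [0, 1]), (7, [2], [1]), (8, [0, 2, 0, 1], [1]), (9, [2], [2]), (63, [0, 2, 2, 1, 2,
  0, 2, 1], [1]), (41, [0, 0, 2, 2], [1]), (42, [2, 1], [2]), (27, [0, 2, 1, 1, 1], [1]), (28, [2,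
  2], [1]), (30, [2], [1]), (65, [0, 2, 2, 1, 1, 0, 2, 2], [0, 1]), (71, [2, 1], [2]), (72, [2, 2,
  0, 0, 1, 0, 1, 0, 1], [1]), (137, [2, 1, 2, 1, 2, 0, 1], [0, 2]), (138, [2, 1, 1, 2, 1, 2],
  [1])] [(17, 1), (2, 2)]]

/-- the derivation -/
def der24 : List Step :=
  [.lem 18 85 [2, 2, 1, 2] [1] 0 [(121, [0, 0, 2, 1, 0, 1], [0, 2]), (71, [0, 2, 2, 0, 2], [1]),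
  (72, [0, 2, 0, 1], [2]), (122, [0, 2, 0, 1], [0, 1]), (137, [0, 2, 0, 0, 2], [0, 1]), (138, [0,
  0, 0, 0, 0, 0, 2], [2])] [(0, 2), (18, 2), (3, 2)], .lem 13 84 [0, 0, 1] [0, 0, 0, 0, 2] 1 [(22,
  [2, 2], [1]), (24, [0, 0, 2, 1], [1]), (7, [2], [2]), (7, [0, 2], [0, 0, 1, 1]), (32, [0, 0, 0,
  2], [0, 2]), (8, [0, 2, 0, 1], [2, 0, 2, 0, 0, 0, 0, 0, 1]), (8, [0, 0, 2, 2, 0, 2], [0, 0, 0,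
  0, 0, 0, 0, 0, 1]), (8, [0, 0, 0, 2], [0, 0, 2]), (9, [2], [1]), (9, [0, 2], [0, 0, 1]), (33,
  [0, 2, 0, 1, 0, 1], [0, 0, 0, 0, 0, 0, 0, 0, 2]), (41, [0, 0, 2, 2], [2]), (42, [2, 1], [1]),
  (10, [0, 2], [2, 2, 2, 2, 2]), (10, [0, 0, 2, 0, 0, 2], [0, 0, 0, 0, 2]), (11, [0, 0, 2, 0, 0,
  2], [0, 0, 0, 0, 0, 2]), (27, [0, 2, 1, 1, 1], [2]), (28, [2, 2], [2]), (30, [2], [2]), (12, [0,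
  0, 0, 2], [0, 2, 2]), (13, [2, 0, 2, 0, 1], [2, 1, 0, 1, 2, 0, 2]), (14, [0, 2, 1, 1], [1, 2, 0,
  2, 1, 0, 1]), (15, [0, 2, 0, 2, 1], [0, 0, 0, 0, 2]), (16, [0, 2, 2, 2, 0, 2, 2, 2], [1, 1, 1,
  2, 1]), (17, [0, 2], [0, 0, 0, 0, 0, 2]), (18, [0, 0, 0, 2, 0, 0, 1], [0, 0, 0, 0, 0, 2]), (19,
  [0, 0, 0, 2, 1, 2, 0, 2], [0, 0, 0, 0, 2]), (0, [0, 0, 0, 2], [2, 0, 0, 0, 0, 2]), (20, [0, 0,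
  0, 2], [2, 0, 0, 0, 0, 2])] [(89, 1), (91, 2), (96, 2), (95, 1)], .lem 13 84 [0, 0, 1] [1, 0, 0,
  0, 2] 0 [(7, [0, 2], [0, 0, 0, 2]), (8, [0, 0, 2, 0, 0, 2], [0, 0, 2, 2]), (9, [0, 2], [0, 0, 2,
  2]), (10, [0, 0, 2, 0, 0, 2], [1]), (11, [0, 0, 2, 0, 0, 2], [0, 0, 0, 0, 0, 1]), (13, [2, 0, 2,
  0, 2], [0, 0, 1, 2, 0, 0, 1]), (14, [0, 0, 2, 2], [0, 0, 2, 1, 0, 0, 2]), (16, [2, 2, 2, 1, 0,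
  2, 2, 2], [1]), (19, [0, 0, 2, 1, 2, 1, 0, 1], [2])] [(0, 2)], .lem 13 84 [0, 0, 1] [0, 0, 0, 1,
  2] 0 [(21, [0, 0, 0, 2], [1, 2]), (23, [0, 0, 0, 2], [0, 0, 2, 2, 0, 0, 1]), (24, [0, 0, 2, 1],
  [1, 2]), (7, [0, 2], [0, 0, 2]), (8, [2, 2, 0, 0, 1], [2]), (8, [0, 2, 1, 0, 0, 1], [0, 0, 0,
  1]), (9, [0, 2], [0, 0, 0, 1]), (33, [0, 0, 0, 0, 2], [2, 0, 0, 0, 2, 1]), (10, [2, 1, 1, 2, 1],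
  [1, 2, 2]), (10, [0, 2, 1, 0, 0, 1], [0, 0, 0, 2]), (27, [2, 1, 2, 1, 1], [1]), (27, [0, 0, 0,
  0, 2], [0, 0, 0, 2]), (28, [0, 2, 2, 2], [2]), (28, [0, 0, 0, 0, 0, 0, 0, 0, 2], [0, 0, 0, 1]),
  (30, [0, 2], [1, 0, 0, 2]), (13, [2, 2], [1, 0, 0, 0, 0, 0, 1]), (13, [0, 2, 1, 0, 2], [0, 0, 0,
  2]), (14, [2, 0, 2, 1], [1, 0, 0, 2, 0, 0, 1]), (14, [0, 2, 1, 1], [0, 0, 0, 2]), (16, [0, 2, 2,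
  2, 0, 2, 2, 2], [0, 0, 0, 2]), (16, [0, 0, 2, 1, 2, 2, 0, 1], [2, 1, 2]), (19, [0, 0, 0, 2, 1,
  2, 0, 2], [0, 0, 0, 1]), (19, [0, 0, 0, 0, 2, 2, 1, 1], [2, 2, 2])] [(7, 1), (11, 2), (13, 2),
  (16, 2), (1, 2)]]

/-- the derivation -/
def der25 : List Step :=
  [.lem 13 84 [0, 0, 1] [0, 1] 0 [(22, [2, 2], [2]), (24, [0, 0, 2, 1], [2]), (7, [2], [1]), (8,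
  [0, 2, 0, 1], [1, 0, 2, 2]), (8, [0, 0, 2, 2, 0, 2], [0, 0, 2, 2]), (9, [2], [2]), (41, [0, 0,
  2, 2], [1]), (42, [2, 1], [2]), (10, [0, 2, 2, 0, 0, 2], [1, 2, 0, 2]), (10, [0, 0, 2, 0, 0, 2],
  [0, 2, 0, 2]), (11, [0, 0, 2, 0, 0, 2], [0, 0, 0, 0, 0, 2]), (27, [0, 2, 1, 1, 1], [1]), (28,
  [2, 2], [1]), (30, [2], [1]), (13, [2, 0, 2, 0, 1], [1, 0, 1, 1]), (13, [0, 0, 0, 0, 2], [0, 0,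
  1, 2, 0, 0, 1]), (14, [0, 2, 1, 1], [2, 0, 1, 0, 0, 0, 2]), (14, [0, 0, 2, 2], [0, 0, 1, 2, 0,
  0, 1]), (16, [2, 0, 0, 2], [2]), (16, [0, 2, 2, 2, 0, 2, 2, 2], [0, 2, 2, 2]), (19, [0, 0, 2],
  [1]), (19, [0, 0, 0, 2, 1, 2, 0, 2], [0, 1, 0, 1])] [(0, 1), (2, 2)], .lem 13 84 [0, 0, 1] [0,
  0, 1, 0, 2] 0 [(22, [2, 2], [1]), (24, [0, 0, 2, 1], [1]), (7, [2], [2]), (7, [0, 2], [0, 0, 2,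
  1]), (8, [0, 2, 0, 1], [2, 0, 1, 2]), (8, [0, 0, 2, 1, 0, 2], [0, 0, 2, 1]), (9, [2], [1]), (9,
  [0, 2], [0, 0, 1, 2]), (41, [0, 0, 2, 2], [2]), (42, [2, 1], [1]), (10, [0, 2, 1, 0, 0, 1], [0,
  0, 2]), (27, [0, 2, 1, 1, 1], [2]), (28, [2, 2], [2]), (30, [2], [2]), (13, [2, 0, 2, 0, 1], [0,
  0, 1]), (14, [0, 2, 1, 1], [0, 0, 2]), (16, [0, 2, 2, 2, 0, 2, 2, 2], [0, 0, 2]), (19, [0, 0, 0,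
  2, 1, 2, 0, 2], [0, 0, 1])] [(3, 2)], .lem 18 85 [0, 0, 0, 2] [1] 1 [(21, [2, 1, 1, 1], [1, 0,
  0, 0, 0, 0, 0, 1, 2]), (21, [0, 2, 1, 1], [0, 0, 0, 0, 0, 0, 0, 0, 1]), (22, [0, 2], [1]), (23,
  [2, 0, 2, 2], [0, 0, 2, 2, 0, 1]), (23, [0, 2, 2, 1], [1]), (56, [2, 1, 0, 1], [0, 0, 2]), (36,
  [2, 0, 0, 1, 1, 1], [0, 0, 0, 0, 0, 0, 1]), (37, [0, 0, 2, 2], [0, 0, 0, 0, 0, 0, 1]), (58, [2,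
  2], [0, 0, 0, 0, 0, 0, 1]), (24, [0, 0, 2], [1]), (59, [0, 0, 2, 1, 0, 1, 1], [0, 2]), (25, [2,
  1, 0, 2, 1, 2], [1]), (25, [0, 0, 0, 0, 0, 2], [0, 0, 0, 0, 0, 1]), (60, [2, 1, 2, 1], [0, 2]),
  (7, [2], [1, 0, 1, 0, 2, 1, 2]), (8, [2, 1, 0, 2, 2], [2, 2, 0, 2, 2]), (8, [0, 2, 0, 2, 1], [0,
  1, 2, 2, 1, 1]), (8, [0, 0, 2, 1, 2], [0, 0, 2, 1]), (8, [0, 0, 0, 2, 2], [0, 0, 0, 0, 0, 1]),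
  (9, [2], [2, 0, 0, 0, 0, 2]), (33, [0, 0, 0, 0, 2], [0, 1, 0, 1, 1]), (63, [2, 2, 0, 1, 0, 1, 0,
  1], [1]), (41, [0, 0, 2, 2], [0, 0, 0, 0, 2]), (42, [2, 1], [0, 0, 0, 0, 1]), (10, [2, 1, 1, 2,
  1], [0, 0, 2]), (27, [2, 1, 0, 1, 2], [2, 1, 0, 0, 1, 2]), (27, [0, 2, 0, 1, 1], [0, 1, 0, 0, 0,
  2]), (27, [0, 0, 2], [0, 0, 0, 0, 1]), (28, [2, 0, 1, 1, 0, 0, 0, 0, 2], [0, 1, 0, 0, 0, 2]),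
  (28, [0, 2, 2, 2, 0, 0, 1], [1, 0, 0, 0, 2]), (28, [0, 0, 0, 0, 0, 0, 2, 0, 1], [0, 0, 0, 0,
  2]), (30, [2], [0, 1, 0, 0, 0, 2]), (30, [0, 0, 0, 2], [1]), (65, [2, 1, 0, 2, 2, 0, 0, 2], [0,
  1]), (13, [2, 2], [0, 0, 1]), (14, [2, 0, 2, 1], [0, 0, 1]), (72, [0, 2, 1, 0, 0, 0, 2, 0, 1],
  [2]), (16, [0, 0, 2, 1, 2, 2, 0, 1], [0, 0, 1]), (137, [2, 2, 2, 0, 2, 1, 1], [0, 1]), (19, [0,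
  0, 0, 0, 2, 2, 1, 1], [0, 0, 2]), (138, [0, 2, 2, 0, 2], [1])] [(5, 2), (24, 1), (16, 2), (9,
  1)], .lem 13 84 [0, 0, 1] [0, 0, 0, 0, 0, 0, 1] 0 [(21, [2, 1, 1], [2, 0, 0, 0, 0, 0, 0, 0, 0,
  1]), (22, [2, 2], [1]), (23, [2, 1, 1], [0, 1, 1, 1, 0, 0, 2]), (24, [0, 0, 2, 1], [2, 2]), (25,
  [0, 0, 0, 0, 0, 2], [1, 1, 0, 0, 0, 0, 2]), (7, [2], [2]), (7, [0, 2], [0, 0, 2, 1]), (8, [2, 0,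
  0, 0, 1], [1, 0, 1, 2, 0, 1, 0, 0, 2]), (8, [0, 2, 2, 0, 0, 2], [0, 0, 2, 1, 0, 1, 0, 0, 2]),
  (8, [0, 0, 2, 0, 0, 2], [0, 0, 0, 0, 0, 2, 0, 0, 1]), (8, [0, 0, 0, 2], [0, 0, 0, 0, 0, 0, 1, 0,
  2]), (8, [0, 0, 0, 0, 0, 2], [0, 0, 0, 0, 0, 0, 0, 0, 2]), (9, [2], [1]), (9, [0, 2], [0, 0, 1,
  2]), (33, [0, 0, 0, 0, 2], [1, 0, 2, 1, 0, 2, 1]), (41, [0, 0, 2, 2], [2]), (42, [2, 1], [1]),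
  (10, [2, 2, 0, 2, 1, 2], [2, 0, 1, 2, 1]), (10, [0, 2, 1, 0, 0, 1], [0, 0, 2]), (27, [2, 1, 2,
  1, 2], [0, 0, 1, 2, 2, 1, 1, 1]), (27, [0, 2, 1, 1, 1], [2]), (27, [0, 0, 2, 0, 2], [0, 0, 0, 0,
  0, 0, 0, 2]), (28, [2, 2], [2]), (28, [0, 2, 2, 2, 0, 0, 0, 0, 1], [0, 0, 2, 1, 1, 2, 2, 2]),
  (28, [0, 0, 0, 0, 0, 2, 2, 1, 2], [0, 0, 0, 0, 0, 0, 0, 1]), (30, [2], [2]), (30, [0, 2], [0, 0,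
  0, 0, 0, 0, 0, 2]), (13, [2, 2], [0, 0, 1]), (13, [0, 2, 1, 0, 2], [0, 0, 0, 0, 2, 0, 1]), (14,
  [2, 0, 2, 1], [0, 0, 1, 0, 2, 0, 1]), (14, [0, 2, 1, 1], [0, 0, 0, 0, 2, 0, 1]), (16, [0, 2, 1,
  0, 2, 1, 2], [1, 1, 0, 1, 0, 1, 1]), (16, [0, 0, 2, 1, 2, 2, 0, 1], [0, 0, 1]), (19, [0, 0, 0,
  2, 0, 1, 1], [0, 0, 0, 0, 2, 0, 1]), (19, [0, 0, 0, 0, 2, 2, 1, 1], [0, 0, 2])] [(11, 1), (16,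
  2), (17, 2), (5, 1)]]

/-- the derivation -/
def der26 : List Step :=
  [.dd 13 84 8 [0, 0, 1] [0, 1] [⟨[0, 0, 0, 0, 0, 1], [0, 0, 0, 0, 0, 1], false, 0⟩, ⟨[0, 0, 0, 0,
  0, 0, 0, 1], [0, 0, 0, 0, 0, 0, 0, 1], false, 0⟩, ⟨[0, 0, 0, 0, 2], [2, 0, 2, 2, 2], true, 1⟩],
  .dd 13 84 8 [0, 1, 0, 1] [0, 1] [⟨[0, 0, 0, 0, 0, 1], [0, 0, 0, 0, 0, 1], false, 0⟩, ⟨[0, 0, 0,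
  0, 0, 0, 0, 1], [0, 0, 0, 0, 0, 0, 0, 1], false, 0⟩, ⟨[0, 0, 0, 0, 0, 0, 1], [2, 0, 0, 0, 0, 0,
  1], true, 1⟩], .lem 18 85 [0, 0, 0, 0, 0, 0, 0, 1] [0, 0, 1] 0 [(53, [0, 0, 0, 2], [2]), (57,
  [0, 0, 0, 0, 0, 2], [1]), (58, [0, 0, 0, 2], [0, 0, 0, 0, 0, 1, 0, 1]), (62, [0, 0, 0, 0, 2],
  [2, 2]), (71, [0, 0, 2, 0, 2], [1]), (71, [0, 0, 0, 0, 0, 2], [0, 2, 0, 1]), (137, [0, 0, 0, 0,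
  0, 0, 0, 0, 2], [2, 2, 2, 0, 2]), (138, [0, 0, 0, 0, 0, 0, 0, 2], [0, 0, 2])] [], .lem 18 85 [0,
  0, 0, 0, 0, 1] [0, 0, 1] 0 [(53, [0, 0, 2], [2]), (57, [0, 2], [2]), (58, [0, 0, 2], [0, 0, 0,
  0, 0, 1, 0, 1]), (62, [0, 0, 2, 0, 2], [1, 1]), (71, [0, 0, 0, 2, 2], [2, 1, 0, 2]), (137, [0,
  0, 0, 0, 0, 2], [1, 1, 1, 0, 1]), (138, [0, 0, 0, 0, 0, 2, 1], [0, 0, 1])] []]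

/-- the derivation -/
def der27 : List Step :=
  [.lem 18 85 [0, 2, 1, 2] [0, 1] 1 [(76, [2], [0, 0, 2]), (50, [2], [1, 2]), (77, [2], [1, 0, 1,
  0, 2]), (78, [2], [1, 1, 2, 1, 1, 1]), (53, [2, 2, 0, 1], [1, 0, 1, 2]), (53, [0, 0, 2, 1], [0,
  2]), (53, [0, 0, 0, 2], [0, 0, 2, 1]), (21, [2, 1, 1, 2], [0, 2, 0, 1, 2, 0, 1, 2, 2, 1]), (21,
  [0, 2, 1], [2, 0, 0, 2, 1, 0, 2, 0, 1, 2]), (21, [0, 0, 0, 2], [0, 0, 0, 2, 1, 0, 2, 1, 1, 2]),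
  (34, [2], [1]), (79, [2, 0, 0, 0, 0, 2], [0, 2, 1, 1, 0, 2]), (80, [2, 1], [2, 0, 2, 0, 2]),
  (81, [0, 2, 1], [2, 0, 2, 0, 2]), (22, [0, 2], [1, 0, 0, 1]), (54, [0, 0, 0, 0, 0, 2], [2, 1, 0,
  1]), (55, [2, 0, 0, 0, 2], [1, 2, 0, 2]), (23, [2, 2], [0, 1, 1, 2, 2, 2, 2]), (23, [0, 2, 1,
  1], [0, 0, 0, 1, 2, 2, 2]), (23, [0, 0, 2], [0, 0, 0, 0, 1, 1]), (23, [0, 0, 0, 2], [1, 0, 1, 0,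
  0, 0, 1]), (56, [2, 1, 2, 1], [0, 0, 0, 1]), (56, [0, 0, 0, 2], [0, 2, 1]), (57, [2, 1, 0, 1, 1,
  1], [2, 1, 0, 2]), (57, [0, 2, 0, 0, 0, 2], [0, 0, 1]), (57, [0, 0, 0, 0, 0, 2], [0, 2, 0, 1]),
  (36, [2, 2, 0, 2, 1], [2, 0, 0, 0, 0, 0, 2, 2]), (36, [0, 2, 0, 1, 0, 2], [0, 0, 0, 0, 0, 0, 1,
  1]), (37, [2], [1]), (37, [0, 0, 2, 2], [0, 0, 0, 0, 0, 0, 2, 2]), (58, [2, 2, 2], [2, 0, 0, 0,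
  0, 0, 2, 2]), (58, [0, 0, 2], [0, 0, 0, 0, 0, 0, 1, 1]), (58, [0, 0, 0, 2], [0, 0, 0, 0, 0, 2,
  0, 1]), (24, [0, 0, 2], [0, 0, 2]), (59, [0, 0, 2, 1, 0, 2, 1], [0, 0, 1, 1]), (59, [0, 0, 0, 0,
  0, 0, 2], [0, 0, 0, 1]), (25, [2, 2, 1, 1, 0, 1], [1, 1, 0, 0, 0, 0, 2]), (25, [0, 2, 2, 0, 0,
  2], [0, 1, 2, 1, 1, 2]), (25, [0, 0, 2, 2, 1], [0, 0, 0, 0, 0, 0, 2]), (25, [0, 0, 0, 2, 2], [0,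
  0, 0, 0, 1]), (25, [0, 0, 0, 0, 0, 2], [0, 0, 1]), (60, [2], [0, 0, 1, 1]), (60, [0, 0, 2], [0,
  0, 0, 1]), (61, [0, 0, 2], [1, 0, 1, 2]), (62, [2, 2, 0, 1, 2], [0, 1, 0, 1]), (62, [0, 0, 2, 0,
  1], [0, 0, 1]), (62, [0, 0, 0, 0, 2], [1, 0, 0, 2]), (7, [2], [2, 0, 1, 0, 0, 1, 0, 1]), (7, [0,
  2], [0, 0, 2, 2]), (8, [2, 1, 0, 0, 1], [0, 0, 0, 2, 2, 1, 2]), (8, [0, 2], [0, 0, 0, 0, 0, 0,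
  1]), (8, [0, 0, 0, 2], [1, 2]), (9, [2, 1], [0, 0, 1, 1, 1, 2]), (9, [0, 2], [0, 0, 0, 1, 1,
  2]), (33, [0, 0, 0, 0, 2], [0, 0, 0, 1, 1, 2, 1]), (63, [2, 2, 2], [2, 2, 0, 0, 2, 1]), (63, [0,
  2, 1, 0, 1, 1, 2], [0, 2, 2, 1, 2, 2, 2]), (63, [0, 0, 2, 2, 2, 1, 0, 2], [0, 0, 1, 2, 1, 1]),
  (63, [0, 0, 0, 0, 2, 2], [0, 0, 0, 0, 0, 0, 2]), (41, [0, 0, 2, 2], [1, 2, 0, 0, 2]), (42, [2,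
  1], [2, 1, 0, 0, 1]), (64, [2, 1, 0, 0, 2], [0, 0, 1, 1, 2, 2]), (64, [0, 2], [1, 0, 0, 2, 0,
  2]), (27, [2, 2, 1, 0, 1], [0, 1, 0, 0, 1, 0, 1]), (27, [0, 2, 1, 1, 1], [2, 0, 1, 0, 1, 0, 1]),
  (27, [0, 0, 2], [0, 0, 1]), (28, [2, 2], [2, 2, 1]), (28, [0, 2, 2, 2, 0, 0, 0, 0, 1], [0, 2, 0,
  0, 2, 0, 2]), (28, [0, 0, 0, 0, 0, 2, 2, 1], [0, 0, 2]), (30, [2], [2, 2, 1]), (65, [2, 0, 2, 2,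
  1, 0, 2, 1, 1], [1, 0, 1]), (65, [0, 2, 0, 1, 1, 0, 0, 2, 2], [0, 1, 2, 2, 1, 1]), (65, [0, 0,
  2, 0, 0, 0, 2, 0, 1], [0, 0, 1, 2, 0, 1]), (65, [0, 0, 0, 2, 1, 0, 0, 0, 1], [0, 0, 0, 0, 1]),
  (66, [0, 0, 2, 0, 0, 0, 0, 0, 2], [1, 0, 0, 0, 2]), (66, [0, 0, 0, 0, 2, 2, 0, 1, 2], [0, 0, 0,
  0, 2, 1]), (67, [2, 2, 0, 0, 0, 0, 2], [1, 0, 0, 0, 1, 1]), (67, [0, 2, 1, 0, 2, 0, 1], [0, 0,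
  0, 0, 1, 2]), (67, [0, 0, 0, 0, 0, 0, 2], [0, 0, 0, 0, 0, 1, 2]), (67, [0, 0, 0, 0, 0, 0, 0, 0,
  2], [0, 0, 0, 0, 0, 0, 2]), (68, [0, 0, 2], [1, 0, 0, 0, 1, 1]), (68, [0, 0, 0, 2], [0, 0, 0, 0,
  0, 2, 1]), (121, [0, 0, 2, 1, 0, 1], [0, 2]), (71, [2, 2, 2, 0, 2], [1, 0, 1, 2, 2]), (71, [0,
  0, 2, 0, 2, 1], [0, 2, 1, 1, 2, 1]), (71, [0, 0, 0, 2, 0, 1], [0, 0, 2, 1, 1]), (71, [0, 0, 0,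
  0, 2], [0, 0, 0, 1, 1]), (72, [2, 1, 1, 0, 2, 0, 1, 1, 1], [0, 1, 2]), (72, [0, 2, 0, 1], [2, 0,
  1, 2, 2]), (72, [0, 0, 2, 1, 1, 0, 0, 2], [0, 0, 2, 1, 1]), (72, [0, 0, 0, 0, 0, 0, 0, 2], [0,
  0, 0, 2, 2]), (122, [0, 2, 0, 1], [0, 1]), (122, [0, 0, 0, 0, 2], [0, 0, 0, 1]), (137, [0, 0, 2,
  0, 1], [2, 2, 2, 1, 2, 1, 2]), (137, [0, 0, 0, 2, 2], [0, 1]), (138, [2, 0, 0, 2], [1, 2]),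
  (138, [0, 0, 2, 2, 1, 1], [0, 1])] [(13, 1), (5, 1), (3, 2), (15, 2), (2, 2)], .lem 18 85 [2, 2,
  1, 2] [0, 1] 0 [(76, [2], [0, 0, 1]), (50, [2], [1, 2]), (93, [0, 2, 1], [0, 2]), (51, [0, 0,
  2], [1, 1, 1]), (52, [0, 0, 0, 0, 0, 2], [1, 1]), (109, [0, 2, 1], [0, 0, 2]), (77, [2], [2, 0,
  2, 0, 2]), (78, [2], [0, 0, 1, 1, 2]), (21, [2, 1, 1, 1], [2, 1]), (79, [2, 0, 0, 0, 0, 2], [0,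
  1, 0, 2, 1, 1]), (80, [2, 1], [2, 0, 1, 0, 2]), (81, [0, 2, 1], [2, 0, 1, 0, 2]), (99, [0, 2,
  1], [2, 0, 0, 2, 2]), (23, [2, 1], [0, 0, 2, 2, 0, 0, 1]), (56, [2, 1, 2, 2], [0, 1]), (59, [0,
  0, 2, 1, 0, 2, 1], [0, 2, 1]), (25, [0, 0, 0, 2, 2, 2], [1, 0, 0, 0, 0, 0, 2]), (60, [2], [0, 2,
  1]), (117, [2, 2, 0, 1], [2]), (117, [0, 2, 0, 2], [0, 1]), (61, [2, 1, 2], [0, 0, 0, 2]), (61,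
  [0, 2], [1, 0, 1]), (7, [0, 2], [0, 0, 1]), (102, [2, 0, 0, 1], [2, 0, 2, 0, 2, 1]), (8, [0, 2,
  0, 1], [2, 0, 0, 1, 1, 2]), (8, [0, 0, 0, 2], [0, 0, 0, 1, 1, 2]), (9, [2], [1, 0, 0, 0, 2, 1]),
  (9, [0, 2], [0, 0, 0, 2]), (63, [0, 0, 2, 2, 1, 0, 0, 2], [0, 0, 0, 0, 1, 2]), (118, [0, 0, 2,
  2], [0, 1]), (119, [0, 2, 0, 2, 2, 0, 1, 2, 1], [1, 2, 2, 1, 2]), (119, [0, 0, 0, 2, 1, 1, 1,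
  1], [0, 1, 1, 2, 1]), (119, [0, 0, 0, 0, 2, 2, 0, 0, 2], [0, 0, 1, 1, 2]), (119, [0, 0, 0, 0, 0,
  0, 0, 2, 2], [0, 0, 0, 2, 1]), (120, [2, 2], [2]), (120, [0, 2, 0, 2, 0, 0, 2], [0, 2, 1]),
  (120, [0, 0, 0, 0, 2], [0, 0, 2, 2, 1]), (64, [0, 2], [0, 0, 2, 0, 1, 2]), (103, [2, 0, 0, 1, 0,
  0, 2], [1, 2, 0, 0, 1, 2]), (103, [0, 2, 0, 1, 0, 0, 2], [0, 1, 0, 0, 2, 1]), (104, [0, 2, 2, 0,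
  2, 1], [1, 1, 0, 0, 2, 1]), (104, [0, 0, 2, 2], [0, 1, 0, 0, 2, 1]), (105, [2], [2, 2, 0, 0, 1,
  2]), (105, [0, 0, 0, 0, 2], [0, 1, 0, 0, 2, 1]), (27, [0, 2, 1, 1, 1], [2, 0, 0, 1]), (27, [0,
  0, 2], [0, 0, 0, 1]), (28, [2, 2], [2, 0, 0, 1]), (28, [0, 0, 0, 0, 0, 2, 2, 1], [0, 0, 0, 2]),
  (30, [2], [2, 0, 0, 1]), (65, [0, 0, 2, 1, 2, 0, 2], [1, 1]), (66, [0, 0, 2, 0, 0, 0, 0, 0, 2],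
  [0, 0, 0, 0, 2, 2]), (67, [2, 1, 0, 2], [2, 0, 0, 0, 1, 1]), (67, [0, 0, 0, 0, 2], [0, 0, 0, 0,
  1, 1]), (68, [0, 2], [2, 0, 0, 0, 1, 1]), (68, [0, 0, 2], [0, 0, 0, 0, 2, 2]), (121, [0, 2, 1,
  2, 1, 1, 0, 2], [2, 2, 1]), (121, [0, 0, 2, 1, 0, 1, 0, 1], [0, 0, 0, 1]), (121, [0, 0, 0, 2, 2,
  0, 0, 1], [0, 2]), (121, [0, 0, 0, 0, 2, 2, 0, 2, 1], [0, 0, 1]), (71, [0, 2, 2, 2], [2, 2, 1]),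
  (71, [0, 0, 2, 1, 2, 1], [0, 1]), (71, [0, 0, 0, 2], [0, 0, 2]), (72, [2, 1, 0, 2, 2, 0, 2], [0,
  1, 2]), (72, [0, 0, 0, 0, 2, 0, 2], [2]), (72, [0, 0, 0, 0, 0, 0, 2], [0, 0, 1]), (122, [2, 1,
  0, 2], [1, 1, 2, 1]), (122, [0, 0, 0, 0, 2], [0, 0, 0, 1]), (123, [2], [1, 1, 2, 1]), (123, [0,
  0, 0, 0, 2], [0, 0, 0, 2]), (137, [2, 0, 0, 1, 2, 0, 2], [1, 1, 1, 2, 1, 2, 1]), (137, [0, 2, 0,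
  0, 1, 2, 1], [0, 1]), (138, [2, 0, 0, 0, 1, 2, 2], [1, 2]), (138, [0, 2, 0, 1, 1, 2, 1], [0,
  2])] [(12, 2), (31, 1), (0, 1), (13, 1), (4, 2), (3, 1)], .dd 13 84 8 [0, 0, 1] [0, 0, 1] [⟨[0,
  0, 0, 0, 0, 1], [0, 0, 0, 0, 0, 1], false, 0⟩, ⟨[0, 0, 0, 0, 0, 0, 0, 1], [0, 0, 0, 0, 0, 0, 0,
  1], false, 0⟩, ⟨[0, 0, 0, 0, 2], [2, 0, 2, 2, 2], true, 1⟩], .dd 13 84 8 [0, 1, 0, 1] [0, 0, 1]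
  [⟨[0, 0, 0, 0, 0, 1], [0, 0, 0, 0, 0, 1], false, 0⟩, ⟨[0, 0, 0, 0, 0, 0, 0, 1], [0, 0, 0, 0, 0,
  0, 0, 1], false, 0⟩, ⟨[0, 0, 0, 0, 0, 0, 1], [2, 0, 0, 0, 0, 0, 1], true, 1⟩]]

/-- the derivation -/
def der28 : List Step :=
  [.lem 13 84 [0, 1, 0, 1] [0, 1, 1, 0, 2] 0 [] [(26, 2), (25, 1), (29, 2)], .lem 13 84 [0, 0, 2]
  [0, 0, 0, 0, 0, 0, 1] 0 [] [(9, 1)], .lem 13 84 [0, 0, 2] [0, 1, 1, 0, 2] 0 [] [(13, 1), (12,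
  1)], .lem 10 79 [1, 0, 1] [1] 0 [(159, [2, 0, 2, 1, 2, 0, 2], [1])] []]

/-- the derivation -/
def der29 : List Step :=
  [.lem 6 79 [2, 1] [1] 0 [(69, [2, 2, 2, 0, 2], [1]), (160, [2, 1, 1, 2], [2]), (17, [0, 0, 0, 0,
  0, 2], [1])] [], .lem 6 79 [2, 1] [0, 1] 0 [(69, [2, 2, 2, 0, 2], [0, 1]), (160, [2, 1, 1, 2],
  [0, 0, 0, 2]), (17, [0, 0, 0, 0, 0, 2], [0, 0, 0, 1])] [], .lem 13 84 [0, 0, 0, 0, 0, 0, 2] [0,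
  0, 0, 0, 0, 0, 1] 0 [(24, [0, 0, 0, 2], [2, 1]), (13, [0, 0, 0, 0, 2], [2, 1, 0, 1, 1]), (16,
  [0, 0, 0, 0, 0, 0, 2], [0, 0, 1, 1, 1, 2, 2]), (19, [0, 0, 0, 0, 0, 0, 0, 2], [0, 0, 0, 0, 0, 0,
  2])] [], .lem 13 84 [0, 0, 0, 0, 0, 0, 2] [0, 0, 0, 0, 1] 0 [(22, [2], [2]), (24, [0, 0, 0, 2],
  [1]), (13, [0, 0, 0, 0, 2], [2, 1, 0, 1, 2, 0, 2]), (16, [0, 0, 0, 0, 0, 0, 2], [1, 1, 1, 2,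
  1]), (19, [0, 0, 0, 0, 0, 0, 0, 2], [0, 0, 0, 0, 2])] []]

/-- the derivation -/
def der30 : List Step :=
  [.lem 13 84 [0, 0, 0, 0, 0, 0, 2] [0, 1, 1, 0, 2] 0 [(24, [0, 0, 0, 2], [1, 2]), (13, [0, 0, 0,
  0, 2], [2, 0, 1]), (16, [0, 0, 0, 0, 0, 0, 2], [0, 1, 2]), (19, [0, 0, 0, 0, 0, 0, 0, 2], [0, 2,
  2])] [(0, 1)], .lem 13 84 [0, 0, 0, 0, 0, 0, 2] [0, 0, 0, 0, 0, 1] 0 [(161, [2], [1]), (95, [0,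
  2, 2], [2]), (22, [2], [0, 2, 1, 2]), (24, [0, 0, 0, 2], [2, 2, 2, 1, 1]), (13, [0, 0, 0, 0, 2],
  [0, 0, 0, 1, 2, 2, 2]), (16, [0, 0, 0, 0, 0, 0, 2], [0, 0, 1, 0, 1, 1, 2]), (19, [0, 0, 0, 0, 0,
  0, 0, 2], [0, 0, 0, 0, 0, 2])] [], .lem 13 84 [0, 0, 0, 0, 0, 1] [0, 1, 1, 0, 2] 0 [(22, [0, 2],
  [2]), (24, [0, 0, 2], [0, 2]), (13, [0, 0, 2], [0, 2, 1, 2, 1, 0, 1]), (16, [0, 0, 0, 0, 2, 1,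
  0, 2], [2, 0, 1, 1, 2]), (19, [0, 0, 0, 0, 0, 2], [0, 1, 1, 0, 2])] [], .lem 13 84 [0, 0, 0, 0,
  0, 1] [0, 0, 0, 0, 1] 0 [(24, [0, 0, 2], [1, 2]), (13, [0, 0, 2], [2, 0, 1]), (16, [0, 0, 0, 0,
  2, 1, 0, 2], [0, 1, 2]), (19, [0, 0, 0, 0, 0, 2], [0, 1, 1])] [(0, 1)]]

/-- the derivation -/
def der31 : List Step :=
  [.lem 13 84 [0, 0, 0, 0, 0, 0, 2] [0, 0, 0, 0, 0, 0, 0, 1] 1 [(161, [2], [0, 0, 1]), (94, [0, 2,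
  2], [1]), (95, [0, 2, 2], [0, 0, 2]), (22, [2], [1, 0, 1, 0, 2]), (24, [0, 0, 0, 2], [0, 1, 1,
  0, 0, 1]), (101, [2, 2], [2]), (13, [0, 0, 0, 0, 2], [0, 0, 0, 0, 0, 0, 0, 0, 1]), (106, [0, 2,
  0, 0, 0, 2], [0, 0, 2]), (16, [0, 0, 0, 0, 0, 0, 2], [0, 0, 0, 0, 0, 0, 0, 1]), (86, [2, 2, 0,
  2, 1, 0, 1, 1, 1], [0, 0, 2]), (19, [0, 0, 0, 0, 0, 0, 0, 2], [0, 0, 0, 0, 0, 0, 0, 2]), (83,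
  [2, 0, 1, 0, 0, 0, 1], [0, 0, 2])] [(82, 1)], .lem 13 84 [0, 0, 0, 0, 0, 1] [0, 0, 0, 0, 0, 0,
  1] 0 [(21, [0, 0, 0, 2], [1, 2]), (23, [0, 0, 0, 2], [0, 0, 2, 2, 0, 0, 1]), (8, [2, 2, 0, 0,
  1], [2]), (33, [0, 0, 0, 0, 2], [2, 0, 0, 0, 2, 1]), (27, [2, 1, 2, 1, 1], [1]), (27, [0, 0, 0,
  0, 2], [0, 0, 0, 2]), (28, [0, 2, 2, 2], [2]), (28, [0, 0, 0, 0, 0, 0, 0, 0, 2], [0, 0, 0, 1]),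
  (30, [0, 2], [1, 0, 0, 2]), (13, [0, 2], [2, 1]), (13, [0, 0, 2], [0, 0, 0, 1, 1]), (14, [0, 2,
  0, 2], [2, 1]), (16, [0, 0, 0, 0, 2, 1, 0, 2], [0, 0, 1, 1, 1, 2, 2]), (16, [0, 0, 0, 0, 0, 0,
  0, 2], [1, 2, 0, 2, 1, 1, 1]), (19, [0, 0, 0, 0, 0, 2], [0, 0, 0, 0, 0, 0, 1])] [], .lem 10 79
  [1, 0, 1] [0, 0, 1] 0 [(21, [0, 0, 2, 1], [2]), (23, [0, 0, 2, 1], [0, 0, 0, 1]), (36, [2, 0, 0,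
  1, 0, 1], [1]), (37, [2], [1]), (25, [2, 1, 2, 0, 1, 1], [0, 0, 0, 0, 1]), (8, [2, 1, 0, 1, 1],
  [0, 1]), (9, [2], [0, 2]), (33, [0, 0, 0, 0, 2], [0, 2]), (63, [0, 2, 0, 2, 1, 0, 1], [0, 0, 0,
  0, 0, 0, 1]), (27, [2, 2, 1, 0, 1], [0, 1]), (28, [2, 1, 2, 2, 0, 0, 0, 0, 1], [0, 2]), (30,
  [2], [0, 2]), (65, [0, 2, 0, 0, 2, 0, 0, 2, 2], [0, 0, 0, 0, 1]), (67, [2, 2, 0, 0, 2, 0, 2],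
  [2]), (159, [2, 0, 2, 1, 2, 0, 2], [0, 0, 1])] [], .lem 13 84 [0, 0, 0, 0, 0, 1] [0, 0, 0, 0, 0,
  1] 1 [(162, [2], [1]), (163, [2], [1]), (164, [2], [1]), (165, [2], [1]), (166, [2], [2]), (167,
  [2], [2]), (168, [2], [2, 2]), (169, [0, 2, 2], [1, 1]), (170, [2], [0, 1]), (145, [2], [2]),
  (171, [0, 2, 0, 2], [1, 1]), (172, [2], [2, 2]), (148, [2], [2]), (149, [0, 0, 2], [1]), (150,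
  [2], [2]), (173, [0, 2, 2], [1, 0, 1]), (174, [2], [2, 0, 2]), (175, [2], [1, 0, 1]), (176, [2],
  [1, 2]), (177, [2], [2, 1]), (178, [2], [1, 2]), (179, [2], [2]), (180, [2], [1]), (181, [2],
  [0, 0, 1]), (182, [2], [2]), (183, [2], [0, 0, 1]), (184, [2], [2]), (185, [0, 2], [2]), (186,
  [2, 0, 1], [2]), (187, [0, 2], [2]), (188, [0, 2], [1]), (189, [2], [1]), (190, [0, 2], [2]),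
  (161, [0, 2], [2]), (22, [0, 2], [0, 1, 2, 1]), (24, [0, 0, 2], [0, 1, 2, 1, 1]), (13, [0, 0,
  2], [1, 2, 0, 0, 1, 2, 2]), (16, [0, 0, 0, 0, 2, 1, 0, 2], [0, 0, 0, 2, 0, 2]), (19, [0, 0, 0,
  0, 0, 2], [0, 0, 0, 0, 0, 1, 2])] [(1, 2)]]

/-- the derivation -/
def der32 : List Step :=
  [.lem 6 79 [2, 1] [0, 0, 0, 0, 0, 0, 1] 0 [(7, [0, 2], [1, 0, 1]), (8, [0, 2], [0, 0, 0, 2]),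
  (9, [0, 2], [0, 0, 0, 1]), (10, [0, 2, 1, 0, 1, 1], [1, 2, 2, 1]), (10, [0, 0, 2, 0, 2, 2], [0,
  0, 0, 1]), (43, [2, 2], [1, 1, 1, 0, 0, 1]), (43, [0, 2], [0, 1]), (44, [2, 2, 2, 2, 1], [1, 1,
  1, 0, 0, 1]), (44, [0, 0, 0, 0, 2], [0, 1]), (69, [2, 2, 2, 0, 1], [1, 0, 0, 0, 0, 0, 1]), (69,
  [0, 0, 0, 2], [0, 0, 0, 0, 0, 0, 1]), (69, [0, 0, 0, 0, 2], [0, 0, 0, 2]), (70, [0, 0, 2], [1,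
  1, 1, 0, 0, 1]), (46, [0, 0, 2], [0, 0, 0, 1]), (160, [2, 1, 1, 2], [0, 1, 2, 2, 2, 2, 1]),
  (160, [0, 0, 0, 0, 0, 0, 2], [0, 0, 0, 0, 2, 2, 1]), (17, [0, 2, 0, 0, 0, 1], [0, 0, 0, 0, 2, 2,
  1]), (17, [0, 0, 0, 0, 0, 2], [0, 2, 1, 1])] [(11, 1)], .lem 10 79 [1, 0, 1] [0, 0, 0, 1] 2
  [(21, [2, 1, 1], [1, 2]), (22, [2, 2], [2]), (23, [2, 1, 0, 1], [0, 0, 1, 1, 0, 0, 2]), (56, [2,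
  1, 2, 2], [0, 2]), (24, [0, 0, 2, 1], [1, 1]), (59, [0, 0, 2, 1, 0, 2, 1], [0, 1, 2]), (25, [2,
  2, 0, 1, 2, 1], [1, 0, 0, 0, 0, 0, 2]), (60, [2], [0, 1, 2]), (61, [0, 0, 2], [0, 0, 0, 2]), (7,
  [2], [1]), (7, [0, 2], [0, 0, 2]), (8, [2, 0, 0, 2, 1], [2, 0, 0, 0, 1, 2]), (8, [0, 2, 2, 0, 0,
  2], [0, 0, 2, 0, 1, 2]), (8, [0, 0, 2], [0, 0, 0, 1, 2, 1]), (8, [0, 0, 0, 0, 0, 2], [0, 0, 0,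
  0, 2, 1]), (9, [2], [2]), (9, [0, 2], [0, 0, 0, 1]), (33, [0, 0, 0, 0, 2], [2, 0, 0, 0, 1, 2]),
  (63, [0, 0, 0, 0, 0, 0, 2, 1], [0, 0, 0, 0, 2, 1]), (41, [0, 0, 2, 2], [1]), (42, [2, 1], [2]),
  (10, [2, 1, 1, 2, 1], [0, 0, 0, 1]), (10, [0, 2, 2, 0, 0, 2], [1, 2]), (10, [0, 0, 2, 0, 0, 2],
  [0, 2]), (11, [0, 0, 2, 0, 0, 2], [0, 0, 0, 0, 0, 2]), (27, [2, 0, 0, 2, 2], [1, 0, 0, 2]), (27,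
  [0, 2, 0, 1, 1], [0, 0, 0, 1]), (28, [2, 0, 1, 1], [1]), (28, [0, 2, 2, 2, 0, 1, 1, 2], [0, 0,
  0, 1]), (30, [2, 2], [1]), (30, [0, 2], [0, 0, 0, 2]), (65, [0, 0, 0, 0, 0, 0, 0, 0, 2], [2,
  2]), (13, [2, 0, 2, 0, 1], [1, 0, 1, 2]), (13, [0, 2, 1, 0, 1], [0, 0, 0, 2]), (13, [0, 0, 0, 0,
  2], [0, 0, 1, 0, 0, 0, 1]), (14, [2, 1, 0, 2], [0, 0, 0, 2]), (14, [0, 2, 1, 1], [2, 0, 1, 0, 0,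
  0, 2]), (14, [0, 0, 2, 2], [0, 0, 1, 0, 0, 0, 1]), (159, [2, 0, 2, 1, 2, 0, 2], [0, 0, 1, 1]),
  (71, [0, 0, 2, 0, 2], [1]), (71, [0, 0, 0, 0, 0, 2], [0, 2]), (72, [0, 0, 0, 0, 0, 0, 0, 0, 2],
  [1, 2]), (16, [2, 0, 0, 2], [2]), (16, [0, 2, 2, 2, 0, 2, 2, 2], [0, 2, 2]), (16, [0, 0, 2, 1,
  2, 2, 0, 1], [0, 0, 0, 2]), (19, [0, 0, 2], [1]), (19, [0, 0, 0, 2, 1, 2, 0, 2], [0, 1]), (19,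
  [0, 0, 0, 0, 2, 2, 1, 1], [0, 0, 0, 1])] [(28, 1), (44, 1), (2, 1)], .lem 6 79 [2, 1] [0, 0, 1]
  0 [(50, [2], [2, 1]), (51, [0, 0, 2], [2, 2, 2]), (52, [0, 0, 0, 0, 0, 2], [2, 2, 2]), (77, [2],
  [0, 0, 0, 0, 2]), (78, [2], [2, 0, 2, 1, 0, 2]), (53, [2, 0, 0, 2], [0, 2]), (21, [2, 1, 0, 1],
  [1, 0, 0, 0, 0, 0, 0, 1]), (21, [0, 0, 2], [0, 0, 0, 0, 0, 0, 0, 2]), (21, [0, 0, 0, 2], [0,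
  2]), (34, [2], [2]), (79, [2, 0, 0, 0, 0, 2], [1, 2, 2, 0, 2, 2]), (80, [2, 1], [2, 0, 0, 0,
  2]), (81, [0, 2, 1], [2, 0, 0, 0, 2]), (54, [0, 0, 0, 0, 0, 2], [0, 2, 1, 2]), (55, [2, 0, 0, 0,
  2], [0, 1, 2, 1]), (23, [2, 1, 2], [0, 0, 0, 0, 0, 0, 1]), (23, [0, 0, 2, 1], [2, 0, 1, 0, 0,
  2]), (56, [2, 1, 2, 2], [0, 1]), (57, [0, 2, 2, 1], [0, 0, 1]), (36, [2, 1, 0, 0, 0, 2], [2]),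
  (37, [0, 0, 2], [2]), (58, [2, 0, 0, 2], [2]), (59, [0, 0, 2, 1, 0, 2, 1], [0, 2, 1]), (25, [2,
  0, 2, 1, 0, 2], [2, 0, 0, 1, 2, 2, 1]), (25, [0, 0, 0, 2, 2, 1], [0, 0, 0, 1, 1, 1, 1]), (60,
  [2], [0, 2, 1]), (62, [0, 2, 0, 1, 2, 1], [0, 0, 2]), (8, [2, 2, 0, 0, 1], [0, 0, 0, 2, 2, 1,
  2]), (8, [0, 2, 0, 1], [2, 0, 0, 0, 0, 0, 2]), (9, [2], [1, 0, 0, 0, 0, 0, 1]), (33, [0, 0, 0,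
  0, 2], [0, 0, 0, 1, 1, 2, 1]), (63, [2, 1, 2, 2, 2, 1, 2, 2], [2, 2, 0, 2, 2, 1, 1]), (63, [0,
  0, 2, 2, 1, 0, 0, 2], [0, 2, 0, 2, 1, 1, 1]), (64, [2, 2, 0, 0, 2], [0, 0, 2, 0, 1, 2]), (64,
  [0, 2], [0, 0, 0, 2, 0, 2]), (27, [2, 1, 2, 1, 2], [0, 1, 0, 0, 1, 0, 1]), (27, [0, 2, 1, 1, 1],
  [1, 0, 0, 0, 0, 0, 2]), (28, [2, 2], [1, 0, 0, 0, 0, 0, 2]), (28, [0, 2, 2, 2, 0, 0, 0, 0, 1],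
  [0, 2, 0, 0, 2, 0, 2]), (30, [2], [1, 0, 0, 0, 0, 0, 2]), (65, [2, 0, 1, 1, 2, 0, 1, 1], [0, 2,
  0, 0, 1, 2, 1]), (65, [0, 0, 2, 1, 2, 0, 2], [2, 0, 0, 0, 1, 2]), (66, [0, 0, 2, 0, 1, 1, 0, 2],
  [0, 0, 0, 0, 2, 1]), (66, [0, 0, 0, 0, 2, 2, 0, 1, 2], [0, 0, 0, 0, 0, 2]), (67, [2, 0, 2, 0, 0,
  0, 1], [0, 0, 0, 0, 1, 1]), (67, [0, 0, 0, 0, 2, 0, 2], [0, 0, 0, 0, 0, 1]), (68, [0, 0, 2, 2],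
  [0, 0, 0, 0, 0, 2]), (43, [2], [0, 2]), (44, [2, 2, 2, 2, 2], [0, 2]), (69, [2, 2, 2, 2, 2], [0,
  0, 1]), (70, [0, 0, 2], [0, 2]), (46, [0, 0, 2], [0, 0, 0, 1]), (160, [2, 1, 1, 2], [1, 0, 2,
  2]), (17, [0, 0, 0, 0, 0, 2], [2, 0, 1, 1])] [], .lem 6 79 [2, 1] [0, 0, 0, 1] 0 [(21, [0, 0, 0,
  2], [1, 2]), (23, [0, 0, 0, 2], [0, 0, 2, 2, 0, 0, 1]), (7, [0, 2], [0, 0, 1]), (8, [0, 0, 2, 0,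
  0, 2], [0, 0, 0, 2]), (8, [0, 0, 0, 0, 2], [0, 0, 0, 0, 1, 2]), (9, [0, 2], [0, 0, 0, 2]), (10,
  [0, 0, 2, 0, 2, 2], [0, 0, 0, 1]), (27, [0, 0, 0, 0, 2], [0, 0, 0, 2]), (28, [0, 0, 0, 0, 0, 0,
  2, 1], [0, 0, 0, 2]), (69, [2, 2, 2, 0, 2], [0, 0, 2, 1]), (160, [2, 1, 1, 2], [2, 1]), (17, [0,
  0, 0, 0, 0, 2], [1, 2])] [(0, 2)]]

/-- the derivation -/
def der33 : List Step :=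
  [.lem 6 79 [2, 1] [0, 0, 0, 0, 1] 0 [(21, [2, 1, 1, 2], [1, 2]), (21, [0, 0, 0, 2], [0, 0, 0, 0,
  0, 0, 0, 2, 0, 2]), (22, [0, 2], [1]), (23, [0, 0, 0, 2], [1, 2, 1, 1, 0, 0, 1]), (56, [2, 1, 1,
  1], [0, 1]), (56, [0, 0, 0, 2], [0, 0, 1]), (24, [0, 0, 2], [1]), (59, [0, 0, 0, 0, 0, 2], [0,
  2, 1]), (59, [0, 0, 0, 0, 0, 0, 2], [0, 0, 2]), (139, [2], [0, 2, 2]), (60, [0, 2, 2, 2], [0,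
  2]), (7, [2], [2]), (7, [0, 2], [0, 0, 0, 1]), (8, [0, 2, 0, 0, 1], [2, 0, 0, 2]), (8, [0, 0, 2,
  0, 2, 2], [0, 0, 1, 2]), (8, [0, 0, 0, 0, 2], [0, 1, 0, 1]), (9, [0, 2], [0, 0, 1]), (41, [0, 0,
  2, 2], [2]), (42, [2, 1], [1]), (10, [0, 2], [1, 2, 2, 1]), (10, [0, 0, 2, 0, 2, 2], [0, 1, 2,
  1]), (11, [0, 0, 2, 0, 2, 2], [0, 0, 0, 0, 0, 1]), (11, [0, 0, 0, 0, 2], [1, 0, 1, 0, 2]), (27,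
  [0, 0, 2, 0, 2], [2]), (27, [0, 0, 0, 0, 2], [0, 0, 1, 1]), (28, [0, 0, 0, 0, 0, 0, 2], [1, 0,
  1, 1]), (28, [0, 0, 0, 0, 0, 0, 0, 2], [0, 0, 2, 2]), (30, [0, 2, 0, 2], [2]), (12, [0, 0, 0,
  2], [0, 2, 0, 1]), (140, [2], [0, 0, 0, 0, 0, 0, 2]), (141, [0, 0, 0, 0, 0, 2], [0, 0, 0, 0, 0,
  0, 1]), (43, [2, 2], [2]), (43, [0, 2], [0, 1]), (44, [2, 2, 2, 2, 1], [2]), (44, [0, 0, 0, 0,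
  2], [0, 1]), (69, [2, 2, 2, 2], [0, 0, 1, 0, 1]), (69, [0, 0, 0, 0, 2], [0, 0, 0, 1, 2]), (70,
  [0, 0, 2], [2]), (46, [0, 0, 2], [0, 0, 0, 1]), (15, [0, 2, 0, 2, 1], [0, 0, 0, 0, 2, 1]), (160,
  [2, 1, 1, 2], [2, 2, 2, 2, 2]), (160, [0, 0, 0, 0, 0, 0, 2], [0, 0, 0, 0, 2]), (17, [0, 2, 0, 0,
  0, 1], [0, 0, 0, 0, 2, 2, 1]), (17, [0, 0, 0, 0, 0, 2], [1, 1, 1, 1, 0, 2, 1]), (18, [0, 0, 0,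
  2, 0, 0, 1], [0, 0, 0, 0, 0, 2, 1]), (0, [0, 0, 0, 2], [1]), (20, [0, 0, 0, 2], [1])] [(126, 1),
  (1, 1)], .lem 10 79 [1, 0, 1] [0, 0, 0, 0, 0, 1] 1 [(76, [2], [0, 0, 2]), (51, [0, 0, 2], [1, 1,
  1]), (52, [0, 0, 0, 0, 0, 2], [1, 1, 1]), (77, [2], [1, 0, 1]), (78, [2], [2, 0, 1, 0, 1, 2]),
  (21, [2, 1, 1, 1], [0, 0, 0, 0, 0, 0, 0, 1, 1]), (21, [0, 2, 1, 1], [0, 0, 0, 0, 0, 0, 0, 0,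
  2]), (21, [0, 0, 2, 1], [2]), (79, [2, 0, 0, 0, 0, 2], [1, 1, 2, 1, 1, 1]), (80, [2, 1], [0, 0,
  2]), (81, [0, 2, 1], [0, 0, 2]), (22, [0, 2], [2]), (54, [0, 0, 0, 0, 0, 2], [1, 0, 2]), (55,
  [2, 0, 0, 0, 2], [2, 0, 1]), (23, [2, 0, 1], [2, 0, 0, 1]), (23, [0, 2, 1, 1], [0, 0, 1, 0, 0,
  2]), (56, [2, 1, 0, 2], [0, 0, 2]), (36, [2, 0, 0, 1, 0, 1], [1, 0, 0, 0, 0, 0, 2]), (36, [0, 0,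
  0, 0, 2], [0, 0, 0, 0, 0, 0, 1]), (37, [2], [1]), (37, [0, 0, 2, 2], [0, 0, 0, 0, 0, 0, 2]),
  (58, [2, 2], [0, 0, 0, 0, 0, 0, 2]), (24, [0, 0, 2], [2]), (59, [0, 0, 2, 1, 0, 1], [0, 2]),
  (25, [2, 0, 2, 0, 2, 2], [1, 0, 0, 0, 0, 2]), (25, [0, 2, 0, 0, 1, 2], [0, 0, 0, 0, 1, 2]), (60,
  [2, 1, 1, 1], [0, 2]), (7, [2], [0, 0, 2, 0, 1, 2, 1]), (8, [0, 0, 0, 2, 2], [1]), (9, [2],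
  [1]), (63, [2, 0, 1, 0, 1, 1, 0, 1], [0, 0, 0, 0, 2]), (63, [0, 2, 0, 2, 1, 0, 1], [2, 0, 0, 0,
  0, 0, 1]), (41, [0, 0, 2, 2], [1, 0, 0, 0, 1]), (42, [2, 1], [2, 0, 0, 0, 2]), (64, [2, 2, 0, 0,
  2], [0, 0, 0, 2, 0, 2]), (27, [0, 2, 2, 1, 2], [2]), (28, [2, 2, 0, 0, 0, 0, 2], [2]), (30, [2,
  1, 0, 1], [2]), (65, [2, 2, 1, 1, 1, 0, 1, 0, 2], [2, 2, 0, 0, 1, 2]), (65, [0, 2, 0, 0, 2, 0,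
  0, 2, 2], [0, 2, 0, 0, 1]), (66, [0, 0, 2, 0, 1, 1, 0, 2], [0, 0, 0, 0, 0, 2]), (67, [2, 2, 0,
  0, 2, 0, 2], [2, 0, 0, 0, 0, 2]), (67, [0, 2, 1, 0, 2, 0, 1], [0, 0, 0, 0, 0, 2]), (43, [2], [0,
  1]), (44, [2, 2, 2, 2, 2], [0, 1]), (69, [2, 2, 2, 2, 2], [0, 0, 2]), (70, [0, 0, 2], [0, 1]),
  (159, [2, 0, 2, 1, 2, 0, 2], [0, 0, 0, 0, 0, 1]), (71, [2, 2, 1, 2, 2], [1]), (72, [0, 2, 1, 0,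
  2, 0, 1], [1]), (46, [0, 0, 2], [0, 0, 0, 2]), (160, [2, 1, 1, 2], [2, 0, 1, 1]), (17, [0, 0, 0,
  0, 0, 2], [1, 0, 2, 2])] [(2, 2)], .lem 10 79 [1, 0, 1] [0, 0, 0, 0, 0, 0, 0, 1] 2 [(76, [2],
  [0, 0, 2]), (50, [2], [2, 1]), (51, [0, 0, 2], [1, 1, 1]), (52, [0, 0, 0, 0, 0, 2], [1, 1, 1]),
  (77, [2], [1, 0, 1, 0, 2]), (78, [2], [1, 0, 0, 1, 1, 1]), (21, [2, 1, 1, 2], [2, 0, 0, 0, 0, 0,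
  0, 1, 1]), (21, [0, 2, 1, 2], [0, 0, 0, 0, 0, 0, 0, 0, 2]), (21, [0, 0, 0, 2], [0, 2, 0, 0, 0,
  0, 0, 1]), (79, [2, 0, 0, 0, 0, 2], [2, 0, 1, 1]), (80, [2, 1], [2, 0, 2, 0, 2]), (81, [0, 2,
  1], [2, 0, 2, 0, 2]), (22, [0, 2], [1]), (54, [0, 0, 0, 0, 0, 2], [2, 2, 2, 2]), (55, [2, 0, 0,
  0, 2], [1, 1, 1, 1]), (23, [2, 0, 1], [1, 0, 1, 0, 0, 0, 2]), (23, [0, 2, 2], [0, 0, 2, 0, 0, 1,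
  2]), (23, [0, 0, 2, 1], [0, 0, 0, 2, 0, 1, 1]), (56, [2, 1, 2, 2], [0, 1, 1]), (56, [0, 0, 2],
  [0, 0, 2]), (36, [2, 0, 0, 1, 1, 1], [0, 0, 0, 0, 0, 0, 2]), (37, [0, 0, 2, 2], [0, 0, 0, 0, 0,
  0, 2]), (58, [2, 2], [0, 0, 0, 0, 0, 0, 2]), (24, [0, 0, 2], [1]), (59, [0, 0, 2, 1, 0, 2, 1],
  [0, 0, 1]), (59, [0, 0, 0, 0, 0, 2, 2], [0, 1]), (25, [2, 0, 0, 1, 1, 2], [2, 0, 0, 2, 2, 2]),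
  (25, [0, 2, 2, 2, 2, 2], [0, 0, 0, 2, 2, 2]), (25, [0, 0, 2, 2, 1], [0, 0, 0, 0, 0, 0, 2]), (25,
  [0, 0, 0, 0, 0, 2], [0, 0, 0, 0, 2]), (60, [2], [0, 0, 1]), (60, [0, 2, 2, 2], [0, 2]), (61, [0,
  0, 2], [0, 0, 0, 1]), (7, [2], [2, 0, 2, 0, 1, 2, 1]), (7, [0, 2], [0, 0, 1]), (8, [2, 1, 0, 1,
  1], [0, 1]), (8, [0, 2, 0, 0, 2], [2, 0, 0, 1, 1, 2]), (8, [0, 0, 0, 0, 2], [0, 0, 0, 2, 2, 1]),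
  (9, [2], [0, 2, 0, 0, 2, 1]), (9, [0, 2], [0, 0, 0, 2]), (33, [0, 0, 0, 0, 2], [0, 2]), (63, [2,
  1, 1, 1, 0, 1, 2, 1], [2, 2, 0, 2, 0, 1, 1]), (63, [0, 2, 0, 2, 1, 0, 1], [0, 2, 0, 2, 0, 1,
  1]), (63, [0, 0, 0, 0, 0, 0, 2, 1], [0, 0, 0, 0, 1, 2]), (41, [0, 0, 2, 2], [0, 0, 0, 0, 1]),
  (42, [2, 1], [0, 0, 0, 0, 2]), (64, [2, 2, 0, 0, 2], [0, 0, 2, 1, 1]), (27, [2, 2, 1, 0, 1], [0,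
  1]), (27, [0, 2, 0, 1, 1], [0, 0, 0, 1]), (27, [0, 0, 2, 0, 2], [2]), (28, [2, 1, 2, 2, 0, 0, 0,
  0, 1], [0, 2, 0, 1]), (28, [0, 2, 2, 2, 0, 2, 2, 1, 1], [0, 0, 0, 2]), (28, [0, 0, 0, 0, 0, 0,
  2], [1]), (30, [2], [0, 2, 0, 1]), (30, [0, 2, 0, 2], [2]), (65, [2, 2, 1, 1, 1, 0, 1, 0, 1],
  [1, 0, 0, 0, 0, 0, 1]), (65, [0, 2, 0, 0, 2, 0, 0, 2, 1], [0, 1]), (65, [0, 0, 0, 0, 0, 0, 0, 0,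
  2], [0, 0, 0, 0, 0, 0, 2]), (66, [0, 0, 2, 0, 1, 1, 0, 2], [0, 0, 0, 0, 2]), (67, [2, 1, 1, 0,
  1], [0, 0, 0, 0, 2]), (43, [2], [0, 1]), (44, [2, 2, 2, 2, 2], [0, 1]), (69, [2, 2, 2, 2, 2],
  [0, 0, 2]), (70, [0, 0, 2], [0, 1]), (159, [2, 0, 2, 1, 2, 0, 2], [0, 0, 0, 0, 0, 0, 0, 1]),
  (71, [2, 2, 0, 2, 1], [2]), (71, [0, 0, 0, 0, 0, 2], [0, 1]), (72, [0, 2, 1, 0, 2, 0, 1, 0, 2],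
  [2]), (72, [0, 0, 0, 0, 0, 0, 0, 0, 2], [0, 1]), (46, [0, 0, 2], [0, 0, 0, 2]), (160, [2, 1, 1,
  2], [2, 0, 1, 1]), (17, [0, 0, 0, 0, 0, 2], [1, 0, 2, 2])] [(3, 2)], .lem 10 79 [1, 0, 1] [0, 0,
  0, 0, 1] 1 [(50, [2], [1, 2]), (77, [2], [0, 0, 0, 0, 1]), (78, [2], [1, 0, 1, 2, 0, 1]), (21,
  [2, 1], [1]), (21, [0, 0, 0, 2], [0, 1]), (79, [2, 0, 0, 0, 0, 2], [2, 1, 1, 0, 1, 1]), (80, [2,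
  1], [1, 0, 0, 0, 1]), (81, [0, 2, 1], [1, 0, 0, 0, 1]), (54, [0, 0, 0, 0, 0, 2], [2, 1, 0, 1]),
  (55, [2, 0, 0, 0, 2], [1, 2, 0, 2]), (23, [2, 2, 1, 2], [0, 0, 2, 1, 0, 0, 1]), (23, [0, 2, 1,
  1], [1, 0, 0, 2, 0, 1]), (23, [0, 0, 2, 1], [0, 0, 0, 1]), (56, [2, 1, 2, 2], [0, 2]), (36, [2,
  0, 0, 1, 0, 1], [2]), (37, [2], [2]), (59, [0, 0, 2, 1, 0, 2, 1], [0, 1, 2]), (25, [2, 2, 1, 2,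
  1, 1], [2, 0, 0, 1, 2]), (25, [0, 2, 1, 1, 0, 2], [0, 0, 0, 0, 2]), (25, [0, 0, 2, 2, 1], [0, 0,
  0, 2, 0, 0, 1]), (60, [2], [0, 1, 2]), (61, [0, 0, 2], [0, 0, 0, 2]), (7, [0, 2], [0, 0, 2]),
  (8, [0, 2, 0, 1], [1, 0, 0, 2, 2, 1]), (8, [0, 0, 0, 2], [0, 0, 0, 2, 2, 1]), (9, [2], [2, 0, 0,
  0, 1, 2]), (9, [0, 2], [0, 0, 0, 1]), (63, [2, 0, 1, 0, 1, 1, 0, 1], [0, 1, 0, 1, 2, 2, 2]),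
  (63, [0, 2, 0, 2, 1, 0, 1], [0, 0, 0, 0, 0, 0, 2]), (63, [0, 0, 0, 0, 0, 0, 2, 1], [0, 0, 0, 0,
  2, 1]), (64, [2, 2, 0, 0, 2], [0, 0, 1, 1, 2, 2]), (27, [0, 2, 1, 1, 1], [1, 0, 0, 2]), (27, [0,
  0, 2], [0, 0, 0, 2]), (28, [2, 2], [1, 0, 0, 2]), (28, [0, 0, 0, 0, 0, 2, 2, 1], [0, 0, 0, 1]),
  (30, [2], [1, 0, 0, 2]), (65, [2, 2, 1, 1, 1, 0, 1], [1, 1, 0, 0, 1, 2, 2]), (65, [0, 2, 0, 0,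
  2, 0, 0, 2], [0, 0, 0, 0, 2]), (65, [0, 0, 0, 0, 0, 0, 0, 0, 2], [0, 0, 0, 0, 0, 2, 2]), (66,
  [0, 0, 2, 0, 1, 1, 0, 2], [0, 0, 0, 0, 1, 2]), (67, [2, 2, 0, 0, 2, 0, 2], [1, 0, 0, 0, 1, 2]),
  (67, [0, 2, 1, 0, 2, 0, 1], [0, 0, 0, 0, 1, 2]), (159, [2, 0, 2, 1, 2, 0, 2], [0, 0, 1, 2, 1, 0,
  0, 2]), (71, [0, 0, 2, 0, 2], [1]), (71, [0, 0, 0, 0, 0, 2], [0, 2]), (72, [0, 0, 0, 0, 0, 0, 0,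
  0, 2], [1, 2])] [(8, 1), (0, 2), (5, 2)]]

/-- the derivation -/
def der34 : List Step :=
  [.lem 10 79 [1, 0, 1] [0, 0, 0, 0, 0, 0, 1] 2 [(73, [2], [1]), (74, [2, 1], [2]), (75, [2, 2],
  [2]), (76, [2], [0, 2, 1]), (77, [2], [1, 1, 2, 0, 1]), (78, [2], [2, 2, 0, 1, 2, 2, 1]), (53,
  [2, 0, 0, 2], [0, 2]), (53, [0, 0, 2, 2], [1]), (21, [2, 1, 1], [1, 2]), (34, [2], [2]), (79,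
  [2, 0, 0, 0, 0, 2], [0, 0, 2, 2, 0, 2, 1]), (80, [2, 1], [0, 1, 1, 0, 1]), (81, [0, 2, 1], [0,
  1, 1, 0, 1]), (23, [2, 1, 1], [0, 0, 2, 2, 0, 0, 1]), (23, [0, 0, 2, 2], [1]), (56, [0, 0, 2,
  2], [0, 0, 1]), (57, [0, 2, 0, 0, 0, 1], [1, 0, 1]), (57, [0, 0, 2, 1, 0, 2], [0, 0, 1]), (36,
  [0, 2, 0, 1, 0, 2], [1]), (37, [2, 0, 1], [1]), (58, [2, 0, 0, 2], [2]), (58, [0, 0, 2, 2], [0,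
  0, 0, 0, 0, 2, 0, 2]), (59, [0, 0, 2, 1], [0, 1]), (25, [2, 1, 2, 1, 2], [0, 1, 0, 0, 1, 1, 2]),
  (25, [0, 2, 0, 0, 1, 2], [1]), (25, [0, 0, 2, 0, 2, 1], [0, 0, 0, 0, 0, 0, 2]), (60, [2, 2, 0,
  2], [0, 1]), (61, [2], [0, 0, 0, 2]), (62, [0, 2, 0, 1, 2, 1], [0, 0, 2]), (62, [0, 0, 2], [2,
  2]), (7, [2], [1]), (8, [2, 0, 0, 1], [1, 0, 1, 1, 2, 2, 2]), (8, [0, 2, 0, 2, 1], [0, 0, 1, 1,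
  2, 2, 2]), (9, [2], [2]), (33, [0, 0, 0, 0, 2], [2, 0, 2, 2, 1, 1, 1]), (63, [2, 2, 1, 2, 0, 2,
  1, 1], [1]), (63, [0, 2, 2, 1, 2, 0, 1, 2], [0, 2, 0, 0, 1, 1]), (63, [0, 0, 0, 0, 2, 2], [0, 0,
  0, 0, 2, 1]), (41, [0, 0, 2, 2], [1]), (42, [2, 1], [2]), (64, [0, 2], [2, 0, 2, 2, 1, 1, 1]),
  (27, [2, 1, 2, 1, 2], [0, 1, 1, 2, 0, 1, 1]), (27, [0, 2, 0, 1], [1]), (28, [2, 2, 0, 0, 0, 0,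
  1], [1]), (28, [0, 2, 2, 2, 0, 0, 0, 0, 1], [0, 2, 2, 1, 0, 2, 2]), (30, [2, 2, 0, 2], [1]),
  (65, [2, 1, 1, 2, 2, 0, 1, 2], [0, 1]), (65, [0, 2, 2, 1, 1, 0, 2, 2, 2], [0, 0, 1, 0, 1, 2]),
  (65, [0, 0, 0, 2, 1, 0, 0, 0, 1], [1]), (66, [0, 0, 2, 0, 0, 0, 0, 0, 2], [2, 0, 0, 0, 2, 1,
  1]), (67, [2, 2, 0, 0, 1, 0, 2], [1, 0, 0, 0, 1, 2, 2]), (67, [0, 0, 0, 0, 0, 0, 2], [0, 0, 0,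
  0, 0, 1]), (68, [0, 0, 2], [2, 0, 0, 0, 2, 1, 1]), (68, [0, 0, 0, 2], [0, 0, 0, 0, 0, 2]), (159,
  [2, 0, 2, 1, 2, 0, 2], [0, 0, 0, 0, 0, 1, 1]), (71, [2, 2, 1, 0, 2], [2]), (71, [0, 0, 2, 0, 0,
  1], [0, 2, 0, 1]), (71, [0, 0, 0, 2, 2], [0, 0, 0, 1]), (72, [0, 2, 1, 0, 2, 0, 2], [2]), (72,
  [0, 0, 0, 0, 0, 0, 2], [0, 0, 0, 1]), (72, [0, 0, 0, 0, 0, 0, 0, 2], [0, 2])] [(2, 1)], .lem 10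
  79 [1, 0, 1] [0, 1] 1 [(73, [2], [2]), (74, [2, 1], [1]), (75, [2, 2], [1]), (76, [2], [0, 1]),
  (77, [2], [1, 2, 0, 0, 2]), (78, [2], [2, 1, 2, 2, 0, 2, 2]), (53, [2, 0, 0, 2], [0, 2]), (53,
  [0, 0, 2, 2], [2]), (21, [2, 1, 1], [0, 1, 0, 0, 0, 0, 0, 1, 2]), (21, [0, 2, 1], [0, 0, 0, 0,
  0, 0, 0, 0, 1]), (21, [0, 0, 2], [2]), (21, [0, 0, 0, 2], [0, 0, 0, 0, 0, 0, 0, 2]), (34, [2],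
  [2]), (79, [2, 0, 0, 0, 0, 2], [2, 2, 2, 0, 2, 0, 2]), (80, [2, 1], [0, 2, 0, 0, 2]), (81, [0,
  2, 1], [0, 2, 0, 0, 2]), (23, [2, 2, 1], [0, 0, 2, 2]), (23, [0, 2, 2, 1], [0, 0, 0, 0, 0, 0,
  1]), (23, [0, 0, 2, 1], [0, 0, 0, 1, 0, 1]), (23, [0, 0, 0, 2], [1]), (56, [0, 0, 2, 2], [0, 0,
  2]), (57, [0, 2, 0, 0, 0, 1], [2, 0, 1]), (57, [0, 0, 2, 1, 0, 2], [0, 0, 1]), (36, [2, 2, 0,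
  2], [1, 0, 0, 0, 0, 0, 1]), (36, [0, 2, 0, 1, 2, 2], [0, 0, 0, 0, 0, 0, 2]), (37, [2, 0, 2],
  [2]), (37, [0, 0, 2, 2], [0, 0, 0, 0, 0, 0, 1]), (58, [2, 0, 0, 2], [2, 0, 0, 0, 0, 0, 1]), (58,
  [0, 2, 0, 1], [0, 0, 0, 0, 0, 0, 1]), (58, [0, 0, 2, 2], [0, 0, 0, 0, 0, 1, 0, 1]), (59, [0, 0,
  2, 1], [0, 2]), (25, [2, 1, 1], [1, 2, 0, 1, 1, 1]), (25, [0, 2, 0, 1, 2, 2], [0, 0, 0, 0, 0, 0,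
  2]), (25, [0, 0, 2, 2, 1], [0, 1, 0, 2, 2, 2]), (25, [0, 0, 0, 2, 2, 2], [0, 0, 0, 1]), (25, [0,
  0, 0, 0, 0, 2], [0, 0, 0, 0, 1, 1]), (60, [2, 2, 0, 2], [0, 2]), (61, [2, 0, 2], [0, 0, 0, 1]),
  (62, [0, 2, 0, 1, 2, 1], [0, 0, 2]), (62, [0, 0, 2], [1, 1]), (7, [2], [1, 0, 1, 0, 2, 1, 2]),
  (7, [0, 2], [0, 0, 1]), (8, [2, 0, 0, 1], [2, 0, 2, 0, 2, 0, 2]), (8, [0, 2, 0, 2, 1], [0, 0, 2,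
  1, 0, 2]), (8, [0, 0, 0, 2, 1], [0, 0, 0, 2, 2, 1, 1]), (8, [0, 0, 0, 0, 2], [0, 0, 0, 0, 0, 0,
  2]), (9, [2], [1, 0, 0, 0, 2, 1, 2]), (9, [0, 2], [0, 0, 0, 2]), (33, [0, 0, 0, 0, 2], [1, 0, 1,
  0, 1, 0, 1]), (63, [2, 1, 0, 0, 2, 2, 2], [2]), (63, [0, 2, 0, 2, 1, 0, 1], [0, 0, 0, 2, 1, 0,
  1]), (63, [0, 0, 2, 2, 1, 0, 0, 2], [0, 1, 0, 0, 0, 2]), (63, [0, 0, 0, 0, 2, 2, 2, 1], [0, 0,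
  0, 0, 1, 2]), (41, [0, 0, 2, 2], [0, 0, 0, 0, 2]), (42, [2, 1], [0, 0, 0, 0, 1]), (64, [0, 2],
  [1, 0, 1, 2, 2, 0, 2]), (27, [2, 1, 2, 1, 2], [0, 1, 2, 1, 2, 2, 1]), (27, [0, 2, 0, 1, 1], [0,
  0, 0, 1, 0, 0, 1]), (27, [0, 0, 2, 0, 2], [2, 0, 0, 0, 0, 0, 2]), (27, [0, 0, 0, 0, 2], [0, 0,
  0, 0, 0, 0, 1]), (28, [2, 0, 1, 1, 0, 1, 1, 2, 2], [0, 0, 0, 1, 0, 0, 1]), (28, [0, 2, 2, 2, 0,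
  0, 0, 0, 1], [0, 2, 1, 0, 1, 1]), (28, [0, 0, 0, 0, 0, 2, 2, 1], [0, 0, 0, 0, 0, 0, 1]), (28,
  [0, 0, 0, 0, 0, 0, 2], [1]), (30, [2], [0, 0, 0, 1, 0, 0, 1]), (30, [0, 2, 0, 2], [2]), (65, [2,
  0, 1, 2, 1, 0, 1, 1], [0, 2]), (65, [0, 2, 2, 1, 1, 0, 2, 2, 2], [0, 0, 2, 0, 0, 0, 1]), (65,
  [0, 0, 2, 2, 1, 0, 2, 0, 1], [1, 0, 0, 0, 1, 2, 2]), (65, [0, 0, 0, 2, 1, 0, 0, 0, 2], [0, 0, 0,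
  0, 1, 2, 2]), (66, [0, 0, 2, 0, 0, 0, 0, 0, 2], [1, 0, 0, 0, 1, 0, 2]), (67, [2, 2, 0, 0, 1, 0,
  2], [2, 0, 0, 0, 0, 2, 1]), (67, [0, 0, 0, 0, 2], [0, 0, 0, 0, 2, 1]), (67, [0, 0, 0, 0, 0, 0,
  2], [0, 0, 0, 0, 0, 1]), (68, [0, 0, 2], [1, 0, 0, 0, 1, 0, 2]), (68, [0, 0, 0, 2], [0, 0, 0, 0,
  0, 2]), (159, [2, 0, 2, 1, 2, 0, 2], [0, 1, 0, 1, 0, 2]), (71, [2, 2, 2], [1]), (71, [0, 0, 2],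
  [0, 1, 0, 2]), (71, [0, 0, 0, 2, 2, 1], [0, 0, 0, 2]), (72, [0, 2, 1, 0, 2, 0, 2, 0, 1], [1]),
  (72, [0, 0, 0, 0, 0, 0, 2], [0, 0, 0, 2]), (72, [0, 0, 0, 0, 0, 0, 0, 2, 2], [0, 1])] [(7, 1),
  (3, 2)], .lem 18 85 [2, 2, 1, 2] [0, 0, 1] 1 [(73, [2], [2]), (74, [2, 1], [1]), (75, [2, 2],
  [1]), (76, [2], [0, 1]), (51, [0, 0, 2], [1, 1, 1]), (52, [0, 0, 0, 0, 0, 2], [1, 1, 1]), (77,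
  [2], [1, 2]), (78, [2], [0, 0, 1, 1, 0, 0, 2]), (53, [2, 0, 1], [0, 1]), (53, [0, 0, 0, 2],
  [1]), (21, [2, 1, 2], [1, 1]), (21, [0, 0, 2], [0, 1]), (21, [0, 0, 0, 2], [0, 0, 0, 0, 0, 0, 0,
  2, 0, 2]), (34, [2], [1]), (79, [2, 0, 0, 0, 0, 2], [0, 1, 0, 0, 0, 2, 2]), (80, [2, 1], [1,
  2]), (81, [0, 2, 1], [1, 2]), (54, [0, 0, 0, 0, 0, 2], [1, 0, 2]), (55, [2, 0, 0, 0, 2], [2, 0,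
  1]), (23, [2, 0, 1], [0, 0, 2, 0, 0, 2, 1]), (23, [0, 2, 0, 1], [2, 0, 0, 2]), (23, [0, 0, 2,
  1], [0, 0, 0, 1, 0, 2]), (23, [0, 0, 0, 2], [0, 2, 0, 0, 0, 0, 2]), (56, [2, 1, 2, 2], [0, 2,
  1]), (56, [0, 0, 2, 2], [0, 0, 2]), (57, [0, 0, 2, 1, 0, 2], [0, 0, 2]), (57, [0, 0, 0, 0, 0,
  2], [2]), (36, [2, 1, 0, 0, 0, 2], [1]), (37, [0, 0, 2], [1]), (58, [2, 0, 1], [1]), (58, [0, 0,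
  0, 2], [0, 0, 0, 0, 0, 2, 0, 2]), (59, [0, 0, 2, 1], [0, 2, 2]), (59, [0, 0, 0, 0, 0, 2, 1], [0,
  0, 2]), (25, [2, 0, 2, 0, 2, 2], [1, 1, 0, 2, 2, 1, 2]), (25, [0, 2, 2, 2, 2, 2], [0, 2, 0, 1,
  0, 2]), (25, [0, 0, 2, 1, 0, 2], [0, 0, 0, 0, 1]), (25, [0, 0, 0, 2, 2, 2], [0, 0, 0, 1]), (60,
  [2, 2, 0, 2], [0, 2, 2]), (60, [0, 2, 0, 2], [0, 0, 1]), (117, [2, 2], [0, 0, 0, 0, 2]), (61,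
  [2, 0, 2], [2, 0, 2, 1]), (61, [0, 0, 2], [0, 0, 0, 2]), (62, [0, 2, 2, 1, 2, 1], [0, 0, 1]),
  (62, [0, 0, 0, 0, 2], [1, 1]), (7, [0, 2], [0, 0, 2, 1]), (8, [2, 1, 0, 0, 2], [1, 0, 1, 1, 2,
  2, 2]), (8, [0, 2], [0, 1, 1, 0, 1, 0, 2]), (8, [0, 0, 0, 2, 2], [0, 0, 1, 1, 2, 2, 2]), (9,
  [2], [1, 2, 0, 0, 0, 1, 2]), (9, [0, 2], [0, 0, 1, 2]), (33, [0, 0, 0, 0, 2], [2, 0, 2, 2, 1, 1,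
  1]), (63, [2, 2, 0, 1, 0, 1, 0, 1], [0, 0, 0, 1, 1, 2, 2]), (63, [0, 2, 2, 1, 2, 0, 2, 1], [0,
  0, 0, 0, 2, 1]), (63, [0, 0, 2, 2, 1, 0, 0, 2], [2, 1, 0, 0, 0, 1, 2]), (63, [0, 0, 0, 0, 0, 0,
  2, 1], [0, 0, 0, 0, 0, 0, 1]), (119, [0, 0, 0, 2, 0, 1, 1], [2, 1, 2, 2, 1]), (120, [2], [1, 2,
  1, 1, 2]), (64, [2, 0, 0, 0, 2], [0, 0, 0, 2, 0, 2]), (64, [0, 2], [0, 0, 2, 0, 1, 2, 2]), (27,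
  [2, 0, 0, 2], [0, 1, 1, 2, 0, 1, 1]), (27, [0, 2, 2, 1, 2], [1, 0, 2, 1]), (27, [0, 0, 2, 0, 1],
  [0, 0, 1, 2]), (28, [2, 2, 0, 0, 0, 0, 2], [1, 1, 0, 0, 0, 1, 1]), (28, [0, 2, 2, 2, 0, 0, 2, 0,
  1], [0, 2, 2, 1, 0, 2, 2]), (28, [0, 0, 0, 0, 0, 2, 1, 1], [0, 0, 1, 2]), (30, [2, 1, 0, 1], [1,
  1, 0, 0, 0, 1, 1]), (30, [0, 2, 0, 2], [0, 1, 0, 0, 0, 1, 1]), (65, [2, 0, 0, 2, 1, 0, 0, 1],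
  [2, 2, 1, 0, 2, 1, 2]), (65, [0, 2, 2, 1, 1, 0, 2, 2], [0, 0, 2, 0, 1, 2, 1]), (65, [0, 0, 2, 1,
  2, 0, 2], [0, 2, 0, 0, 0, 2, 2]), (65, [0, 0, 0, 0, 0, 0, 0, 0, 2], [0, 0, 0, 0, 1]), (66, [0,
  0, 2, 0, 0, 0, 0, 0, 2], [0, 0, 0, 0, 2, 2, 2]), (66, [0, 0, 0, 0, 2, 2, 0, 1, 2], [0, 0, 0, 0,
  0, 1]), (67, [2, 0, 0, 1, 1, 0, 1], [2, 0, 0, 0, 2, 2, 1]), (67, [0, 2, 1, 0, 2, 0, 2], [0, 0,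
  0, 0, 0, 2]), (67, [0, 0, 0, 0, 2], [0, 0, 0, 0, 1, 0, 1]), (67, [0, 0, 0, 0, 0, 0, 2, 0, 1],
  [0, 0, 0, 0, 0, 0, 1]), (68, [0, 2], [1, 0, 0, 0, 1, 1, 2]), (68, [0, 0, 2], [0, 0, 0, 0, 2, 0,
  2]), (68, [0, 0, 0, 2], [0, 0, 0, 0, 0, 2, 2]), (159, [2, 0, 2, 1, 2, 0, 2], [0, 0, 1]), (121,
  [0, 2, 2], [0, 2, 1]), (121, [0, 0, 0, 0, 2, 2, 2, 2], [0, 0, 2]), (71, [2, 0, 0, 1], [2, 1, 0,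
  0, 1]), (71, [0, 2, 2, 1, 0, 1], [0, 2, 0, 2, 1]), (71, [0, 0, 2, 0, 2, 1], [0, 0, 2, 0, 1, 2]),
  (71, [0, 0, 0, 2, 0, 2], [0, 0, 0, 1, 1]), (71, [0, 0, 0, 0, 0, 2], [0, 0, 0, 0, 1]), (72, [2,
  2, 1, 1, 2, 0, 2, 0, 2], [0, 2, 0, 1]), (72, [0, 2, 1, 0, 2, 0, 0, 0, 1], [0, 0, 0, 1, 1]), (72,
  [0, 0, 2, 1, 2, 0, 1, 0, 2], [1]), (72, [0, 0, 0, 0, 0, 0, 0, 0, 2], [0, 0, 0, 0, 1]), (122, [2,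
  2, 0, 1], [0, 1, 1]), (122, [0, 2, 0, 1], [0, 0, 1]), (123, [2], [0, 1, 1]), (137, [2, 2, 1, 1,
  0, 0, 2], [0, 2]), (137, [0, 2, 1, 0, 0, 1, 1], [1, 0, 1, 0, 1]), (138, [2, 2, 2, 1, 1, 2, 2],
  [2, 0, 1]), (138, [0, 2, 0, 1, 1, 1], [0, 0, 2])] [(30, 1), (41, 1), (11, 1), (27, 2), (26, 2)],
  .lem 6 79 [2, 1] [0, 0, 0, 0, 0, 1] 1 [(73, [2], [1]), (74, [2, 1], [2]), (75, [2, 2], [2]),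
  (76, [2], [0, 2]), (77, [2], [2, 1, 0, 0, 1]), (78, [2], [1, 2, 1, 1, 0, 1, 1]), (53, [2, 0, 0,
  2], [0, 1]), (53, [0, 0, 2, 2], [1]), (21, [2, 1, 1, 1], [0, 1, 0, 0, 0, 0, 0, 0, 2, 1]), (21,
  [0, 2, 1, 1], [0, 0, 0, 0, 0, 0, 0, 0, 1]), (21, [0, 0, 0, 2], [2, 0, 0, 0, 0, 0, 0, 1]), (34,
  [2], [1]), (79, [2, 0, 0, 0, 0, 2], [1, 1, 1, 0, 1, 0, 1]), (80, [2, 1], [0, 1, 0, 0, 1]), (81,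
  [0, 2, 1], [0, 1, 0, 0, 1]), (22, [0, 2], [1]), (23, [2, 1, 1, 1], [0, 1, 0, 1, 0, 2, 1]), (23,
  [0, 2, 2, 2], [2, 0, 0, 0, 0, 2, 2]), (23, [0, 0, 2], [0, 0, 2, 2, 0, 1]), (23, [0, 0, 0, 2],
  [0, 0, 0, 2]), (56, [2, 1, 2, 1], [0, 0, 1]), (57, [0, 2, 0, 0, 0, 1], [1, 0, 2]), (57, [0, 0,
  2, 1, 0, 2], [0, 0, 2]), (36, [2, 0, 0, 1, 1, 1], [0, 0, 0, 0, 0, 0, 1]), (36, [0, 2, 0, 1, 0,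
  2], [2]), (37, [2, 0, 1], [2]), (37, [0, 0, 2, 2], [0, 0, 0, 0, 0, 0, 1]), (58, [2, 0, 0, 2],
  [1, 0, 0, 0, 0, 0, 1]), (58, [0, 2, 0, 1], [0, 0, 0, 0, 0, 0, 1]), (58, [0, 0, 2, 2], [0, 0, 0,
  0, 0, 2, 0, 2]), (24, [0, 0, 2], [1]), (59, [0, 0, 2, 1, 0, 2], [0, 2]), (25, [2, 0, 1, 1, 2,
  1], [0, 0, 0, 0, 1, 1, 2]), (25, [0, 2, 0, 1, 2, 2], [2, 2, 0, 1, 0, 1, 1]), (25, [0, 0, 2, 0,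
  2, 2], [0, 2, 0, 1, 0, 1]), (25, [0, 0, 0, 2, 2, 1], [0, 0, 0, 2, 0, 2, 1]), (25, [0, 0, 0, 0,
  0, 2], [0, 0, 0, 0, 0, 1]), (60, [2, 0, 2], [0, 2]), (61, [2, 0, 2], [0, 0, 0, 2]), (62, [0, 2,
  0, 1, 2, 1], [0, 0, 1]), (62, [0, 0, 2], [2, 2]), (7, [2, 1], [1, 0, 1, 0, 2, 1, 2]), (7, [0,
  2], [0, 0, 1, 0, 2, 1, 2]), (8, [2, 1, 0, 0, 2], [1, 2, 0, 2, 2, 1, 1]), (8, [0, 2, 0, 2, 2],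
  [0, 2, 0, 2, 0, 0, 1, 0, 1]), (8, [0, 0, 2, 2, 1, 2], [0, 0, 0, 0, 0, 0, 0, 0, 2]), (8, [0, 0,
  0, 2], [0, 0, 0, 1, 0, 0, 2]), (8, [0, 0, 0, 0, 2], [0, 0, 0, 0, 2, 1, 1]), (9, [2], [2, 2, 0,
  0, 1, 2, 1, 0, 2]), (9, [0, 2], [0, 0, 0, 2, 0, 0, 0, 0, 2]), (33, [0, 0, 0, 0, 2], [2, 1, 0, 1,
  1, 2, 2]), (63, [2, 0, 2, 1, 2, 0, 0, 2], [2]), (63, [0, 2, 0, 2, 1, 0, 2, 2], [0, 0, 0, 2, 2]),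
  (63, [0, 0, 2, 2, 1, 0, 0, 2], [0, 2, 0, 0, 0, 1]), (63, [0, 0, 0, 0, 2, 2, 1, 2], [0, 0, 0, 0,
  2, 1]), (63, [0, 0, 0, 0, 0, 0, 2, 1], [0, 0, 0, 0, 0, 2]), (41, [0, 0, 2, 2], [0, 0, 0, 0, 2]),
  (42, [2, 1], [0, 0, 0, 0, 1]), (64, [0, 2], [2, 0, 2, 1, 1, 0, 1]), (10, [0, 2, 1, 0, 1, 1], [1,
  0, 2, 2, 2]), (10, [0, 0, 2, 0, 2, 2], [0, 0, 0, 1]), (27, [2, 1, 2, 1, 2], [0, 0, 0, 0, 1, 0,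
  2]), (27, [0, 2, 1, 1, 1], [0, 2, 0, 2, 0, 0, 0, 1]), (27, [0, 0, 2], [0, 0, 0, 2, 0, 0, 0, 1]),
  (27, [0, 0, 0, 0, 2], [0, 0, 0, 0, 0, 0, 0, 1]), (28, [2, 2], [0, 2, 0, 2, 0, 0, 0, 1]), (28,
  [0, 2, 2, 2, 0, 0, 0, 0, 1], [0, 0, 0, 0, 2, 0, 1]), (28, [0, 0, 0, 0, 0, 2, 2, 1], [0, 0, 0, 1,
  0, 0, 0, 2]), (28, [0, 0, 0, 0, 0, 0, 2, 1], [0, 0, 0, 0, 0, 0, 0, 1]), (30, [2], [0, 2, 0, 2,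
  0, 0, 0, 1]), (65, [2, 0, 1, 0, 0, 0, 1, 1, 1], [0, 2]), (65, [0, 2, 1, 1, 1, 0, 1, 2], [1, 0,
  2, 0, 1, 1, 1]), (65, [0, 0, 2, 0, 0, 0, 2, 0, 2], [0, 0, 0, 0, 0, 2, 1]), (65, [0, 0, 0, 2, 1],
  [0, 0, 1, 0, 2, 0, 1]), (65, [0, 0, 0, 0, 0, 0, 0, 0, 2], [0, 0, 0, 0, 1, 0, 2]), (66, [0, 0, 2,
  0, 0, 0, 0, 0, 2], [2, 0, 0, 0, 2, 0, 1]), (67, [2, 2, 0, 0, 2], [0, 0, 0, 0, 0, 1, 1]), (67,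
  [0, 0, 0, 0, 2], [1, 0, 0, 0, 1, 0, 2]), (67, [0, 0, 0, 0, 0, 0, 2, 0, 1], [0, 0, 0, 0, 0, 0,
  1]), (68, [0, 0, 2], [2, 0, 0, 0, 2, 0, 1]), (68, [0, 0, 0, 2], [0, 0, 0, 0, 0, 1]), (43, [2,
  2], [0, 0, 1, 0, 0, 0, 2]), (44, [2, 2, 2, 2, 1], [0, 0, 1, 0, 0, 0, 2]), (69, [2, 2, 2, 2, 2],
  [0, 0, 2, 0, 2, 1]), (69, [0, 0, 0, 0, 2], [0, 0, 0, 2, 2, 1]), (70, [0, 0, 2], [0, 0, 1, 0, 0,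
  0, 2]), (159, [2, 0, 2, 1, 2, 0, 2], [0, 0, 0, 1, 0, 1]), (71, [2, 2, 0, 1, 1], [1]), (71, [0,
  0, 2], [0, 2, 0, 1]), (71, [0, 0, 0, 2, 2, 1], [0, 0, 0, 1]), (72, [0, 2, 1, 0, 2, 0, 0, 0, 2],
  [1]), (72, [0, 0, 0, 0, 0, 0, 2], [0, 0, 0, 1]), (72, [0, 0, 0, 0, 0, 0, 0, 2, 2], [0, 2]),
  (160, [2, 1, 1, 2], [2, 1, 0, 0, 2, 1]), (160, [0, 0, 0, 0, 0, 0, 2], [0, 0, 0, 0, 2, 1]), (17,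
  [0, 2, 0, 0, 0, 1], [0, 0, 0, 0, 2, 1]), (17, [0, 0, 0, 0, 0, 2], [1, 2])] [(8, 2), (6, 2), (5,
  1), (9, 1)]]

/-- the derivation -/
def der : List Step :=
  der0 ++ (der1 ++ (der2 ++ (der3 ++ (der4 ++ (der5 ++ (der6 ++ (der7 ++ (der8 ++ (der9 ++ (der10
  ++ (der11 ++ (der12 ++ (der13 ++ (der14 ++ (der15 ++ (der16 ++ (der17 ++ (der18 ++ (der19 ++
  (der20 ++ (der21 ++ (der22 ++ (der23 ++ (der24 ++ (der25 ++ (der26 ++ (der27 ++ (der28 ++ (der29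
  ++ (der30 ++ (der31 ++ (der32 ++ (der33 ++ (der34))))))))))))))))))))))))))))))))))

/-- the functionals at `(10, 83)` -/
def E10 : List (List ℕ) := [[0, 0, 1], [0, 1], [1]]

/-- the output -/
def p14.x : List ℕ :=
  [0, 0, 0, 1]

/-- the output -/
def p14.y : List ℕ :=
  [0, 0, 0, 0, 1]

/-- the output -/
def p14.z : List ℕ :=
  [0, 0, 1, 0, 0, 2]

/-- the output -/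
def p14.dx : List ℕ :=
  [0, 0, 0, 0, 0, 0, 0, 0, 1]

/-- the output -/
def p14.dy : List ℕ :=
  [0, 0, 0, 0, 0, 0, 1, 2]

/-- the output -/
def p14.l : List ℕ :=
  [0, 1, 1]

/-- the output -/
def p14.A : List (List ℕ) :=
  [[0, 1, 2, 1, 0, 1, 2], [], [0, 0, 0, 0, 0, 1], [0, 0, 0, 0, 0, 0, 2]]

/-- the output -/
def p14.r : List ℕ :=
  [0, 2, 2, 0, 0, 2]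

/-- the output -/
def p18.x : List ℕ :=
  [2, 1]

/-- the output -/
def p18.y : List ℕ :=
  [1, 0, 1]

/-- the output -/
def p18.z : List ℕ :=
  [0, 0, 2, 2, 0, 0, 1]

/-- the output -/
def p18.dx : List ℕ :=
  [0, 0, 0, 0, 0, 1]

/-- the output -/
def p18.dy : List ℕ :=
  [0, 1, 0, 2, 1, 1, 2, 2]

/-- the output -/
def p18.l : List ℕ :=
  [0, 1, 1, 0, 2]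

/-- the output -/
def p18.A : List (List ℕ) :=
  [[2, 0, 0, 0, 0, 2, 1, 1], [2, 1, 0, 0, 1, 2, 1, 1], [0, 0, 0, 0, 0, 1, 0, 2], [0, 0, 0, 0, 0,
  0, 0, 1]]

/-- the output -/
def p18.r : List ℕ :=
  [1, 2, 2, 2, 2, 2, 1]

/-- the final test -/
def fin (K : List Fm) : Bool :=
  killB Gam K 5 82 6 E10 [(⟨[0, 0, 0, 1, 1], [0, 0, 0, 0, 1], true, 0⟩, [0, 0, 0, 0, 0, 0, 0, 1]),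
  (⟨[0, 0, 0, 1], [0, 0, 0, 1, 2], true, 0⟩, [0, 0, 0, 0, 0, 0, 0, 0, 1])] [([1, 0, 0, 1], [0, 0,
  0, 0, 0, 1])] [[0, 0, 0, 1], [0, 0, 1], [0, 1], [], [], [1]] && (valB Gam K 4 81 10 p14.x p14.dx
  && (valB Gam K 8 81 8 p14.y p14.dy && (killB Gam K 9 83 7 [p14.l] [(⟨[0, 0, 0, 2], [0, 0, 0, 2],
  true, 0⟩, [0, 0, 1]), (⟨[0, 0, 0, 0, 0, 2], [0, 0, 0, 0, 0, 2], true, 0⟩, [0, 0, 0, 0, 1])]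
  [([1], [0, 0, 0, 0, 1]), ([0, 2], [0, 0, 1]), ([0, 2, 2], [1]), ([0, 0, 0, 0, 0, 1], [0, 0, 0,
  0, 0, 0, 1])] [[0, 1], [0, 0, 2, 0, 1], [0, 0, 1], [], [0, 0, 0, 1], [], [1]] && (nzB Gam K 14
  84 7 p14.l p14.A p14.r ([], []) && (valB Gam K 6 79 7 p18.x p18.dx && (valB Gam K 10 79 8 p18.y
  p18.dy && (killB Gam K 13 84 8 [p18.l] [(⟨[0, 0, 2, 2], [0, 0, 0, 2], true, 0⟩, [1]), (⟨[1, 0,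
  1], [0, 2, 1, 2], true, 0⟩, [0, 1]), (⟨[2], [2, 2, 1, 2], true, 0⟩, [0, 0, 1])] [([0, 1, 0, 1],
  [0, 0, 0, 0, 0, 0, 1]), ([0, 0, 2], [0, 0, 0, 0, 1]), ([0, 0, 0, 0, 0, 1], [0, 0, 0, 0, 0, 1]),
  ([0, 0, 0, 0, 0, 0, 2], [0, 0, 0, 0, 0, 0, 0, 1])] [[], [0, 0, 1, 0, 1], [], [], [0, 0, 1], [0,
  1], [0, 0, 0, 1], [1]] && (nzB Gam K 18 85 8 p18.l p18.A p18.r ([], [])))))))))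

theorem chk : run Gam fin der [] = true := by decide +kernel

end Vale.Agent.P236K.Core.D5D
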