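import Vale.Agent.P236K.Core.Glue
import Vale.Agent.P236K.Core.D5Data

/-!
# P236K, block Core: the output of the certificate for the fifth differential
-/

namespace Vale.Agent.P236K.Core.D5D

open D5

/-- the output at the level `14` -/
def o14 : Lvl := ⟨p14.x, p14.y, p14.z, p14.dx, p14.dy, p14.l, p14.A, p14.r⟩

/-- the output at the level `18` -/
def o18 : Lvl := ⟨p18.x, p18.y, p18.z, p18.dx, p18.dy, p18.l, p18.A, p18.r⟩

/-- **The output of the certificate.** -/
theorem out (S : Sys) (H : Gam.Ok S) :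
    S.Kill 5 82 E10 ∧ o14.Ok S 4 81 9 83 ∧ o18.Ok S 6 79 13 84 := by
  obtain ⟨K, hK, h⟩ := run_sound H Kn.nil chk
  simp only [fin, Bool.and_eq_true] at h
  obtain ⟨h1, h2, h3, h4, h5, h6, h7, h8, h9⟩ := h
  exact ⟨hK.kill H h1, ⟨hK.val H h2, hK.val H h3, hK.kill H h4, hK.nz H h5⟩,
    ⟨hK.val H h6, hK.val H h7, hK.kill H h8, hK.nz H h9⟩⟩

end Vale.Agent.P236K.Core.D5D
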