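import Vale.Agent.P236K.Core.RowS

/-!
# P236K, block Core: the matrices of the operators (generated)
-/

set_option maxRecDepth 100000

namespace Vale.Agent.P236K.Core.LD

/-- matrices -/
def L2_0 : Rows :=
  [(2, 2, 7, [[1]]), (5, 2, 7, [[1]])]

/-- matrices -/
def L2_1 : Rows :=
  [(1, 2, 15, [[0, 1], [1, 1]]), (2, 2, 15, [[1], [0, 2]]), (5, 2, 15, [[2, 1, 0, 1], [0, 0, 1,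
  2]])]

/-- matrices -/
def L2_2 : Rows :=
  [(2, 2, 21, [[2, 2], [0, 1, 1], [1, 2, 2]]), (5, 2, 21, [[2, 2, 2, 0, 0, 1], [1, 0, 1, 2, 1, 1],
  [2, 1, 2, 1, 2]])]

/-- matrices -/
def L2_6 : Rows :=
  [(2, 2, 60, [[0, 0, 0, 1], [2, 1, 2, 1, 2]])]

/-- matrices -/
def L3_1 : Rows :=
  [(2, 3, 14, [[1]]), (5, 3, 14, [[1]]), (0, 3, 15, [[0, 1]]), (1, 3, 15, [[1]]), (2, 3, 16, [[2,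
  1], [0, 2]])]

/-- matrices -/
def L3_2 : Rows :=
  [(1, 3, 23, []), (4, 3, 23, [[0, 0, 0, 0, 0, 2]]), (2, 3, 25, [[1]]), (5, 3, 25, [[2, 2]]), (2, 3,
  27, [[2, 0, 2]]), (3, 3, 27, [[0, 1]]), (5, 3, 27, [[2, 0, 1]])]

/-- matrices -/
def L3_3 : Rows :=
  [(2, 3, 33, [[2, 0, 1]]), (5, 3, 33, [[0, 1, 2, 2]]), (1, 3, 35, []), (4, 3, 35, [[0, 0, 0, 0,
  2]]), (2, 3, 39, [[1, 1, 1, 1]]), (5, 3, 39, [[0, 1, 2]])]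

/-- matrices -/
def L3_4 : Rows :=
  [(2, 3, 45, [[0, 1, 2], [1, 1, 1]]), (5, 3, 45, [[0, 2, 2], [0, 0, 2]])]

/-- matrices -/
def L3_5 : Rows :=
  [(2, 3, 51, [[1], [0, 0, 1]]), (5, 3, 51, [[0, 1, 1], [1]]), (2, 3, 57, [[0, 2, 2], [1]]), (5, 3,
  57, [[0, 0, 0, 1], [0, 0, 2]])]

/-- matrices -/
def L4_1 : Rows :=
  [(2, 4, 10, [[1]]), (2, 4, 18, [[1], [0, 1], [0, 0, 1]])]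

/-- matrices -/
def L4_2 : Rows :=
  [(1, 4, 20, [[0, 1]]), (2, 4, 20, [[2, 1]]), (5, 4, 20, [[0, 2, 2]]), (2, 4, 24, [[1, 1], [0, 1],
  [0, 0, 0, 1], [0, 0, 2]]), (0, 4, 25, [[0, 0, 1]]), (3, 4, 25, [[0, 1]]), (2, 4, 26, [[1], [0, 1],
  [0, 0, 1]])]

/-- matrices -/
def L4_4 : Rows :=
  [(0, 4, 41, [[0, 0, 0, 0, 1]]), (1, 4, 41, [[1, 2], [0, 0, 0, 1]])]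

/-- matrices -/
def L4_6 : Rows :=
  [(0, 4, 62, [[0, 0, 0, 1], [0, 0, 0, 0, 1]]), (3, 4, 62, [[0, 1, 0, 2, 0, 1], [0, 0, 0, 2, 2]]),
  (2, 4, 63, [[0, 1, 1, 1], [0, 0, 2, 0, 1, 1], [0, 0, 2, 0, 1, 1], [0, 0, 0, 0, 2, 2], [0, 0, 0,
  1]]), (1, 4, 64, [[2, 0, 0, 1, 2, 1], [0, 0, 0, 0, 2], [2, 0, 0, 1, 0, 1]]), (2, 4, 64, [[2, 0, 0,
  0, 2, 1], [2, 1, 0, 0, 2, 2], [0, 2, 1, 0, 1, 1], [0, 0, 0, 0, 1]]), (3, 4, 64, [[0, 2, 0, 2, 0,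
  1, 2], [0, 2, 1, 1], [0, 0, 2, 1, 0, 0, 2], [0, 0, 0, 0, 0, 0, 1]]), (0, 4, 68, [[0, 0, 0, 0, 0,
  0, 1]]), (2, 4, 68, [[0, 0, 1, 1]]), (2, 4, 69, [[1, 0, 0, 1, 0, 1], [0, 1, 1, 1], [0, 0, 0, 2, 0,
  1, 1], [0, 2, 0, 1, 0, 1], [0, 0, 2], [0, 1, 0, 1, 0, 2], [0, 0, 0, 0, 0, 1, 1]]), (5, 4, 69, [[2,
  2, 2, 0, 1], [0, 0, 1, 0, 2, 1], [0, 2, 1], [0, 2, 0, 0, 1], [0, 0, 0, 0, 1], [0, 0, 1, 0, 2, 1],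
  [0, 0, 0, 0, 0, 2]])]

/-- matrices -/
def L4_7 : Rows :=
  [(2, 4, 75, [[0, 1, 1, 0, 1, 1], [0, 1, 0, 0, 2], [0, 2, 1], [0, 0, 0, 0, 0, 1]]), (5, 4, 75, [[0,
  0, 1, 2, 0, 1, 2], [0, 0, 1, 2, 0, 0, 2], [0, 0, 1, 1], [0, 0, 0, 0, 0, 0, 1]])]

/-- matrices -/
def L4_8 : Rows :=
  [(0, 4, 81, [[], [], [], [], [], [0, 0, 0, 1]]), (2, 4, 81, [[0, 0, 0, 1, 0, 2, 2], [0, 0, 0, 2,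
  0, 1], [0, 2, 2, 0, 0, 0, 1], [0, 0, 1], [0, 1, 2, 0, 0, 0, 1], [0, 0, 0, 0, 0, 0, 1]])]

/-- matrices -/
def L5_1 : Rows :=
  [(2, 5, 17, [[1]])]

/-- matrices -/
def L5_2 : Rows :=
  [(0, 5, 20, [[0, 1]]), (4, 5, 20, [[0, 2, 1]]), (0, 5, 22, [[1]]), (4, 5, 22, [[0, 1]]), (2, 5,
  28, [[1], [0, 1]]), (5, 5, 28, [[0, 1], [1]])]

/-- matrices -/
def L5_3 : Rows :=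
  [(2, 5, 30, [[1], [], [2, 2]]), (2, 5, 34, [[2, 1], [1, 1]]), (5, 5, 34, [[2]]), (2, 5, 36, [[0,
  0, 2], [1, 0, 1], [2, 2]])]

/-- matrices -/
def L5_4 : Rows :=
  [(2, 5, 40, [[1, 1]]), (5, 5, 40, [[1]]), (2, 5, 42, [[1, 0, 0, 2], [1, 0, 0, 2], [2, 0, 1, 1],
  [0, 0, 0, 1]]), (2, 5, 48, [[2], [0, 1]])]

/-- matrices -/
def L5_5 : Rows :=
  [(2, 5, 54, [[0, 0, 1], [], [0, 1]]), (0, 5, 59, [[], [0, 1], [0, 0, 1]]), (1, 5, 59, [[0, 0, 0,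
  1], [0, 0, 0, 2], [2, 2, 0, 1]]), (4, 5, 59, [[0, 0, 0, 0, 2, 2], [0, 0, 0, 0, 0, 2], [0, 2, 2, 2,
  2]])]

/-- matrices -/
def L5_6 : Rows :=
  [(2, 5, 60, [[0, 1], [], [0, 0, 0, 1]]), (1, 5, 64, [[1]]), (4, 5, 64, [[0, 1]]), (2, 5, 65, [[0,
  1], [1, 0, 2, 0, 2, 2], [0, 2, 0, 1, 0, 2], [0, 1], [0, 1, 0, 0, 1, 2], [0, 0, 0, 0, 0, 1]]), (2,
  5, 66, [[0, 2, 1, 2], [], [0, 0, 1], [0, 0, 0, 0, 1]]), (2, 5, 67, [[2, 0, 1, 0, 0, 0, 1, 2, 2],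
  [0, 1, 1, 0, 1, 0, 1, 2, 1], [0, 0, 0, 0, 1, 1, 2, 1, 2], [0, 0, 0, 0, 1, 0, 1, 1, 1], [0, 0, 1,
  0, 0, 0, 1, 2], [0, 0, 0, 0, 0, 0, 2, 1, 2], [0, 0, 0, 0, 0, 0, 0, 1]])]

/-- matrices -/
def L5_7 : Rows :=
  [(1, 5, 70, [[1, 2]]), (2, 5, 70, [[2, 0, 2], [0, 0, 0, 1, 1], [0, 0, 0, 0, 1]]), (3, 5, 70, [[1,
  1, 0, 0, 0, 2, 2, 2], [0, 0, 0, 0, 0, 0, 0, 1]]), (5, 5, 70, [[1, 2, 0, 2, 1, 0, 0, 2], [0, 0, 0,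
  0, 0, 0, 0, 1], [0, 0, 0, 0, 0, 0, 0, 1]]), (1, 5, 72, [[0, 1, 1, 1, 0, 0, 2, 2, 1], [0, 0, 0, 0,
  0, 0, 0, 2], [0, 0, 0, 0, 0, 0, 0, 1], [0, 0, 0, 0, 0, 2, 2, 1], [0, 0, 0, 0, 0, 0, 2, 1]]), (2,
  5, 72, [[2, 2, 2, 1, 2, 0, 2], [0, 1], [0, 0, 1, 1, 0, 0, 2], [0, 2, 0, 0, 1, 1], [0, 0, 2, 2, 0,
  1], [0, 0, 0, 0, 0, 0, 1], [0, 0, 0, 0, 0, 0, 1]]), (3, 5, 72, [[0, 0, 2, 0, 0, 2, 1], [0, 0, 0,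
  0, 0, 0, 2], [], [0, 0, 0, 1, 0, 1], [0, 0, 0, 0, 0, 1]]), (2, 5, 76, [[0, 0, 0, 0, 0, 0, 2, 2],
  [0, 2, 1, 1, 0, 0, 2], [0, 0, 2, 1, 0, 0, 0, 1], [0, 0, 0, 0, 0, 0, 2, 1], [0, 0, 1, 0, 0, 0, 0,
  1], [0, 0, 0, 0, 0, 0, 0, 2]]), (3, 5, 76, [[2, 1, 1, 2, 0, 2], [0, 1, 0, 0, 0, 2], [2, 0, 0, 0,
  0, 2, 1], [], [0, 0, 0, 0, 0, 0, 2]])]

/-- matrices -/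
def L5_8 : Rows :=
  [(2, 5, 82, [[0, 0, 0, 0, 1], [1, 1, 1, 0, 2, 2, 2, 2, 0, 0, 2], [0, 1, 2, 0, 2, 1, 1, 1, 2], [0,
  0, 0, 1], [0, 0, 0, 0, 0, 0, 0, 0, 0, 0, 1]])]

/-- matrices -/
def L6_1 : Rows :=
  [(2, 6, 13, [[1]])]

/-- matrices -/
def L6_2 : Rows :=
  [(2, 6, 21, [[1], [0, 2], [0, 0, 1]]), (2, 6, 23, [[0, 1], [1, 1]]), (2, 6, 27, [[0, 1], [1, 2],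
  [0, 0, 1], [0, 0, 0, 1]]), (2, 6, 28, [[1], [0, 1]])]

/-- matrices -/
def L6_3 : Rows :=
  [(1, 6, 36, [[2, 2]]), (4, 6, 36, [[0, 2]])]

/-- matrices -/
def L6_4 : Rows :=
  [(1, 6, 47, [[2, 2]]), (2, 6, 47, [[1, 1], [0, 1]]), (5, 6, 47, [[2, 1]])]

/-- matrices -/
def L6_5 : Rows :=
  [(2, 6, 59, [[0, 1, 2]]), (3, 6, 59, [[2, 0, 0, 0, 0, 2]])]

/-- matrices -/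
def L6_6 : Rows :=
  [(2, 6, 60, [[1, 1, 0, 0, 0, 0, 2], [0, 1, 0, 0, 0, 1], [0, 2, 0, 0, 2, 2, 2], [0, 0, 0, 0, 0, 0,
  2]]), (5, 6, 60, [[2, 2, 0, 0, 0, 1, 1], [1, 0, 0, 0, 0, 1, 2], [2, 0, 2, 0, 0, 0, 2], [0, 0, 0,
  0, 0, 0, 1]]), (2, 6, 61, [[0, 1, 1, 2, 0, 1], [2, 0, 2, 2, 1, 2], [0, 1], [0, 0, 0, 0, 0, 2]]),
  (4, 6, 61, [[0, 0, 1, 0, 0, 1], [1, 1, 1, 0, 1, 1]]), (2, 6, 65, [[0, 0, 1, 0, 1], [0, 1, 2, 0,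
  2], [2, 0, 1], [0, 0, 2, 1, 1]]), (3, 6, 65, [[0, 0, 0, 0, 0, 2], [0, 1, 0, 0, 2, 2], [2, 1, 0, 0,
  1, 1], [0, 0, 1]]), (5, 6, 65, [[0, 0, 1, 0, 2], [0, 1, 1, 2, 1], [2, 0, 1, 1, 1], [0, 0, 2, 0,
  2]]), (2, 6, 67, [[1, 2, 2, 2, 2, 1, 1, 2], [0, 1, 1, 2, 1, 2, 1, 2], [0, 0, 0, 0, 0, 1], [0, 0,
  2, 2, 0, 0, 0, 2], [0, 0, 0, 0, 1]]), (5, 6, 67, [[0, 0, 1, 0, 2, 1, 0, 2], [2, 1, 0, 2, 1, 0, 2,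
  1], [0, 0, 2, 0, 0, 0, 1], [2, 0, 0, 0, 1, 0, 1, 2], [0, 0, 2, 0, 1, 0, 0, 2]]), (1, 6, 69, [[0,
  0, 0, 0, 0, 0, 2, 0, 2], [1, 1, 2, 0, 0, 1, 0, 2], [0, 0, 1, 0, 2, 0, 2, 0, 1], [0, 0, 0, 0, 0,
  2], [0, 0, 0, 0, 0, 0, 1, 1, 1], [0, 0, 0, 0, 0, 0, 0, 1], [0, 0, 2, 0, 0, 0, 2]]), (2, 6, 69,
  [[0, 1, 0, 1, 1, 2], [1, 2, 0, 2, 2], [0, 1, 0, 1, 0, 0, 1, 1], [0, 1, 1, 2, 2, 1], [0, 0, 0, 1],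
  [0, 0, 0, 1, 0, 2], [0, 0, 0, 1, 0, 0, 0, 2]]), (5, 6, 69, [[0, 0, 2], [1, 2, 0, 1, 1, 2], [0, 0,
  0, 2, 2, 0, 1], [0, 1, 0, 1], [0, 0, 2], [0, 0, 1], [0, 0, 1, 0, 0, 1, 1]])]

/-- matrices -/
def L6_7 : Rows :=
  [(2, 6, 71, [[1, 0, 2, 1], [0, 0, 2, 2], [0, 2, 1, 1], [0, 2, 0, 1, 1]]), (5, 6, 71, [[0, 0, 1, 1,
  2, 2], [0, 0, 2, 2, 2, 2], [1, 0, 0, 1, 1], [1, 0, 1, 0, 2]]), (0, 6, 72, [[0, 0, 0, 0, 0, 0, 0,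
  1], [], [], [], [0, 0, 0, 0, 0, 0, 0, 0, 1]]), (2, 6, 72, [[0, 0, 1, 0, 2], [1, 0, 2, 0, 0, 2],
  [0, 0, 0, 0, 0, 1], [2, 0, 0, 0, 0, 2], [0, 0, 0, 1, 1, 2], [0, 0, 0, 0, 0, 2], [0, 0, 0, 0, 0,
  2]]), (2, 6, 73, [[1, 0, 2, 2, 1, 2, 0, 1], [1, 0, 1, 0, 2, 2, 0, 1], [0, 0, 0, 1, 2, 0, 0, 2],
  [0, 1, 0, 1, 1], [0, 0, 0, 1, 1, 1, 1, 1], [0, 0, 2, 0, 2, 0, 2, 1], [0, 0, 2, 0, 1, 0, 0, 1], [0,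
  0, 0, 0, 0, 0, 0, 2], [0, 0, 0, 0, 0, 0, 1, 1]]), (2, 6, 75, [[1, 1, 0, 2, 0, 0, 2], [0, 0, 1, 2,
  2, 2], [0, 2, 2, 1], [0, 0, 0, 0, 0, 0, 1], [0, 0, 0, 0, 0, 1, 2], [0, 0, 1], [0, 0, 0, 0, 0, 0,
  1]]), (3, 6, 76, [[0, 0, 0, 0, 0, 0, 1, 1], [0, 0, 0, 0, 0, 0, 0, 1], [2, 0, 2, 0, 2]]), (2, 6,
  78, [[1, 0, 0, 0, 2, 1], [0, 0, 0, 0, 1, 1, 0, 0, 2], [0, 0, 0, 0, 2, 0, 0, 0, 1], [0, 0, 0, 2, 2,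
  2, 1, 0, 2], [0, 0, 0, 0, 0, 0, 0, 0, 1], [0, 0, 0, 0, 0, 0, 0, 0, 1]]), (4, 6, 78, [[0, 0, 0, 0,
  0, 0, 0, 0, 0, 2, 1], [0, 0, 0, 0, 0, 0, 0, 0, 0, 0, 1], [0, 0, 0, 0, 0, 0, 0, 0, 0, 0, 2], [0, 0,
  0, 1]]), (5, 6, 78, [[0, 0, 1, 0, 2, 0, 2], [0, 0, 1, 0, 0, 0, 0, 1], [0, 0, 0, 0, 2, 0, 2, 2],
  [0, 0, 0, 0, 2, 0, 0, 2], [0, 0, 0, 0, 0, 0, 0, 1], [0, 0, 0, 0, 0, 0, 0, 1]]), (2, 6, 79, [[0, 1,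
  1, 0, 0, 1, 0, 1], [0, 2, 2, 2, 0, 2, 2], [2, 1, 2, 1, 0, 0, 2, 2], [2, 2, 2, 0, 0, 1, 1, 1], [1,
  2, 1], [0, 0, 1], [0, 0, 0, 0, 0, 2, 1]])]

/-- matrices -/
def L6_8 : Rows :=
  [(2, 6, 82, [[2, 0, 0, 0, 0, 0, 0, 0, 1, 2], [1, 0, 1, 2, 0, 2, 1, 0, 2, 2], [1, 0, 1, 1, 0, 2, 0,
  2, 2], [0, 0, 0, 0, 0, 1, 0, 0, 2, 1], [0, 0, 0, 0, 0, 0, 0, 0, 1, 1], [0, 0, 0, 0, 0, 0, 0, 0, 0,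
  2]]), (3, 6, 82, [[0, 0, 0, 0, 0, 0, 0, 0, 0, 2, 2], [1, 2, 2, 0, 0, 0, 0, 0, 0, 0, 2], [0, 0, 0,
  2, 0, 0, 0, 0, 0, 0, 2], [0, 0, 0, 0, 0, 0, 0, 0, 0, 0, 2]])]

/-- matrices -/
def L7_1 : Rows :=
  [(1, 7, 16, [[2]]), (5, 7, 16, [[1], [2, 1]])]

/-- matrices -/
def L7_2 : Rows :=
  [(2, 7, 20, [[1]]), (2, 7, 22, [[1], [0, 1]]), (5, 7, 22, [[1], [0, 0, 1]])]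

/-- matrices -/
def L7_3 : Rows :=
  [(2, 7, 31, [[1], [0, 1]]), (2, 7, 33, [[1], [2, 1]]), (2, 7, 37, [[1], [2, 1]]), (2, 7, 39, [[1],
  [0, 2]])]

/-- matrices -/
def L7_4 : Rows :=
  [(2, 7, 42, [[1], [0, 1]]), (5, 7, 42, [[0, 1], [1]]), (2, 7, 43, [[1], [0, 0, 1]]), (2, 7, 45,
  [[], [2, 1], [1, 1, 2], [0, 0, 1]]), (2, 7, 48, [[1], [1, 1]]), (2, 7, 49, [[1], [0, 1, 1]]), (5,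
  7, 49, [[0, 0, 1, 2], [1, 0, 1, 1]])]

/-- matrices -/
def L7_5 : Rows :=
  [(2, 7, 51, [[], [0, 1, 2], [2, 2]]), (1, 7, 56, [[0, 0, 0, 0, 0, 1], [0, 1, 1, 0, 0, 2]]), (4, 7,
  56, [[0, 0, 0, 0, 0, 0, 1], [2, 1]]), (2, 7, 57, [[0, 1, 0, 1, 1], [1, 1, 1, 0, 1], [0, 0, 0,
  1]]), (2, 7, 58, [[0, 0, 1, 2], [0, 1, 1], [0, 0, 1, 0, 1], [0, 0, 0, 0, 1], [0, 0, 0, 0, 1]]),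
  (3, 7, 58, [[2, 1, 0, 2], [0, 0, 1, 2], [0, 0, 2]])]

/-- matrices -/
def L7_6 : Rows :=
  [(2, 7, 61, [[0, 1, 2], [0, 0, 0, 1]]), (2, 7, 62, [[0, 1], [2], [0, 1, 0, 0, 1, 0, 2], [0, 2, 2,
  0, 0, 0, 2], [0, 0, 1, 1, 2]]), (2, 7, 63, [[0, 0, 2], [0, 0, 0, 2, 0, 2], [1, 2, 1], [0, 0, 0, 0,
  1]]), (0, 7, 69, [[0, 0, 0, 0, 0, 1], [0, 0, 0, 0, 0, 0, 1], [0, 0, 0, 0, 0, 0, 0, 1], [0, 0, 0,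
  0, 0, 0, 0, 0, 1]]), (2, 7, 69, [[1, 2, 2, 2, 2], [0, 0, 0, 1, 0, 0, 1], [0, 1, 0, 1, 0, 0, 2],
  [0, 1, 1, 1, 1, 0, 1], [0, 0, 0, 0, 0, 1]]), (4, 7, 69, [[2, 2, 1, 0, 1, 1, 0, 2], [0, 0, 1, 0, 2,
  0, 2], [0, 0, 1, 0, 2, 0, 0, 1], [0, 0, 2, 0, 2]]), (5, 7, 69, [[1, 1, 1, 0, 2, 2, 2], [0, 0, 0,
  2, 0, 2, 0, 2], [0, 0, 0, 0, 1, 2, 0, 1], [0, 0, 0, 1, 1, 0, 0, 2], [0, 0, 0, 0, 0, 0, 1]])]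

/-- matrices -/
def L7_7 : Rows :=
  [(4, 7, 71, [[0, 0, 1, 2, 0, 0, 2]]), (2, 7, 73, [[2, 0, 0, 0, 0, 1], [0, 2, 1, 0, 0, 2], [0, 0,
  2, 0, 1, 2], [0, 0, 0, 2, 2], [0, 0, 0, 0, 0, 1]]), (2, 7, 75, [[0, 1, 2, 0, 1, 2, 2, 1], [2, 0,
  0, 0, 0, 0, 1], [2, 0, 0, 0, 1, 0, 2], [1, 0, 0, 2, 2, 0, 2], [0, 0, 0, 2, 0, 0, 2], [0, 0, 0, 2,
  1, 2, 1, 1], [0, 0, 0, 0, 0, 0, 1]]), (4, 7, 75, [[2, 1, 0, 1, 0, 2, 2, 2], [0, 0, 0, 0, 0, 2, 1],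
  [0, 0, 0, 0, 0, 2], [0, 0, 0, 0, 0, 1], [], [0, 0, 1]]), (1, 7, 79, [[0, 0, 0, 0, 1, 2], [0, 0, 0,
  0, 0, 2], [], [0, 0, 1, 1, 1], [], [0, 0, 0, 1, 0, 2], [0, 0, 0, 0, 1]]), (2, 7, 79, [[0, 2, 0, 0,
  1, 2, 1, 0, 0, 1], [0, 0, 1, 0, 2, 1, 2, 0, 1, 2], [0, 2, 0, 0, 0, 0, 0, 0, 0, 1], [0, 1, 0, 2, 0,
  1, 1, 0, 2], [0, 2, 0, 0, 2, 2, 0, 0, 0, 1], [0, 0, 0, 0, 2, 2, 1, 0, 2, 1], [0, 0, 0, 0, 1, 0, 0,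
  0, 2], [0, 0, 0, 0, 0, 0, 0, 0, 2]])]

/-- matrices -/
def L7_8 : Rows :=
  [(2, 7, 80, [[2, 1, 2, 2, 2, 2], [1, 0, 2, 2, 2], [0, 0, 2], [0, 0, 0, 0, 2]]), (2, 7, 85, [[1, 1,
  1, 0, 0, 2, 2, 1], [2, 2, 1, 2, 0, 2, 2, 2], [0, 1, 0, 1, 0, 0, 1, 1], [0, 1, 0, 1, 0, 0, 1], [1,
  2, 0, 0, 0, 2, 1, 1], [0, 2, 0, 1, 0, 0, 0, 1], [1, 2, 0, 2, 2, 2, 2], [1, 2, 0, 2, 2, 2, 0, 2],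
  [0, 0, 0, 0, 0, 0, 2, 1], [0, 0, 0, 0, 0, 2, 0, 2], [0, 0, 0, 0, 0, 0, 0, 2]])]

/-- matrices -/
def L8_1 : Rows :=
  [(0, 8, 16, [[1]]), (1, 8, 16, [[1]])]

/-- matrices -/
def L8_2 : Rows :=
  [(1, 8, 24, [[0, 1], [2], [0, 1]]), (4, 8, 24, [[0, 2, 1], [2, 0, 1], [0, 0, 1]]), (2, 8, 26,
  [[1], [0, 1]]), (5, 8, 26, [[0, 2, 2]]), (3, 8, 28, [[0, 1, 2], [0, 0, 1], [0, 0, 2]]), (5, 8, 28,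
  [[0, 1], [0, 2], [0, 1]])]

/-- matrices -/
def L8_3 : Rows :=
  [(1, 8, 30, [[0, 1, 2], [0, 0, 1], [0, 0, 1], [2, 0, 2]]), (2, 8, 34, [[1], [0, 1]]), (5, 8, 34,
  [[2, 1], [1]]), (1, 8, 36, [[0, 2], [1, 1]]), (4, 8, 36, [[0, 0, 2], [1]])]

/-- matrices -/
def L8_4 : Rows :=
  [(2, 8, 40, [[1], [0, 1]]), (5, 8, 40, [[2, 2]]), (2, 8, 46, [[1, 1], [1, 2], [0, 1]]), (5, 8, 46,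
  [[1, 1], [1, 2], [0, 1]])]

/-- matrices -/
def L8_5 : Rows :=
  [(2, 8, 50, [[1, 1], [0, 1]]), (2, 8, 51, [[1, 0, 1], [1, 2, 2], [0, 0, 0, 1]]), (4, 8, 51, [[0,
  2, 0, 1], [1, 0, 1, 1]]), (5, 8, 51, [[2, 0, 1, 1, 1, 0, 2], [2, 0, 1, 0, 0, 2], [0, 0, 0, 0, 0,
  0, 1]]), (2, 8, 52, [[2, 2], [0, 2]]), (5, 8, 52, [[1], [0, 0, 2]]), (2, 8, 56, [[1], [0, 1]]),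
  (5, 8, 56, [[0, 0, 1], [0, 0, 0, 2]]), (1, 8, 57, [[0, 1, 0, 1], [0, 0, 1, 2], [0, 0, 2, 1], [2,
  0, 0, 2], [1, 0, 2]]), (2, 8, 57, [[1, 1, 0, 2, 0, 0, 2], [0, 0, 0, 2, 1], [0, 0, 0, 0, 1], [2, 0,
  0, 0, 0, 1, 1], [0, 0, 0, 0, 0, 2, 2], [0, 0, 0, 0, 0, 0, 1]]), (3, 8, 57, [[0, 0, 2, 1, 1], [0,
  0, 0, 2], [], [1, 0, 2], [2, 0, 2]]), (5, 8, 57, [[1, 2, 0, 0, 2, 0, 0, 2, 0, 2], [2, 1, 0, 0, 0,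
  2, 0, 2, 2, 2], [0, 0, 0, 1], [2, 1, 2, 2, 1, 2, 0, 1, 0, 1], [1, 2, 1, 0, 0, 1, 0, 0, 0, 1], [0,
  0, 0, 0, 0, 0, 0, 0, 0, 2]]), (2, 8, 58, [[1], [0, 0, 1], [0, 0, 2]]), (5, 8, 58, [[0, 0, 1, 0,
  1], [0, 0, 0, 0, 2], [0, 0, 0, 0, 1]])]

/-- matrices -/
def L8_6 : Rows :=
  [(2, 8, 61, [[0, 0, 2, 2, 0, 2], [0, 0, 0, 2, 2, 2], [0, 0, 0, 0, 2, 1], [0, 0, 0, 0, 1, 1]]), (2,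
  8, 62, [[2, 1, 1, 2], [0, 0, 1], [0, 0, 0, 2]]), (2, 8, 63, [[1, 2, 0, 0, 0, 1, 0, 2], [0, 0, 0,
  1, 0, 0, 0, 0, 0, 1], [1, 2, 1, 0, 1, 1, 1, 0, 0, 1], [0, 1, 0, 1, 0, 0, 0, 1, 0, 1], [2, 2, 2, 1,
  0, 1, 0, 1, 0, 1], [0, 0, 0, 0, 0, 0, 0, 2, 1, 2], [0, 0, 0, 0, 0, 0, 0, 0, 0, 2]]), (2, 8, 64,
  [[2, 2, 1, 0, 2, 1], [0, 0, 2, 0, 2], [0, 1, 0, 1, 0, 2], [0, 0, 2, 2, 1], [0, 0, 0, 0, 1, 1], [0,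
  0, 0, 0, 2]]), (2, 8, 68, [[2, 1, 0, 0, 2], [0, 2, 1, 1, 0, 2], [0, 2, 0, 2], [0, 0, 0, 0, 2, 1],
  [0, 2, 0, 0, 0, 2]]), (2, 8, 69, [[1, 0, 0, 2, 2, 0, 0, 2], [2, 1, 0, 2, 0, 0, 0, 1], [0, 0, 2, 2,
  2, 0, 1, 1], [1, 0, 1, 2, 0, 0, 1, 1], [0, 0, 0, 0, 0, 2, 0, 2], [0, 0, 0, 0, 0, 0, 1], [0, 0, 0,
  0, 0, 0, 0, 2]]), (5, 8, 69, [[0, 0, 0, 0, 2], [1, 1, 0, 1, 2, 0, 2, 2, 1], [1, 1, 0, 1, 1, 1, 1,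
  2, 1], [2, 2, 0, 1, 2, 2, 1, 0, 1], [], [0, 0, 0, 0, 0, 0, 0, 0, 1]])]

/-- matrices -/
def L8_7 : Rows :=
  [(2, 8, 70, [[1, 1, 0, 1, 0, 0, 2, 1, 1], [0, 1, 0, 1, 0, 0, 2, 2, 2], [0, 0, 1, 0, 0, 0, 0, 1,
  1], [0, 0, 0, 0, 2, 0, 1, 2, 1], [0, 0, 0, 1, 1], [0, 0, 0, 1, 0, 0, 0, 0, 1], [0, 0, 0, 0, 0, 0,
  0, 0, 2], [0, 0, 0, 0, 0, 0, 0, 0, 1]]), (5, 8, 70, [[1, 2, 1, 0, 2, 1, 1, 1], [1, 1, 1, 0, 2, 1,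
  1, 1], [0, 1, 0, 0, 1, 2], [0, 0, 0, 0, 1, 0, 2], [0, 0, 0, 0, 1, 0, 1, 1], [0, 0, 0, 0, 2, 0, 2,
  2], [0, 0, 0, 0, 0, 0, 0, 1], [0, 0, 0, 0, 0, 0, 0, 2]]), (2, 8, 72, [[1, 2, 0, 2, 0, 2, 0, 1],
  [0, 0, 0, 1, 0, 2, 1], [1, 0, 2, 1, 0, 0, 2], [0, 0, 0, 0, 1], [0, 0, 2, 0, 0, 1, 1], [0, 0, 0, 0,
  0, 2], [0, 0, 0, 0, 1, 0, 2, 2], [0, 0, 0, 0, 0, 0, 0, 0, 2]]), (2, 8, 74, [[1, 0, 1, 0, 0, 0, 2],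
  [0, 0, 1, 1, 0, 0, 2], [0, 0, 1, 0, 2, 1, 2], [0, 0, 0, 0, 2, 2], [0, 0, 0, 0, 2, 2, 1]]), (2, 8,
  75, [[1, 1, 0, 1, 0, 0, 2, 2], [0, 0, 0, 1, 2, 0, 0, 1], [0, 0, 0, 0, 1], [0, 1, 2, 0, 0, 2], [2,
  1, 1, 1, 1, 0, 0, 2], [0, 0, 0, 0, 0, 0, 0, 0, 1]])]

/-- matrices -/
def L8_8 : Rows :=
  [(0, 8, 81, [[], [0, 0, 0, 1], [0, 0, 0, 0, 1], [0, 0, 0, 0, 0, 1], [], [], [0, 0, 0, 0, 0, 0, 1],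
  [0, 0, 0, 0, 0, 0, 0, 1]]), (1, 8, 81, [[0, 0, 0, 0, 0, 0, 0, 0, 2], [0, 2, 2, 0, 0, 0, 2, 0, 2,
  1], [2, 2, 0, 0, 2, 2, 1, 1, 1, 1], [0, 1, 0, 0, 2, 2, 0, 0, 1], [0, 0, 0, 0, 0, 0, 0, 0, 2], [],
  [0, 0, 0, 0, 2, 2, 0, 0, 1, 1], [0, 0, 0, 0, 2, 2, 0, 0, 2]]), (2, 8, 81, [[0, 0, 2, 2, 0, 2, 0,
  1], [0, 2, 0, 2, 0, 0, 2, 0, 2], [1, 2, 2, 0, 1, 0, 0, 2, 1], [2, 1, 0, 0, 2, 0, 1, 0, 1], [0, 0,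
  0, 1, 0, 0, 0, 2], [0, 0, 0, 2, 1, 0, 0, 2], [0, 0, 0, 0, 0, 0, 1], [0, 0, 0, 1, 0, 0, 1, 1, 2],
  [0, 0, 0, 0, 0, 0, 0, 0, 1]]), (3, 8, 81, [[0, 0, 0, 0, 0, 0, 0, 2, 2], [0, 0, 2, 1, 1, 0, 1, 0,
  2], [0, 0, 2, 0, 1, 0, 1, 2], [0, 0, 1, 0, 1, 0, 2, 1], [], [0, 0, 0, 0, 0, 0, 1, 0, 2], [0, 0, 0,
  0, 2], [0, 0, 0, 0, 2, 0, 0, 0, 1]]), (1, 8, 82, [[0, 0, 0, 0, 1], [0, 0, 0, 0, 1], [], [], [0, 0,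
  0, 0, 0, 1]]), (2, 8, 85, [[0, 1, 0, 0, 2, 1, 1, 2, 1], [0, 0, 2, 2, 0, 2, 0, 2, 1], [0, 1, 0, 0,
  2, 1, 1, 1], [2, 1, 2, 0, 1, 0, 1, 2, 1], [2, 0, 0, 0, 2, 2], [0, 0, 0, 0, 0, 0, 2, 2, 1], [0, 0,
  0, 0, 2, 1, 1, 0, 2], [0, 0, 0, 0, 0, 2, 1, 0, 1], [0, 0, 0, 0, 0, 0, 0, 2], [0, 0, 0, 0, 0, 0, 0,
  0, 2]])]

/-- matrices -/
def L9_2 : Rows :=
  [(1, 9, 21, [[1], [1]]), (5, 9, 21, [[1], [1]]), (1, 9, 23, [[2]]), (2, 9, 25, [[1], [0, 1]]), (0,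
  9, 26, [[0, 1]]), (3, 9, 26, [[1, 1]]), (2, 9, 27, [[1], [0, 1]])]

/-- matrices -/
def L9_3 : Rows :=
  [(1, 9, 34, [[2, 0, 1], [0, 0, 1]]), (2, 9, 34, [[1], [0, 1]]), (1, 9, 36, [[], [0, 2]])]

/-- matrices -/
def L9_4 : Rows :=
  [(2, 9, 40, [[1], [0, 1]]), (0, 9, 42, [[], [0, 0, 1]]), (1, 9, 42, [[0, 1], [2, 1]]), (2, 9, 45,
  [[1], [0, 1]]), (2, 9, 46, [[1], [0, 1], [0, 0, 1]]), (1, 9, 48, [[0, 2], [2]])]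

/-- matrices -/
def L9_5 : Rows :=
  [(2, 9, 52, [[1], [0, 2], [0, 0, 1]]), (1, 9, 54, [[0, 1], [], [1, 1]]), (0, 9, 57, [[0, 1], [],
  [], [0, 0, 1], [0, 0, 0, 1]]), (2, 9, 57, [[1, 0, 2, 1, 1, 2], [0, 1], [0, 0, 1], [0, 0, 2, 1, 1],
  [0, 0, 0, 1, 2], [0, 0, 0, 0, 0, 1]]), (3, 9, 57, [[0, 1, 1, 1], [0, 0, 0, 0, 0, 0, 1], [], [0, 0,
  1, 0, 1], [0, 0, 1, 0, 2]]), (4, 9, 57, [[2, 0, 1, 2, 1, 1], [0, 0, 0, 0, 2], [0, 0, 0, 0, 2], [0,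
  1, 2, 1, 2, 1], [0, 1, 0, 2]]), (5, 9, 57, [[0, 0, 0, 2, 0, 1, 1, 1], [2, 2], [1], [0, 0, 1, 0, 0,
  2, 1, 2], [0, 0, 0, 0, 2, 0, 1, 2], [0, 0, 0, 0, 0, 0, 0, 0, 1]])]

/-- matrices -/
def L9_6 : Rows :=
  [(1, 9, 60, [[0, 0, 1], [2, 0, 2]]), (2, 9, 61, [[1, 0, 2, 0, 0, 1], [0, 1, 2], [0, 0, 1, 0, 0,
  2], [0, 0, 1, 2, 0, 2], [0, 0, 0, 0, 0, 1]]), (5, 9, 61, [[0, 2, 2, 2, 1, 1, 2], [0, 0, 0, 0, 0,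
  1, 0, 1], [0, 1, 0, 0, 0, 0, 0, 0, 1], [0, 2], [0, 0, 0, 0, 0, 0, 0, 0, 1]]), (0, 9, 63, [[], [],
  [], [], [0, 0, 1], [0, 0, 0, 1]]), (1, 9, 63, [[0, 0, 0, 0, 2], [0, 0, 0, 0, 2], [0, 0, 0, 0, 0,
  1], [0, 0, 0, 0, 2, 1], [0, 1, 0, 1, 1], [0, 0, 2, 1, 0, 1]]), (2, 9, 63, [[1], [0, 1], [0, 0, 2,
  2, 2, 0, 0, 0, 2], [1, 0, 1], [0, 0, 2, 0, 2, 2, 1, 2, 1], [2, 0, 1, 0, 2, 1], [0, 0, 0, 0, 0, 0,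
  0, 0, 1]]), (3, 9, 63, [[], [0, 0, 0, 0, 0, 0, 0, 0, 0, 1], [0, 0, 0, 0, 0, 0, 0, 1, 2], [], [0,
  0, 0, 0, 0, 2], [0, 0, 0, 1]]), (2, 9, 64, [[1, 2, 2, 2], [0, 2, 1, 1], [0, 0, 2, 2], [0, 0, 1]]),
  (1, 9, 65, [[0, 0, 0, 0, 0, 0, 0, 2, 1, 1], [0, 0, 0, 0, 0, 0, 0, 0, 0, 2], [], [2, 1, 0, 1, 0, 2,
  0, 0, 1, 1], [0, 0, 0, 0, 0, 0, 0, 1, 2], [0, 2, 0, 2, 0, 1, 0, 0, 0, 2]]), (2, 9, 65, [[2, 2, 1,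
  0, 0, 1, 1], [0, 1], [0, 0, 0, 0, 2], [0, 0, 1, 2, 2, 2, 2], [0, 0, 2, 0, 0, 0, 2], [0, 0, 2, 0,
  1, 2, 1]]), (3, 9, 65, [[0, 0, 2, 2], [], [0, 0, 0, 1], [1, 1, 0, 2], [], [0, 1]]), (5, 9, 65,
  [[0, 0, 1, 1, 2, 2, 1, 1, 2], [0, 0, 2, 0, 0, 0, 0, 0, 2], [], [0, 2, 0, 0, 0, 1, 2, 2, 1], [0, 0,
  2, 2, 2, 2, 2, 1, 2], [0, 0, 2, 1, 2, 0, 2, 0, 1]]), (1, 9, 66, [[0, 2, 0, 0, 2, 2], [0, 0, 0, 0,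
  2, 2], [0, 0, 0, 0, 2], [0, 0, 1, 0, 1]]), (0, 9, 69, [[], [], [], [], [], [0, 0, 0, 1], [0, 0, 0,
  0, 1]]), (2, 9, 69, [[2, 1, 1, 0, 1, 1, 0, 1, 0, 0, 2], [0, 1], [0, 1, 0, 0, 0, 2], [0, 1, 0, 0,
  0, 0, 0, 2], [0, 1, 2, 1, 0, 0, 0, 1], [0, 0, 0, 2, 0, 1, 1, 0, 1, 0, 2], [0, 0, 1, 1, 2, 0, 2, 2,
  0, 1, 1], [0, 2, 0, 2, 0, 0, 0, 1], [0, 0, 0, 0, 0, 0, 0, 0, 0, 0, 1]])]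

/-- matrices -/
def L9_7 : Rows :=
  [(2, 9, 70, [[1, 0, 0, 1, 1], [0, 1, 2, 2, 2], [0, 0, 1, 2, 1], [0, 0, 0, 1, 1], [0, 0, 0, 2]]),
  (5, 9, 70, [[2, 0, 0, 0, 0, 2], [2, 0, 1, 0, 2, 0, 1], [0, 0, 0, 0, 1, 1, 1], [0, 0, 0, 0, 0, 2,
  2], [0, 0, 0, 0, 0, 0, 1]]), (2, 9, 72, [[1, 2, 0, 1, 1], [0, 0, 2], [0, 0, 0, 2, 2], [0, 1, 0, 1,
  1], [0, 0, 0, 2, 1], [0, 0, 0, 0, 0, 1]]), (2, 9, 76, [[0, 1, 0, 0, 0, 2, 1], [0, 0, 1, 0, 0, 2,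
  1], [0, 0, 0, 0, 2, 1], [2, 0, 0, 0, 0, 1, 1], [0, 0, 0, 0, 0, 2], [0, 0, 0, 0, 0, 2, 2]]), (4, 9,
  76, [[2, 0, 2, 2], [0, 0, 1, 1, 1], [], [0, 0, 0, 0, 1]]), (5, 9, 76, [[0, 0, 1, 1, 2, 2, 0, 1,
  1], [0, 0, 0, 2, 2, 2, 0, 0, 1], [0, 0, 0, 0, 2, 1], [0, 0, 0, 0, 0, 0, 0, 1, 2], [0, 0, 0, 0, 0,
  0, 0, 2, 1], [0, 0, 0, 0, 0, 0, 0, 2]]), (2, 9, 78, [[1, 0, 1], [0, 0, 0, 2, 2], [0, 0, 0, 0, 2,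
  0, 2, 2], [2], [1, 0, 0, 0, 0, 0, 1, 1], [1, 0, 0, 0, 0, 2, 1, 1], [0, 0, 0, 0, 0, 0, 0, 2]])]

/-- matrices -/
def L9_8 : Rows :=
  [(0, 9, 81, [[], [0, 0, 0, 0, 0, 0, 0, 1], [0, 0, 0, 0, 0, 0, 0, 0, 1], [0, 0, 0, 0, 0, 0, 0, 0,
  0, 1]]), (3, 9, 81, [[0, 0, 0, 0, 0, 0, 0, 0, 1], [0, 0, 1, 1, 0, 0, 0, 2], [0, 0, 0, 2, 0, 0, 0,
  1], [0, 0, 0, 1]]), (4, 9, 81, [[0, 0, 0, 0, 0, 0, 0, 1], [0, 1, 1, 0, 0, 1, 2, 2, 2], [0, 0, 0,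
  0, 0, 0, 1], [0, 0, 0, 0, 1, 0, 0, 0, 1], [0, 0, 0, 0, 0, 0, 0, 1, 2], [0, 0, 0, 0, 0, 0, 0, 0,
  2]]), (0, 9, 82, [[], [], [], [0, 0, 0, 0, 1], [], [], [], [0, 0, 0, 0, 0, 1]]), (1, 9, 82, [[0,
  0, 0, 2, 2, 1], [], [0, 0, 0, 1, 2], [0, 0, 2, 2, 1], [0, 0, 0, 0, 1], [0, 0, 0, 0, 2], [0, 0, 0,
  2, 1], [0, 0, 0, 0, 1, 1]]), (2, 9, 82, [[0, 0, 0, 0, 1, 1, 2, 2, 1], [0, 1, 0, 0, 0, 0, 0, 0, 2],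
  [0, 0, 2, 0, 2, 0, 0, 2], [1, 0, 0, 1, 1, 2, 0, 0, 1], [1, 0, 0, 0, 2, 0, 0, 1, 1], [2, 0, 0, 0,
  0, 1], [0, 0, 0, 0, 0, 2, 0, 2, 1], [0, 0, 0, 0, 0, 0, 1, 1, 1], [0, 0, 0, 0, 0, 0, 0, 1], [0, 0,
  0, 0, 0, 0, 0, 2, 2]]), (1, 9, 83, [[0, 0, 0, 1, 2, 0, 0, 1], [0, 0, 2, 1, 0, 2, 0, 2, 1], [0, 0,
  0, 0, 0, 0, 0, 0, 2]]), (3, 9, 85, [[0, 2, 0, 0, 1, 0, 0, 0, 1], [0, 1, 2, 0, 2, 0, 2, 1, 2], [0,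
  0, 0, 0, 0, 0, 0, 1], [0, 0, 0, 0, 0, 0, 0, 2, 1], [0, 0, 0, 0, 0, 0, 0, 0, 1]])]

/-- matrices -/
def L10_2 : Rows :=
  [(0, 10, 21, [[1]]), (4, 10, 21, [[1, 1]]), (0, 10, 23, [[1]]), (4, 10, 23, [[0, 1]]), (1, 10, 29,
  [[0, 1]]), (5, 10, 29, [[0, 2, 2]])]

/-- matrices -/
def L10_3 : Rows :=
  [(5, 10, 35, [[1], [], [2]])]

/-- matrices -/
def L10_4 : Rows :=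
  [(2, 10, 41, [[1]]), (5, 10, 41, [[1]]), (2, 10, 49, [[1, 1], [0, 2]])]

/-- matrices -/
def L10_5 : Rows :=
  [(2, 10, 53, [[1], [0, 1]]), (2, 10, 54, [[1, 1], [1, 1, 1], [1], [0, 0, 0, 1]]), (2, 10, 59,
  [[1], [0, 1]])]

/-- matrices -/
def L10_6 : Rows :=
  [(0, 10, 60, [[], [], [], [], [], [0, 0, 1]]), (1, 10, 60, [[0, 0, 2], [0, 1, 0, 2], [0, 0, 1],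
  [0, 0, 0, 2], [0, 0, 0, 1], [2]]), (2, 10, 60, [[1, 0, 0, 0, 1, 2], [2, 1], [0, 0, 0, 0, 2], [1,
  0, 1], [0, 0, 0, 0, 1, 1], [2, 0, 2, 1], [0, 0, 0, 0, 0, 0, 1]]), (4, 10, 60, [[0, 0, 2, 1], [0,
  0, 1, 2], [0, 0, 1, 2], [0, 0, 2], [0, 0, 1], [0, 2]]), (2, 10, 61, [[0, 1], [1, 0, 1], [0, 0,
  1]]), (5, 10, 61, [[0, 0, 0, 1, 1], [0, 2], [0, 0, 0, 0, 0, 2]]), (0, 10, 65, [[0, 0, 0, 0, 0, 0,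
  0, 1], [0, 0, 0, 0, 0, 0, 0, 0, 1], [], [0, 0, 0, 0, 0, 0, 0, 0, 0, 1]]), (1, 10, 65, [[1, 2, 0,
  0, 1, 0, 1, 0, 2], [1, 2, 1, 2, 0, 0, 1, 0, 2], [0, 0, 0, 0, 0, 0, 0, 0, 1], [1, 2, 0, 0, 0, 0, 0,
  0, 1]]), (4, 10, 65, [[0, 1, 2, 2, 1, 2, 0, 1, 0, 0, 2], [0, 2, 0, 2, 1, 1, 0, 2], [0, 0, 0, 0, 0,
  0, 0, 0, 0, 0, 2], [0, 0, 0, 1, 0, 0, 0, 1, 0, 0, 2]]), (2, 10, 66, [[1, 0, 0, 2], [0, 0, 0, 1,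
  2], [0, 0, 1, 1, 1], [0, 0, 0, 0, 2, 2, 0, 1], [0, 0, 0, 2, 2, 1, 0, 2], [0, 0, 0, 1, 1], [0, 1,
  0, 1, 1, 2, 0, 1], [0, 0, 0, 0, 0, 1], [0, 0, 0, 0, 0, 0, 1, 1], [0, 0, 0, 0, 0, 0, 0, 1]]), (2,
  10, 67, [[1, 1, 2, 2, 2, 2], [0, 0, 0, 1], [0, 0, 0, 1, 1, 2], [0, 0, 2, 0, 0, 1], [0, 0, 0, 0, 0,
  1]]), (2, 10, 68, [[1], [0, 0, 2, 1], [0, 1, 1, 2], [0, 0, 0, 2]])]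

/-- matrices -/
def L10_7 : Rows :=
  [(1, 10, 71, [[2, 0, 2, 0, 1, 1, 0, 0, 0, 0, 2], [], [0, 0, 2, 0, 0, 0, 0, 1], [0, 0, 0, 0, 0, 0,
  0, 0, 0, 0, 2], [0, 0, 0, 2, 0, 0, 0, 2], [0, 0, 0, 0, 0, 0, 0, 0, 0, 0, 1]]), (2, 10, 71, [[1, 0,
  1, 2, 0, 1], [0, 0, 0, 0, 1], [0, 0, 1, 0, 2, 1, 0, 1], [0, 1, 0, 1], [0, 1, 0, 0, 1, 1, 2, 1],
  [0, 1, 0, 0, 0, 1]]), (3, 10, 71, [[1, 0, 2, 1, 2, 1, 2, 1], [0, 0, 0, 0, 0, 0, 0, 1], [0, 0, 2,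
  1, 1, 1, 1, 1, 2], [0, 0, 0, 0, 0, 0, 0, 0, 1], [0, 0, 2], [0, 0, 0, 0, 0, 0, 0, 0, 1]]), (5, 10,
  71, [[2, 0, 2, 0, 2, 2, 0, 2], [], [0, 1, 0, 0, 1, 2], [0, 0, 2, 0, 2, 1, 1], [], [0, 0, 0, 0, 0,
  0, 2]]), (2, 10, 72, [[0, 1, 2, 0, 0, 0, 0, 1], [1, 1, 2, 0, 0, 0, 2], [2, 2, 2, 1, 0, 0, 0, 1],
  [0, 0, 2], [0, 0, 0, 0, 0, 0, 0, 2], [0, 0, 0, 0, 0, 1, 1], [0, 0, 0, 0, 0, 0, 1, 1], [0, 0, 0, 0,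
  0, 0, 0, 1]]), (1, 10, 73, [[0, 0, 1, 0, 2, 2, 0, 2, 1], [], [0, 0, 0, 0, 0, 0, 0, 0, 1], [], [],
  [0, 0, 1, 1, 2], [0, 0, 0, 0, 0, 0, 0, 1]]), (2, 10, 73, [[1, 0, 1, 0, 1, 2, 2, 2], [1, 1, 0, 0,
  1, 2, 1], [0, 0, 0, 0, 1, 2, 1, 1, 2], [0, 0, 0, 0, 0, 2, 1, 1, 2], [0, 0, 0, 0, 0, 2, 2, 2, 1],
  [2, 2, 0, 1, 0, 0, 0, 0, 1], [0, 0, 0, 0, 0, 1, 2, 1, 2], [0, 0, 0, 0, 0, 2, 1, 1, 1], [0, 0, 0,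
  0, 0, 0, 0, 0, 1]]), (3, 10, 73, [[0, 1, 2, 1, 2], [0, 0, 0, 0, 0, 1, 2, 1], [0, 0, 0, 0, 0, 0,
  1], [0, 0, 0, 0, 0, 0, 1], [0, 0, 0, 0, 0, 0, 0, 1], [0, 2, 0, 0, 1], [0, 0, 0, 0, 0, 0, 0, 1],
  [0, 0, 0, 0, 0, 0, 1]]), (2, 10, 75, [[2, 0, 1, 1, 1, 1], [0, 1, 2, 0, 0, 2, 2, 2, 0, 1], [0, 0,
  0, 0, 0, 2, 0, 1], [0, 0, 0, 2, 1, 0, 1], [0, 0, 0, 0, 0, 2, 2], [0, 0, 0, 0, 0, 0, 2], [0, 0, 0,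
  1, 1, 2, 2], [0, 0, 0, 1, 1, 1, 2, 0, 2, 2], [0, 0, 0, 0, 0, 0, 0, 0, 1]]), (2, 10, 77, [[1, 0, 0,
  0, 2, 2, 0, 1], [1, 0, 0, 0, 1, 0, 0, 1], [0, 0, 1, 0, 2, 2, 1], [0, 1, 2, 0, 2], [0, 0, 0, 0, 2,
  0, 1], [0, 0, 0, 0, 1, 0, 1, 1], [0, 0, 0, 0, 0, 0, 0, 1]]), (3, 10, 77, [[0, 0, 0, 0, 2, 2], [0,
  0, 0, 0, 2, 2, 1], [], [0, 0, 2, 2, 1, 2], [0, 0, 0, 0, 0, 2], [0, 0, 0, 0, 0, 2]]), (1, 10, 78,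
  [[0, 0, 0, 0, 0, 0, 1], [0, 0, 0, 0, 0, 0, 2], [1, 0, 0, 0, 0, 2, 1], [0, 0, 0, 0, 0, 2, 1], [0,
  0, 0, 0, 0, 2, 2], [0, 0, 0, 0, 1, 0, 1], [0, 0, 0, 0, 0, 0, 2]]), (2, 10, 78, [[0, 0, 2, 0, 0, 0,
  0, 1], [1, 0, 0, 0, 0, 0, 0, 2], [2, 1, 0, 0, 0, 2, 0, 1], [0, 0, 1, 0, 0, 2], [0, 0, 0, 0, 0, 2],
  [0, 0, 2, 0, 1, 2], [0, 0, 1], [], [0, 0, 0, 0, 0, 0, 1]]), (1, 10, 79, [[0, 0, 0, 0, 2, 2], [0,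
  0, 0, 0, 0, 1], [0, 0, 0, 0, 1], [0, 0, 0, 1, 1, 2]])]

/-- matrices -/
def L10_8 : Rows :=
  [(0, 10, 82, [[0, 0, 0, 1], [0, 0, 0, 0, 1], [], [0, 0, 0, 0, 0, 1]]), (2, 10, 83, [[1, 0, 1], [0,
  1, 1, 0, 1, 1], [0, 0, 0, 1, 0, 2, 1], [0, 0, 0, 0, 0, 2, 2], [0, 0, 0, 0, 1, 0, 2], [0, 0, 0, 0,
  2, 0, 1]]), (1, 10, 84, [[0, 0, 2, 0, 1, 0, 0, 2], [0, 1, 2, 0, 1, 0, 0, 2, 1], [0, 0, 0, 0, 0, 0,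
  1, 2, 1], [0, 0, 0, 0, 0, 0, 0, 2, 2], [0, 0, 0, 0, 0, 0, 0, 2, 1], [0, 0, 0, 0, 0, 0, 2, 0, 2],
  [0, 0, 0, 0, 1, 2, 0, 2, 1], [0, 0, 0, 0, 0, 0, 0, 0, 2]]), (2, 10, 84, [[1, 1, 0, 0, 2, 1, 2, 2],
  [1, 1, 0, 0, 0, 2, 0, 2, 2], [2, 0, 1, 0, 1], [0, 0, 0, 0, 1, 0, 2], [2, 0, 2, 1, 1, 0, 2, 0, 2],
  [2, 0, 2, 0, 1], [1, 0, 1, 2, 2, 0, 1, 2, 2], [0, 0, 0, 0, 0, 0, 2], [0, 0, 0, 0, 0, 0, 0, 0,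
  1]])]

/-- matrices -/
def L11_3 : Rows :=
  [(1, 11, 37, [[2, 0, 1], [0, 0, 1]]), (4, 11, 37, [[1], [2]])]

/-- matrices -/
def L11_4 : Rows :=
  [(1, 11, 43, [[2]]), (1, 11, 48, [[2, 2], [0, 0, 0, 1]]), (2, 11, 48, [[1], [0, 1]]), (5, 11, 48,
  [[0, 1], [1]]), (1, 11, 49, [[1]])]

/-- matrices -/
def L11_5 : Rows :=
  [(2, 11, 55, [[1], [0, 2, 2], [0, 0, 1]]), (4, 11, 56, [[0, 2, 1], [0, 0, 0, 0, 0, 0, 2]])]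

/-- matrices -/
def L11_6 : Rows :=
  [(2, 11, 60, [[1, 0, 0, 1], [0, 1], [0, 0, 0, 1], [0, 0, 2], [0, 0, 0, 1, 1], [0, 0, 0, 0, 0,
  1]]), (3, 11, 60, [[0, 1, 1, 0, 2, 2], [0, 0, 0, 0, 0, 0, 1], [], [0, 0, 0, 0, 2], [0, 0, 0, 0, 1,
  1]]), (2, 11, 61, [[1], [0, 1], [0, 0, 2], [0, 0, 0, 1]]), (5, 11, 61, [[2, 1, 1], [0, 1, 1], [0,
  0, 1], [0, 1]]), (2, 11, 62, [[1], [1, 2], [0, 0, 1], [2, 0, 1, 1]]), (4, 11, 62, [[0, 0, 0, 0, 0,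
  0, 0, 2], [2, 0, 0, 1, 0, 2], [0, 0, 0, 0, 0, 1, 0, 2], [0, 0, 0, 0, 0, 0, 0, 1]]), (2, 11, 64,
  [[1, 2, 0, 2, 0, 2], [0, 0, 1], [0, 1, 1, 0, 0, 1], [0, 0, 0, 0, 1], [0, 0, 0, 1, 0, 1], [0, 0, 0,
  0, 0, 1]]), (2, 11, 66, [[1, 0, 0, 2], [0, 1], [1, 0, 0, 1], [2, 0, 1, 2], [0, 0, 0, 0, 1], [1, 0,
  0, 0, 1, 1], [0, 0, 0, 0, 0, 0, 0, 1], [1, 0, 0, 2, 0, 1, 2], [0, 0, 0, 0, 0, 0, 0, 1]]), (3, 11,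
  66, [[], [0, 0, 0, 0, 0, 0, 0, 1], [], [0, 1, 0, 0, 0, 0, 1], [0, 2, 0, 0, 0, 2, 0, 1], [0, 2, 0,
  0, 2, 1, 0, 2], [0, 1], [0, 0, 0, 1, 2]]), (5, 11, 66, [[0, 0, 2], [0, 2, 2, 0, 0, 0, 0, 0, 0, 1],
  [0, 0, 1, 0, 0, 1, 0, 0, 0, 1, 2], [0, 1, 2, 0, 1, 0, 0, 0, 0, 2], [0, 2, 0, 0, 0, 0, 0, 0, 0, 1,
  2], [0, 1, 2, 0, 0, 2, 0, 2, 0, 2, 1], [0, 0, 0, 0, 0, 0, 0, 0, 0, 2, 1], [0, 0, 2, 0, 0, 1, 1, 1,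
  2, 1], [0, 0, 0, 0, 0, 0, 0, 0, 0, 2]]), (2, 11, 68, [[2, 0, 1, 1, 0, 1, 2], [0, 1], [0, 0, 1, 2,
  0, 1, 2], [0, 0, 1, 1, 2, 1, 2], [0, 0, 1], [0, 0, 1, 2, 0, 2], [0, 0, 1, 1, 0, 0, 1]]), (5, 11,
  68, [[0, 0, 2, 0, 2, 2, 1], [0, 0, 1, 0, 0, 0, 0, 2], [0, 0, 0, 2, 1, 2, 2, 2], [0, 2, 0, 2, 1, 1,
  0, 2], [], [0, 0, 0, 0, 2, 1, 1], [0, 0, 1, 1, 0, 0, 2, 1, 1]])]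

/-- matrices -/
def L11_7 : Rows :=
  [(1, 11, 70, [[0, 1, 2, 2], [], [0, 0, 2, 2], [0, 0, 0, 2], [], [], [0, 0, 0, 2]]), (2, 11, 70,
  [[1, 2, 0, 0, 2, 2, 0, 1], [0, 1, 0, 0, 0, 0, 2, 1], [0, 2, 2, 0, 0, 1, 0, 1], [0, 2, 0, 0, 1, 0,
  1, 1], [0, 0, 0, 1, 1, 0, 2, 1], [0, 0, 0, 0, 1, 0, 1, 2], [0, 0, 0, 0, 1, 2, 0, 2], [0, 0, 0, 0,
  0, 0, 0, 1], [0, 0, 0, 0, 0, 0, 0, 2]]), (5, 11, 70, [[0, 1, 1, 1, 2, 1, 0, 0, 2], [0, 0, 0, 1, 1,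
  2, 0, 0, 1], [0, 0, 2, 1, 1, 0, 2, 1], [0, 0, 0, 1, 2, 2, 0, 0, 1], [0, 0, 0, 2, 1, 0, 0, 0, 2],
  [0, 0, 0, 1, 2, 1], [0, 0, 0, 0, 1, 1, 0, 0, 2], [0, 0, 0, 0, 0, 2], [0, 0, 0, 0, 0, 0, 0, 0,
  2]]), (1, 11, 72, [[0, 0, 0, 1, 0, 2], [0, 0, 0, 0, 0, 2], [0, 0, 0, 0, 1, 1], [0, 0, 0, 0, 2, 2],
  [0, 0, 1, 2, 2], [0, 0, 2, 2, 2], [2, 0, 2, 1], [0, 0, 0, 0, 1, 1], [1, 1, 2, 0, 2], [0, 0, 0, 0,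
  0, 2]]), (2, 11, 72, [[2, 0, 1, 2, 1], [0, 0, 1], [0, 0, 1, 0, 1, 1, 0, 0, 0, 2, 1], [0, 0, 0, 0,
  0, 1, 0, 0, 0, 1, 2], [0, 1, 1, 1, 2, 1, 2, 0, 0, 2, 1], [0, 0, 1, 1, 1, 0, 1], [0, 1, 1, 2, 2, 0,
  0, 1, 1, 1, 2], [0, 1, 0, 0, 0, 2, 0, 0, 0, 2, 1], [0, 0, 2, 0, 0, 2, 2, 0, 2, 2, 1], [0, 0, 1, 0,
  0, 0, 0, 0, 0, 1, 2], [0, 0, 0, 0, 0, 0, 0, 0, 0, 1]]), (5, 11, 72, [[0, 0, 1, 2, 1, 0, 0, 2, 2,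
  1], [0, 0, 1, 0, 0, 0, 0, 1, 0, 2], [0, 0, 0, 2, 2, 0, 0, 0, 1, 1], [0, 0, 0, 0, 1, 0, 0, 1, 2,
  2], [0, 0, 0, 0, 2, 0, 0, 2, 0, 2], [0, 0, 1, 1, 1, 0, 0, 0, 0, 2], [0, 2, 2, 2, 1, 2, 0, 0, 1],
  [0, 0, 0, 0, 2, 0, 0, 2, 1, 1], [0, 1, 0, 0, 2, 1, 1, 1, 2], [0, 2, 1, 0, 0, 0, 0, 2], [0, 0, 0,
  0, 0, 0, 0, 0, 0, 2]]), (0, 11, 73, [[0, 0, 0, 0, 0, 0, 0, 1], [0, 0, 0, 0, 0, 0, 0, 0, 1]]), (2,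
  11, 73, [[0, 0, 0, 1], [0, 1, 1, 1, 0, 1], [0, 1], [0, 0, 0, 0, 1, 1], [0, 0, 0, 0, 0, 2]]), (2,
  11, 74, [[1, 0, 1, 0, 1, 2, 2, 1], [0, 2, 2, 0, 1, 2], [0, 0, 2, 0, 0, 0, 0, 0, 2], [0, 0, 2, 0,
  1], [0, 0, 2, 1, 1, 0, 0, 0, 2], [0, 0, 1, 2, 2, 2, 0, 0, 1], [0, 0, 0, 0, 0, 0, 1, 2, 2], [0, 0,
  0, 0, 0, 0, 0, 0, 1], [0, 0, 0, 0, 0, 0, 0, 1, 1]]), (2, 11, 75, [[2, 2, 2, 0, 1, 2], [], [0, 0,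
  2, 0, 0, 2], [2, 0, 0, 0, 1], [1, 0, 2, 0, 0, 2], [0, 0, 0, 0, 0, 2]]), (2, 11, 76, [[2, 2, 2, 0,
  1, 1, 2], [0, 0, 0, 1, 1, 1, 0, 0, 2], [0, 1, 2, 0, 1, 0, 2, 1, 1], [0, 0, 0, 0, 2, 2, 0, 0, 1],
  [0, 0, 1, 2, 1, 2, 1, 0, 1], [0, 0, 0, 0, 0, 2, 2, 0, 1], [0, 0, 0, 0, 0, 2, 0, 0, 1], [0, 0, 0,
  0, 0, 1]]), (3, 11, 77, [[0, 0, 0, 0, 2, 0, 0, 1], [0, 0, 0, 0, 2, 0, 0, 2], [0, 0, 1, 0, 1, 2,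
  1]]), (2, 11, 78, [[1, 2, 1, 0, 0, 0, 0, 1, 1, 1], [0, 2, 2, 2, 1, 0, 0, 0, 2, 1], [0, 0, 0, 1, 0,
  0, 0, 2, 0, 2], [0, 0, 2, 0, 0, 0, 0, 2, 0, 1], [0, 0, 1, 0, 2, 0, 0, 2, 2, 1], [0, 0, 2, 0, 1, 0,
  0, 1, 1], [0, 0, 1, 0, 0, 2, 2, 2, 0, 2], [0, 0, 1, 0, 0, 1, 0, 1, 2], [0, 0, 0, 0, 0, 0, 0, 2, 0,
  1], [0, 0, 0, 0, 0, 0, 0, 0, 1], [0, 0, 0, 0, 0, 0, 0, 0, 0, 1]]), (3, 11, 78, [[0, 0, 0, 2], [0,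
  0, 0, 2, 0, 0, 1], [0, 0, 0, 0, 0, 0, 2], [], [], [], [0, 0, 1, 0, 0, 1], [0, 0, 2]]), (1, 11, 79,
  [[], [1, 0, 1, 0, 1, 1, 0, 1], [0, 0, 2, 0, 2, 1], [0, 0, 0, 0, 1, 2]]), (2, 11, 79, [[2, 0, 0, 0,
  0, 0, 1, 2], [0, 0, 2, 0, 1, 0, 0, 2], [0, 0, 0, 0, 1, 1, 2, 1], [0, 0, 0, 0, 0, 1], [0, 0, 0, 2,
  0, 0, 2, 2], [0, 0, 0, 0, 0, 0, 2, 2], [0, 0, 0, 0, 0, 0, 1]]), (4, 11, 79, [[0, 0, 0, 0, 2, 0,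
  1], [2, 0, 2, 2, 0, 2], [0, 0, 0, 1, 1, 1, 2], [1, 0, 0, 1, 1, 2]]), (5, 11, 79, [[0, 0, 0, 0, 0,
  0, 0, 2], [0, 1, 1, 1, 1, 1, 0, 0, 1], [0, 0, 0, 1, 2, 1, 0, 2, 1], [0, 1, 0, 1, 0, 2, 2, 1], [0,
  2, 0, 0, 0, 0, 0, 2, 1], [0, 0, 0, 0, 0, 0, 0, 1, 1], [0, 0, 0, 0, 0, 0, 0, 2]])]

/-- matrices -/
def L11_8 : Rows :=
  [(2, 11, 80, [[2, 2, 2, 0, 0, 0, 1], [0, 0, 1, 2], [0, 2, 2, 0, 1, 1, 2], [0, 1, 0, 0, 2, 1, 2],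
  [0, 0, 0, 0, 2, 1], [0, 0, 0, 0, 0, 1, 1], [0, 0, 0, 0, 0, 0, 1]]), (2, 11, 81, [[1], [1], [], [0,
  2, 2, 2, 1, 2, 1], [0, 2, 0, 2, 1, 1], [0, 0, 0, 0, 0, 2], [0, 0, 0, 0, 1, 0, 1], [0, 0, 0, 0, 0,
  0, 2]]), (2, 11, 83, [[1], [0, 1, 1, 1, 0, 1], [0, 0, 1, 0, 1], [0, 0, 0, 1, 1, 2], [0, 0, 0, 0,
  2]]), (3, 11, 83, [[0, 0, 0, 0, 1, 0, 2], [2, 0, 2, 0, 0, 2], [0, 0, 0, 0, 2, 2], [0, 0, 0, 0, 0,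
  2]])]

/-- matrices -/
def L12_4 : Rows :=
  [(5, 12, 43, [[0, 2, 1], [0, 0, 0, 1]]), (2, 12, 49, [[1], [0, 1], [0, 0, 1], [0, 0, 0, 1]])]

/-- matrices -/
def L12_5 : Rows :=
  [(5, 12, 50, [[0, 2]]), (2, 12, 52, [[1], [0, 1]]), (1, 12, 56, [[1, 2]]), (1, 12, 57, [[0, 0, 2],
  [], [2, 2, 1]]), (2, 12, 57, [[1], [0, 1], [0, 0, 2], [0, 0, 0, 1]]), (4, 12, 57, [[0, 0, 2], [0,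
  2, 2, 1], [2, 0, 1, 2]]), (2, 12, 59, [[0, 2], [1, 2], [0, 1, 1]]), (3, 12, 59, [[0, 0, 2], [],
  [0, 2]])]

/-- matrices -/
def L12_6 : Rows :=
  [(2, 12, 62, [[1], [0, 1]]), (2, 12, 63, [[0, 0, 2, 2, 2], [1, 0, 2, 2, 2], [0, 1, 2, 1, 1], [0,
  1, 1, 0, 1, 2, 1], [0, 0, 1, 0, 2], [0, 0, 0, 1, 1], [0, 0, 0, 0, 0, 0, 1]]), (2, 12, 64, [[1],
  [0, 1], [0, 0, 2]]), (1, 12, 69, [[0, 0, 2], [], [2, 1, 2], [0, 0, 2], [0, 2]])]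

/-- matrices -/
def L12_7 : Rows :=
  [(0, 12, 70, [[0, 1], [0, 0, 1], [0, 0, 0, 1]]), (2, 12, 70, [[1, 0, 1], [0, 1, 0, 0, 2], [0, 0,
  0, 2, 2], [0, 0, 1], [0, 0, 1], [0, 0, 0, 0, 2]]), (4, 12, 70, [[2, 0, 2, 0, 0, 1, 1, 1], [0, 0,
  2, 2, 0, 0, 1, 2, 2], [0, 0, 2, 0, 0, 0, 0, 0, 2], [0, 0, 0, 0, 0, 0, 0, 0, 2], [0, 0, 0, 0, 0, 0,
  0, 0, 1]]), (5, 12, 70, [[0, 1, 2, 2, 1], [2, 1, 0, 1, 2, 0, 1, 1, 2], [0, 0, 0, 0, 0, 2, 0, 1,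
  2], [0, 0, 0, 0, 0, 1, 0, 1], [0, 0, 0, 0, 0, 1, 0, 2], [0, 0, 0, 0, 0, 0, 0, 0, 2]]), (2, 12, 71,
  [[1], [0, 1], [0, 0, 1], [0, 0, 0, 2]]), (1, 12, 72, [[0, 2, 0, 0, 2, 1], [0, 1, 0, 1, 2, 0, 2],
  [], [0, 0, 0, 0, 0, 0, 0, 2], [0, 1, 0, 0, 2, 0, 1, 1], [0, 0, 0, 0, 0, 0, 0, 1], [0, 1, 0, 0, 1,
  0, 0, 2]]), (3, 12, 72, [[0, 1, 1, 0, 0, 1, 2, 0, 0, 2, 2], [0, 0, 2, 2, 1, 1, 0, 0, 0, 1], [0, 0,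
  0, 0, 0, 0, 0, 0, 0, 1], [], [0, 0, 1, 0, 0, 2, 0, 0, 0, 2, 1], [], [0, 0, 2]]), (4, 12, 72, [[0,
  0, 0, 0, 2, 0, 0, 1], [0, 1, 0, 2, 0, 2, 0, 0, 2], [], [0, 0, 0, 0, 0, 0, 0, 0, 2], [0, 0, 0, 0,
  2, 0, 0, 0, 2], [0, 0, 0, 0, 0, 1, 0, 0, 2], [0, 0, 0, 2, 0, 0, 0, 0, 1]]), (1, 12, 74, [[1, 2, 1,
  0, 2, 2, 0, 0, 0, 1], [0, 0, 0, 0, 0, 0, 0, 0, 0, 2, 2], [0, 2, 2, 0, 2, 1, 0, 0, 0, 2], [0, 0, 0,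
  0, 0, 0, 0, 0, 0, 0, 1], [], [0, 0, 0, 0, 0, 0, 0, 0, 0, 2, 1], [0, 0, 0, 0, 0, 0, 0, 0, 0, 0, 2],
  [0, 2, 0, 0, 0, 0, 0, 0, 0, 2, 2]]), (2, 12, 74, [[1, 1, 2, 0, 1, 1, 1], [0, 0, 0, 0, 1, 0, 1],
  [0, 2, 1, 1, 1, 2, 1], [0, 1, 0, 1, 0, 0, 2], [0, 0, 0, 1], [0, 0, 0, 2, 2], [0, 0, 0, 1], [0, 0,
  0, 2, 0, 1]]), (2, 12, 75, [[1, 1, 0, 1, 0, 1, 1], [0, 1], [0, 0, 0, 2, 0, 0, 1], [1, 1, 2, 2, 0,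
  0, 2], [], [0, 0, 0, 0, 1, 2, 1], [0, 0, 0, 0, 0, 1, 2], [0, 0, 0, 0, 0, 0, 1]]), (1, 12, 76, [[0,
  0, 0, 0, 0, 0, 2, 1, 1], [0, 0, 0, 0, 0, 0, 1, 1], [0, 0, 2, 0, 0, 1, 1, 2], [0, 0, 2, 2, 0, 0, 0,
  2, 1], [0, 0, 0, 0, 0, 0, 0, 1, 1], [], [0, 0, 0, 0, 0, 0, 0, 0, 1], [0, 0, 0, 0, 0, 0, 0, 0,
  2]]), (2, 12, 76, [[0, 0, 0, 0, 1, 0, 2, 1], [1, 1, 0, 0, 0, 2, 0, 0, 2], [2, 2, 1, 0, 1, 2, 2,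
  1], [0, 0, 0, 1, 0, 2, 1, 1], [0, 0, 0, 0, 1, 1, 0, 2, 1], [0, 0, 0, 0, 0, 1], [0, 0, 0, 0, 0, 1,
  0, 1], [0, 0, 0, 0, 0, 2, 0, 1], [0, 0, 0, 0, 0, 0, 0, 0, 2]]), (3, 12, 76, [[0, 0, 0, 0, 0, 2, 0,
  2, 2], [0, 0, 0, 0, 0, 0, 2, 1, 2], [0, 2, 0, 2, 1, 1, 0, 0, 2], [0, 0, 1, 1], [], [0, 0, 0, 0, 0,
  0, 0, 0, 1], [0, 0, 0, 0, 0, 2], [0, 0, 0, 0, 0, 0, 0, 0, 2]]), (4, 12, 76, [[0, 0, 0, 0, 0, 2,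
  1], [0, 0, 0, 0, 2, 2, 2], [0, 0, 0, 0, 1, 2, 1], [0, 1, 0, 0, 1, 2, 2], [0, 0, 0, 0, 0, 1, 1]]),
  (1, 12, 78, [[0, 0, 0, 0, 0, 1, 0, 2, 2], [1, 1, 1, 2, 1, 1, 1, 2, 1], [0, 0, 0, 0, 0, 0, 1, 2,
  2], [0, 0, 0, 0, 0, 2, 0, 0, 2], [0, 0, 0, 0, 0, 0, 0, 0, 2], [0, 0, 0, 0, 0, 2, 0, 0, 2], [0, 0,
  0, 0, 0, 2], [0, 0, 0, 0, 0, 0, 0, 0, 1], [0, 0, 0, 2, 0, 0, 0, 0, 1], [0, 0, 0, 0, 2, 0, 0, 0,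
  1]])]

/-- matrices -/
def L12_8 : Rows :=
  [(1, 12, 80, [[0, 0, 0, 0, 0, 0, 0, 1, 0, 2], [0, 0, 0, 1, 0, 0, 0, 2], [], [0, 2, 0, 0, 0, 0, 0,
  1, 1], [0, 0, 0, 0, 0, 0, 0, 2, 1, 1], [0, 0, 0, 0, 0, 0, 0, 2, 1, 1], [0, 0, 0, 0, 0, 0, 0, 0, 0,
  1], [0, 0, 0, 0, 0, 0, 0, 1, 1, 2]]), (2, 12, 80, [[0, 2, 1, 2, 2], [2, 0, 0, 1, 0, 2, 2], [0, 1,
  0, 1, 1, 0, 2], [0, 0, 0, 2, 1, 0, 1, 1], [0, 0, 0, 2, 0, 2, 2], [0, 1, 0, 1, 2, 0, 1], [0, 0, 0,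
  0, 1, 1, 2], [0, 0, 0, 2, 2, 0, 2]]), (1, 12, 81, [[0, 0, 0, 0, 0, 0, 2], [2, 0, 0, 0, 0, 0, 2,
  2], [0, 0, 0, 0, 0, 0, 2], [], [0, 0, 0, 2, 0, 0, 2, 1], [0, 0, 0, 0, 0, 0, 0, 2]]), (2, 12, 81,
  [[0, 1, 0, 1], [1, 0, 1, 0, 0, 1, 2], [0, 0, 1, 0, 0, 1], [0, 0, 0, 0, 0, 0, 1], [0, 2, 0, 2, 2],
  [0, 2], [0, 0, 0, 0, 0, 2], [0, 0, 0, 0, 0, 0, 1]]), (2, 12, 86, [[0, 2], [2, 1, 0, 1, 1, 1], [0,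
  1, 2, 2, 2, 1], [0, 0, 0, 1, 0, 2], [0, 0, 0, 0, 2], [0, 0, 0, 0, 0, 1]]), (1, 12, 87, [[0, 0, 0,
  0, 0, 0, 0, 0, 1], [0, 1, 2, 1, 0, 0, 0, 2, 2], [0, 0, 0, 0, 0, 0, 0, 1, 1], [0, 0, 0, 0, 0, 0, 0,
  2, 2], [0, 0, 0, 0, 0, 0, 0, 0, 2], [0, 0, 0, 0, 0, 1, 0, 0, 1], [0, 0, 0, 0, 0, 0, 0, 2], [0, 1,
  0, 0, 0, 0, 0, 1, 2]])]

/-- matrices -/
def L13_5 : Rows :=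
  [(1, 13, 51, [[2, 2], [0, 0, 0, 1]]), (4, 13, 52, [[0, 2], [0, 1]]), (5, 13, 52, [[2, 2, 2], [1,
  2]]), (5, 13, 57, [[0, 0, 0, 2], [0, 1, 0, 1, 0, 2], [0, 0, 2, 2, 0, 1]]), (1, 13, 58, [[0, 2],
  [0, 1]]), (2, 13, 58, [[2, 2, 2], [0, 2, 2], [0, 0, 1]]), (3, 13, 58, [[], [0, 2]]), (5, 13, 58,
  [[0, 0, 0, 2], [2, 0, 1], [0, 0, 2]])]

/-- matrices -/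
def L13_6 : Rows :=
  [(2, 13, 62, [[1], [0, 0, 1], [0, 1]]), (2, 13, 63, [[1, 0, 2, 2, 2, 2], [0, 1], [0, 0, 2, 1], [0,
  0, 0, 1], [0, 0, 0, 1, 1], [0, 0, 0, 0, 0, 1]]), (2, 13, 64, [[2, 0, 2, 2], [0, 1, 2, 2], [0, 0,
  2], [0, 0, 0, 1]]), (2, 13, 65, [[1], [0, 0, 2], [0, 0, 0, 1], [0, 1]]), (2, 13, 67, [[1, 2, 1, 0,
  1, 2], [0, 1, 2, 0, 0, 1], [0, 0, 1], [0, 0, 0, 0, 1, 2], [0, 0, 0, 1, 0, 1], [0, 0, 0, 0, 0,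
  1]]), (2, 13, 69, [[1], [0, 0, 1], [0, 2, 0, 2], [0, 1], [0, 1, 0, 2, 1], [1, 1, 0, 1, 2, 2, 2,
  1], [2, 1, 0, 0, 0, 0, 1], [0, 0, 0, 0, 0, 0, 0, 1]])]

/-- matrices -/
def L13_7 : Rows :=
  [(5, 13, 70, [[0, 0, 2, 1], [0, 0, 0, 2, 1], [0, 0, 0, 0, 2]]), (2, 13, 71, [[1, 2, 2, 2, 2], [0,
  2, 2, 1], [0, 0, 1], [0, 0, 1, 2], [0, 0, 2, 2, 2, 2, 1], [0, 0, 1, 1, 2, 2], [0, 0, 1, 1, 0,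
  2]]), (5, 13, 71, [[0, 2, 0, 2, 1, 0, 1, 2], [0, 1, 0, 0, 0, 0, 2], [], [0, 2, 0, 0, 0, 0, 0, 2],
  [0, 2, 2, 1, 2, 1, 1, 2], [0, 1, 0, 0, 2, 2, 0, 2], [0, 2, 0, 1, 1, 0, 1, 1]]), (2, 13, 73, [[0,
  2, 2, 0, 2, 0, 0, 1], [2, 0, 2, 0, 2], [0, 0, 2, 2, 2], [0, 0, 2, 0, 1, 1], [0, 0, 2, 0, 2, 0, 0,
  1], [0, 0, 1, 0, 0, 0, 1, 1], [0, 0, 1, 0, 0, 0, 0, 1], [0, 0, 0, 0, 0, 0, 0, 1]]), (2, 13, 75,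
  [[1, 0, 2, 0, 0, 0, 2], [0, 0, 0, 0, 1, 0, 2], [0, 0, 1, 0, 0, 0, 1], [0, 2, 0, 2, 2, 1, 1], [0,
  2, 0, 0, 0, 2, 1], [0, 0, 0, 0, 2], [0, 1, 0, 0, 0, 0, 0, 0, 0, 1], [0, 0, 1, 0, 0, 0, 1, 1, 2],
  [0, 2, 0, 0, 0, 0, 0, 2], [0, 0, 0, 0, 0, 0, 0, 0, 0, 1]]), (2, 13, 76, [[0, 2, 0, 0, 1], [0, 0,
  2, 1], [1, 0, 0, 1], [], [0, 0, 0, 1, 2], [0, 0, 0, 2]]), (1, 13, 78, [[0, 0, 0, 0, 0, 1, 0, 2,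
  1], [1, 1, 0, 0, 2, 1, 2], [0, 0, 0, 0, 0, 0, 0, 0, 2], [0, 2, 0, 0, 0, 1, 2, 0, 2], [0, 0, 0, 0,
  0, 2]])]

/-- matrices -/
def L13_8 : Rows :=
  [(0, 13, 82, [[], [0, 0, 0, 1], [0, 0, 0, 0, 1], [], [0, 0, 0, 0, 0, 1], [0, 0, 0, 0, 0, 0, 1]]),
  (2, 13, 82, [[0, 2, 0, 0, 2, 2, 1], [0, 2, 0, 0, 2, 1, 2], [2, 2, 1, 0, 0, 2, 2], [0, 0, 0, 0, 1],
  [1, 1, 0, 0, 1, 0, 1], [0, 0, 0, 2, 2, 1, 2], [0, 0, 0, 0, 0, 1], [0, 0, 0, 0, 0, 0, 2]]), (3, 13,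
  82, [[0, 0, 0, 0, 0, 0, 0, 1], [0, 0, 0, 0, 0, 0, 0, 2], [1, 0, 2, 0, 1, 2, 0, 0, 1], [0, 0, 0, 0,
  0, 0, 0, 0, 2], [2, 0, 1, 0, 1, 0, 2, 0, 2], [2, 0, 1, 0, 2]]), (1, 13, 83, [[0, 2, 1, 2, 0, 2,
  1], [], [0, 0, 0, 0, 0, 2], [0, 0, 0, 0, 0, 0, 1]]), (2, 13, 86, [[0, 2], [2, 0, 0, 2], [0, 0, 1,
  2], [0, 0, 0, 2, 2], [0, 0, 0, 0, 2], [0, 0, 0, 0, 1]])]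

/-- matrices -/
def L14_5 : Rows :=
  [(0, 14, 58, [[], [], [0, 1]]), (3, 14, 58, [[], [0, 0, 2], [1, 1]]), (4, 14, 58, [[0, 0, 1], [0,
  1, 2], [0, 1]]), (5, 14, 58, [[0, 0, 0, 2, 1, 2], [0, 0, 1, 0, 1, 1], [0, 0, 1, 0, 2, 1], [0, 0,
  0, 0, 0, 2]])]

/-- matrices -/
def L14_6 : Rows :=
  [(1, 14, 60, [[0, 0, 2], [], [2, 1]]), (5, 14, 62, [[0, 0, 2, 2], [0, 0, 0, 1]]), (1, 14, 64, [[0,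
  2, 2], [], [0, 0, 1], [0, 0, 1], [0, 0, 1]]), (2, 14, 64, [[1, 0, 0, 0, 0, 1], [0, 1], [0, 0, 0,
  1, 0, 1], [0, 0, 0, 0, 2, 2], [0, 0, 1, 0, 1, 2], [0, 0, 0, 0, 0, 1]]), (1, 14, 65, [[0, 0, 0, 0,
  0, 1], [0, 2, 0, 1, 0, 2]]), (1, 14, 66, [[0, 1, 2, 1], [0, 0, 2, 1], [0, 0, 1, 1], [0, 0, 2], [0,
  0, 2, 1], [2, 0, 1]]), (5, 14, 66, [[2, 0, 0, 0, 1, 1], [1, 0, 1, 0, 1, 1], [0, 0, 0, 2], [0, 0,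
  1, 1, 2, 0, 1], [0, 0, 2, 1, 1, 0, 2], [1, 1, 2, 1, 1, 0, 1], [0, 0, 0, 0, 0, 0, 2]]), (2, 14, 67,
  [[1], [0, 1], [0, 0, 2]]), (2, 14, 69, [[1], [0, 1], [0, 1, 1], [0, 1, 0, 2]])]

/-- matrices -/
def L14_7 : Rows :=
  [(2, 14, 73, [[2, 2, 1, 2, 1], [0, 1, 1], [0, 0, 2], [0, 0, 1, 1, 1], [0, 0, 0, 0, 2]]), (2, 14,
  74, [[1], [0, 2, 2, 2], [0, 0, 1], [0, 0, 0, 1]]), (4, 14, 77, [[1, 0, 0, 1, 0, 0, 2], [], [0, 0,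
  2, 0, 0, 0, 0, 0, 1], [0, 0, 0, 0, 0, 0, 0, 2], [0, 0, 0, 0, 0, 0, 2], [0, 0, 0, 0, 0, 0, 0, 2,
  2], [0, 0, 0, 0, 0, 0, 2, 1, 1]]), (1, 14, 78, [[0, 0, 0, 1, 2], [0, 0, 0, 2, 1], [0, 0, 2, 0, 2],
  [0, 0, 0, 0, 1]]), (1, 14, 79, [[0, 0, 0, 0, 0, 0, 1, 1], [0, 0, 0, 0, 0, 0, 0, 1], [0, 2, 0, 0,
  2, 1, 0, 2], [0, 2, 0, 2, 2, 0, 2, 2], [0, 0, 0, 0, 0, 0, 1], [], [0, 0, 0, 0, 0, 0, 0, 2]]), (2,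
  14, 79, [[0, 1, 0, 0, 0, 1, 1], [0, 0, 0, 0, 2, 2, 1], [2, 0, 1, 0, 0, 0, 1], [1, 0, 0, 1, 2, 2,
  2], [0, 0, 0, 0, 1, 1, 1], [0, 0, 0, 0, 0, 2, 1], [2, 0, 0, 0, 2, 2], [], [0, 0, 0, 0, 0, 0, 0,
  2]])]

/-- matrices -/
def L14_8 : Rows :=
  [(0, 14, 82, [[0, 0, 0, 0, 0, 0, 0, 1]]), (3, 14, 82, [[0, 2, 0, 0, 2, 2], [0, 0, 0, 0, 0, 0, 2],
  [0, 0, 0, 0, 0, 2]]), (4, 14, 82, [[0, 1]]), (1, 14, 83, [[0, 0, 1, 0, 0, 0, 2, 1, 2], [0, 0, 0,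
  0, 0, 0, 0, 2, 2], [0, 0, 0, 0, 0, 0, 1, 2, 1], [0, 0, 0, 0, 0, 0, 2, 0, 1], [0, 0, 0, 0, 0, 0, 2,
  1, 1], [0, 0, 0, 0, 0, 0, 2, 2, 1], [0, 0, 0, 0, 0, 0, 1, 0, 1], [0, 0, 0, 0, 0, 0, 0, 1]]), (1,
  14, 84, [[0, 1, 0, 0, 1, 1], [0, 0, 0, 0, 0, 0, 2], [0, 0, 0, 0, 0, 2], [0, 0, 0, 0, 0, 2, 1], [0,
  0, 0, 0, 1, 2, 1]]), (3, 14, 86, [[0, 0, 0, 0, 2], [0, 1, 2, 0, 1]])]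

/-- matrices -/
def L15_6 : Rows :=
  [(2, 15, 61, [[1], [2, 2, 2], [0, 0, 1]]), (5, 15, 62, [[1, 2, 2], [0, 2]]), (0, 15, 66, [[0, 1],
  [], [0, 0, 1], [], [0, 0, 0, 1]]), (1, 15, 66, [[0, 2, 1, 0, 2, 1], [0, 0, 0, 0, 0, 2], [0, 0, 2,
  2, 0, 2], [0, 0, 0, 0, 0, 2], [0, 0, 0, 1, 1]]), (4, 15, 66, [[2, 1, 2, 2, 2], [0, 0, 0, 0, 2, 2],
  [0, 2, 2, 0, 0, 2], [0, 0, 0, 0, 2, 2], [0, 1, 2, 1, 1]]), (2, 15, 68, [[0, 1], [1, 2], [0, 0, 2],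
  [0, 0, 0, 1]]), (2, 15, 69, [[0, 1], [1, 0, 0, 1], [0, 0, 1], [0, 0, 0, 2]])]

/-- matrices -/
def L15_7 : Rows :=
  [(1, 15, 70, [[0, 2, 2, 0, 2], [], [], [0, 0, 0, 1], [0, 0, 0, 0, 1]]), (2, 15, 72, [[1], [1, 1],
  [0, 0, 1], [0, 0, 0, 2], [0, 0, 0, 0, 1], [0, 0, 0, 2, 2, 2, 2, 1], [0, 1, 0, 0, 0, 0, 1], [0, 0,
  0, 0, 0, 0, 0, 1]]), (1, 15, 74, [[0, 0, 0, 0, 2, 1], [0, 0, 0, 0, 1], [], [0, 0, 0, 0, 1, 0, 2],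
  [0, 0, 0, 0, 0, 2], [0, 0, 0, 0, 2], [2, 0, 1, 1, 2, 2]]), (2, 15, 74, [[2, 1], [0, 0, 2, 1, 0, 0,
  2], [0, 0, 0, 1], [0, 0, 0, 2, 0, 0, 2], [1, 0, 1, 2, 0, 0, 2], [2, 0, 2, 1, 0, 1, 2], [0, 0, 0,
  0, 1, 1, 1]]), (2, 15, 76, [[1, 0, 0, 0, 0, 0, 0, 1], [2, 2, 2, 0, 0, 0, 0, 2], [1, 1], [0, 0, 0,
  2, 0, 0, 0, 2], [0, 0, 0, 0, 0, 0, 1], [0, 0, 0, 0, 0, 1, 2, 2], [0, 0, 0, 0, 1, 0, 2], [0, 0, 0,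
  0, 0, 0, 0, 2]]), (2, 15, 78, [[1], [0, 0, 0, 0, 0, 0, 1], [0, 1, 0, 0, 0, 1], [0, 0, 2, 2, 1, 2],
  [0, 0, 0, 0, 0, 2], [0, 0, 0, 2, 1, 2, 1], [0, 0, 0, 2, 0, 2, 0, 0, 0, 1], [0, 0, 0, 0, 0, 0, 2,
  2], [0, 2, 0, 1, 0, 0, 2, 2, 2, 1], [0, 0, 0, 0, 0, 0, 0, 0, 0, 1]]), (2, 15, 79, [[1, 0, 0, 2,
  1], [0, 1, 0, 1], [0, 0, 2, 2], [0, 0, 0, 2], [0, 0, 0, 2, 2]])]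

/-- matrices -/
def L15_8 : Rows :=
  [(1, 15, 81, [[1, 0, 0, 0, 2, 2, 2, 1], [1, 1, 0, 0, 2, 2, 2, 1], [0, 0, 0, 0, 0, 2, 1, 2], [0, 0,
  0, 0, 0, 0, 0, 1]])]

/-- matrices -/
def L16_5 : Rows :=
  [(4, 16, 57, [[1, 1, 1]])]

/-- matrices -/
def L16_6 : Rows :=
  [(5, 16, 67, [[0, 1, 1, 2], [], [0, 2, 1, 0, 2], [0, 0, 1, 1, 1, 2], [0, 0, 0, 2, 2], [0, 0, 0, 0,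
  2, 2]])]

/-- matrices -/
def L16_7 : Rows :=
  [(1, 16, 70, [[0, 1, 0, 2]]), (2, 16, 71, [[1, 0, 0, 0, 1], [0, 1, 0, 0, 2], [0, 0, 1, 0, 1], [0,
  0, 0, 1, 1], [0, 0, 0, 0, 2]]), (5, 16, 71, [[0, 0, 0, 1], [1, 0, 0, 2], [2, 0, 0, 1], [], [0, 0,
  1, 1]]), (1, 16, 73, [[0, 1, 1], [0, 0, 2], [0, 0, 1], [0, 0, 1]]), (2, 16, 73, [[1, 0, 0, 0, 2,
  2], [0, 1, 2, 1, 0, 2], [0, 1, 0, 0, 2, 2], [0, 0, 0, 1], [0, 0, 0, 0, 2], [0, 0, 0, 0, 0, 2]]),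
  (5, 16, 73, [[2, 2, 0, 1, 1, 1], [2, 2, 0, 0, 2, 2], [2, 2], [0, 1, 0, 0, 0, 1], [0, 0, 0, 0, 1,
  2], [0, 0, 0, 0, 0, 1]]), (2, 16, 75, [[1], [0, 2], [0, 0, 1, 0, 1], [0, 0, 0, 2, 2, 1], [0, 0, 0,
  0, 2], [0, 0, 0, 0, 0, 1], [0, 0, 0, 0, 0, 0, 1]]), (2, 16, 76, [[2, 1], [0, 2, 1, 2, 2], [0, 0,
  1], [0, 0, 0, 1], [0, 0, 0, 0, 2]]), (2, 16, 77, [[1], [0, 2, 1], [0, 0, 2, 2], [0, 0, 0, 1]]),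
  (2, 16, 79, [[1], [0, 1], [0, 0, 1, 0, 2], [0, 0, 0, 1], [0, 0, 0, 0, 1, 1], [0, 0, 0, 0, 2]]),
  (3, 16, 79, [[0, 0, 0, 1], [0, 0, 0, 0, 1]])]

/-- matrices -/
def L16_8 : Rows :=
  [(2, 16, 82, [[2, 0, 0, 0, 1], [0, 1, 0, 0, 1], [0, 1, 1, 0, 1, 1, 1], [0, 0, 0, 1, 2, 0, 1], [0,
  0, 0, 0, 1, 1, 1], [0, 0, 0, 0, 0, 1, 2], [0, 0, 0, 0, 0, 2, 2], [0, 0, 0, 0, 0, 0, 0, 1]])]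

/-- matrices -/
def L17_7 : Rows :=
  [(4, 17, 71, [[0, 0, 0, 0, 1], [0, 0, 0, 0, 0, 0, 2], [1, 0, 2, 1, 1, 2, 1], [0, 0, 0, 0, 2, 0,
  2]]), (5, 17, 71, [[0, 0, 1, 1], [0, 0, 0, 1], [0, 0, 0, 0, 0, 2, 2], [0, 2, 2, 2, 1, 1]]), (1,
  17, 73, [[0, 0, 0, 0, 2], [0, 2, 2], [], [], [0, 0, 0, 1, 1]]), (3, 17, 73, [[0, 0, 0, 0, 2, 2],
  [1, 2, 0, 0, 2, 1], [0, 0, 0, 0, 2, 2], [0, 0, 0, 0, 2], [0, 0, 2, 1, 2, 2]]), (4, 17, 73, [[0, 0,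
  1, 1], [0, 1, 2], [], [0, 0, 0, 1]]), (1, 17, 75, [[0, 0, 0, 0, 1, 2], [0, 0, 0, 0, 2, 2], [0, 0,
  0, 0, 1, 1], [0, 0, 0, 0, 2, 1], [0, 0, 0, 0, 1, 1], [0, 0, 1, 0, 1, 2], [0, 1, 1, 2, 1]]), (1,
  17, 77, [[0, 0, 0, 0, 1, 2, 2], [0, 0, 0, 0, 2, 0, 2], [0, 0, 0, 0, 0, 0, 2], [], [2, 0, 1, 2, 0,
  1], [0, 0, 0, 0, 0, 2, 2], [0, 0, 0, 0, 1, 0, 1]]), (2, 17, 77, [[0, 1, 0, 0, 1], [1, 2, 0, 0, 1],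
  [0, 0, 0, 1], [0, 0, 1], [0, 0, 2, 0, 2, 1, 1], [0, 0, 1, 0, 1], [0, 0, 1, 0, 1, 1]]), (3, 17, 77,
  [[0, 0, 2], [0, 2, 0, 2], [], [0, 0, 0, 2], [1, 0, 0, 2], [0, 0, 0, 1]]), (1, 17, 79, [[0, 0, 0,
  2], [], [0, 1, 1, 2], [0, 0, 2, 1], [0, 0, 0, 1]])]

/-- matrices -/
def L17_8 : Rows :=
  [(1, 17, 81, [[0, 0, 0, 0, 1, 2], [0, 0, 0, 0, 1], [0, 0, 0, 2, 0, 1], [], [0, 0, 1], [0, 0, 0, 0,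
  1, 1], [0, 0, 1, 0, 0, 1], [2, 0, 1, 0, 0, 2], [0, 2]]), (2, 17, 82, [[1, 0, 0, 2], [0, 1, 0, 2],
  [0, 0, 1], [0, 0, 0, 0, 1], [0, 0, 0, 1]])]

/-- matrices -/
def L18_7 : Rows :=
  [(1, 18, 79, [[1, 2, 0, 0, 2, 1], [0, 1, 0, 2, 2, 2], [], [0, 0, 1]])]

/-- matrices -/
def L19_8 : Rows :=
  [(2, 19, 80, [[2, 1, 0, 1, 2, 1, 2], [0, 0, 0, 2, 1, 2, 1], [0, 0, 0, 1], [0, 0, 0, 0, 2, 0, 1],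
  [1, 0, 0, 1, 2, 1, 2], [2, 0, 0, 1, 1, 2], [1, 0, 1, 0, 1, 2, 2]])]

/-- matrices -/
def L21_8 : Rows :=
  [(2, 21, 83, [[0, 2, 2, 1, 0, 1], [1, 2, 2, 1, 0, 1], [0, 2, 2, 0, 1, 2], [0, 1], [0, 2, 2, 2],
  [0, 1, 0, 1, 0, 0, 1], [0, 2, 0, 2]])]

/-- the matrices of one degree -/
def L2 : Rows :=
  L2_0 ++ (L2_1 ++ (L2_2 ++ (L2_6)))

/-- the matrices of one degree -/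
def L3 : Rows :=
  L3_1 ++ (L3_2 ++ (L3_3 ++ (L3_4 ++ (L3_5))))

/-- the matrices of one degree -/
def L4 : Rows :=
  L4_1 ++ (L4_2 ++ (L4_4 ++ (L4_6 ++ (L4_7 ++ (L4_8)))))

/-- the matrices of one degree -/
def L5 : Rows :=
  L5_1 ++ (L5_2 ++ (L5_3 ++ (L5_4 ++ (L5_5 ++ (L5_6 ++ (L5_7 ++ (L5_8)))))))

/-- the matrices of one degree -/
def L6 : Rows :=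
  L6_1 ++ (L6_2 ++ (L6_3 ++ (L6_4 ++ (L6_5 ++ (L6_6 ++ (L6_7 ++ (L6_8)))))))

/-- the matrices of one degree -/
def L7 : Rows :=
  L7_1 ++ (L7_2 ++ (L7_3 ++ (L7_4 ++ (L7_5 ++ (L7_6 ++ (L7_7 ++ (L7_8)))))))

/-- the matrices of one degree -/
def L8 : Rows :=
  L8_1 ++ (L8_2 ++ (L8_3 ++ (L8_4 ++ (L8_5 ++ (L8_6 ++ (L8_7 ++ (L8_8)))))))

/-- the matrices of one degree -/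
def L9 : Rows :=
  L9_2 ++ (L9_3 ++ (L9_4 ++ (L9_5 ++ (L9_6 ++ (L9_7 ++ (L9_8))))))

/-- the matrices of one degree -/
def L10 : Rows :=
  L10_2 ++ (L10_3 ++ (L10_4 ++ (L10_5 ++ (L10_6 ++ (L10_7 ++ (L10_8))))))

/-- the matrices of one degree -/
def L11 : Rows :=
  L11_3 ++ (L11_4 ++ (L11_5 ++ (L11_6 ++ (L11_7 ++ (L11_8)))))

/-- the matrices of one degree -/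
def L12 : Rows :=
  L12_4 ++ (L12_5 ++ (L12_6 ++ (L12_7 ++ (L12_8))))

/-- the matrices of one degree -/
def L13 : Rows :=
  L13_5 ++ (L13_6 ++ (L13_7 ++ (L13_8)))

/-- the matrices of one degree -/
def L14 : Rows :=
  L14_5 ++ (L14_6 ++ (L14_7 ++ (L14_8)))

/-- the matrices of one degree -/
def L15 : Rows :=
  L15_6 ++ (L15_7 ++ (L15_8))

/-- the matrices of one degree -/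
def L16 : Rows :=
  L16_5 ++ (L16_6 ++ (L16_7 ++ (L16_8)))

/-- the matrices of one degree -/
def L17 : Rows :=
  L17_7 ++ (L17_8)

/-- the matrices of one degree -/
def L18 : Rows :=
  L18_7

/-- the matrices of one degree -/
def L19 : Rows :=
  L19_8

/-- the matrices of one degree -/
def L21 : Rows :=
  L21_8

/-- all matrices -/
def LL : Rows :=
  L2 ++ (L3 ++ (L4 ++ (L5 ++ (L6 ++ (L7 ++ (L8 ++ (L9 ++ (L10 ++ (L11 ++ (L12 ++ (L13 ++ (L14 ++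
  (L15 ++ (L16 ++ (L17 ++ (L18 ++ (L19 ++ (L21))))))))))))))))))

end Vale.Agent.P236K.Core.LD
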