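import Vale.Agent.P236K.Core.All
import Vale.Agent.P236K.Core.LData
import Vale.Agent.P236K.Core.D5Out
import Vale.Agent.P236K.Cert.FRow

/-!
# P236K, block Core: the tests on the combinatorial part of the tables
-/

noncomputable section

namespace Vale.Agent.P236K.Core

open Vale.Agent.P236K.Cert D5 LD
open D5D (Gam ks E10 o14 o18 out)

/-- tables without values -/
def cmb (row : ℕ → ℕ → List ℕ) (a b S T : ℕ) : FT :=
  ⟨lyS, fun _ _ => 0, id, id, fun _ => id, row, a, b, S, T⟩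

theorem allB_cmb (F : FT) (L : Rows) (Γ : Ctx) (K : List ℕ) (E : Mz) (o o' : Lvl) (D : ThD) :
    allB F L Γ K E o o' D = allB (cmb F.row F.pi F.b F.S F.T) L Γ K E o o' D := rfl

/-- the matrices for `ThAlg` -/
def thD : ThD :=
  ⟨[2, 1, 0], [[1, 0, 0, 0, 0], [0, 1, 0, 0, 0], [0, 0, 0, 0, 0]],
    [[1, 0, 0], [0, 2, 0], [0, 0, 1], [0, 0, 0], [0, 0, 0]], [[1], [2], [1]], [0, 2, 2],
    [[0, 0, 0, 0], [2, 2, 0, 0], [0, 0, 0, 0]], [],
    [[2, 0, 0, 0, 0, 2], [0, 0, 0, 2, 0, 0], [1, 0, 2, 1, 2, 2]],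
    [[1, 0, 0, 0], [2, 0, 0, 1], [0, 0, 0, 0], [0, 0, 1, 1], [0, 1, 0, 0], [0, 0, 0, 2]],
    [[1, 0, 0], [1, 0, 2], [1, 2, 2], [0, 0, 2]]⟩

/-- the tables -/
def F0 : FT := cmb rowT 6 3 24 89

theorem sh0 : shB F0 LL = true := by decide +kernel

theorem fin0 : (tbOf F0 LL).finB = true := by decide +kernel

theorem eds0 : (tbOf F0 LL).edsB Gam.eds ks = true := by decide +kernel

theorem ctx1 : (tbOf F0 LL).ctxB ⟨Gam.dims, Gam.surs, Gam.dds, Gam.maps, []⟩ [] = true := by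
  decide +kernel

theorem ctxB_of {A : Tb} {Γ : Ctx} {K : List ℕ} (h : A.edsB Γ.eds K = true)
    (h' : A.ctxB ⟨Γ.dims, Γ.surs, Γ.dds, Γ.maps, []⟩ [] = true) : A.ctxB Γ K = true := by
  rw [Tb.ctxB, h]
  exact h'

theorem ctx0 : (tbOf F0 LL).ctxB Gam ks = true := ctxB_of eds0 ctx1

theorem out0 : outB (tbOf F0 LL) E10 o14 o18 = true := by decide +kernel

theorem th0 : thD.test (barC F0) = true := by decide +kernel

theorem allB_ok {F : FT} (h : F.row = rowT) (h1 : F.pi = 6) (h2 : F.b = 3) (h3 : F.S = 24)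
    (h4 : F.T = 89) : allB F LL Gam ks E10 o14 o18 thD = true := by
  rw [allB_cmb, h, h1, h2, h3, h4, ← F0, allB, sh0, fin0, ctx0, out0, th0]
  rfl

theorem outOk : OutOk Gam E10 o14 o18 := out

end Vale.Agent.P236K.Core
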