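import Vale.Agent.P236K.SS.One

/-!
# P236K, block Core: differentials of cochains

* `Cy w z`: `z` is a homogeneous cocycle modulo `3`;
* `DF D U i w w' z z'`: the differential `d z = z'` in the couple of the Moore object;
* the rules: `DF.add`, `DF.zsmul`, `DF.congr`, `exists_DF`, `DF.unique`, `DF.dd`, `DF.acts`.
-/

open CategoryTheory MonoidalCategory Limits Pretriangulated MonObj

set_option linter.unusedSectionVars false

universe v u

namespace Vale.Agent.P236K.Core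

open Vale.Agent.P251 Vale.Agent.P251.T Vale.Agent.P251.F Vale.Agent.P251.I
  Vale.Agent.P251.M Vale.Agent.P257.H314 Vale.Agent.P257.H712 Vale.Agent.P251.H
  Vale.Agent.P236K.SS Vale.Agent.P236Z
open Vale.Agent.P251.S hiding IC

/-! ### Coboundaries and cup products -/

section Alg

variable {p h : ℕ} [Fact p.Prime]

lemma aCob_of_mem {s : ℕ} {w : ℤ} {z : Cob Laz s} (hz : z ∈ IC p h s) : ACob p h w z := by
  cases s with
  | zero => exact hz
  | succ s => exact ⟨0, (Cob.wt Laz s w).zero_mem, by rwa [map_zero, sub_zero]⟩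

lemma aCob_add {s : ℕ} {w : ℤ} {z z' : Cob Laz s} (hz : ACob p h w z) (hz' : ACob p h w z') :
    ACob p h w (z + z') := by
  cases s with
  | zero => exact add_mem hz hz'
  | succ s =>
    obtain ⟨y, hy, h1⟩ := hz
    obtain ⟨y', hy', h2⟩ := hz'
    refine ⟨y + y', (Cob.wt Laz s w).add_mem hy hy', ?_⟩
    rw [map_add, add_sub_add_comm]
    exact add_mem h1 h2

lemma aCob_zsmul {s : ℕ} {w : ℤ} {z : Cob Laz s} (c : ℤ) (hz : ACob p h w z) :
    ACob p h w (c • z) := by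
  cases s with
  | zero => exact Submodule.smul_of_tower_mem _ c hz
  | succ s =>
    obtain ⟨y, hy, h1⟩ := hz
    refine ⟨c • y, (Cob.wt Laz s w).zsmul_mem hy c, ?_⟩
    rw [map_zsmul, ← smul_sub]
    exact Submodule.smul_of_tower_mem _ c h1

lemma cupC_sub_left {s σ s' : ℕ} (e : s + σ = s') (x x' : Cob Laz s) (y : Cob Laz σ) :
    cupC e (x - x') y = cupC e x y - cupC e x' y := by
  rw [cupC, cupC, cupC, map_sub, sub_mul]

lemma cupC_sub_right {s σ s' : ℕ} (e : s + σ = s') (x : Cob Laz s) (y y' : Cob Laz σ) :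
    cupC e x (y - y') = cupC e x y - cupC e x y' := by
  rw [cupC, cupC, cupC, map_sub, mul_sub]

lemma aCob_cup_left {s σ s' : ℕ} (e : s + σ = s') {w v w' : ℤ} (hw : w + v = w') {z : Cob Laz s}
    (hz : ACob p h w z) {b : Cob Laz σ} (hb : Cob.IsWt v b)
    (hd : Cob.d σ b ∈ IC p h (σ + 1)) : ACob p h w' (cupC e z b) := by
  cases s with
  | zero => exact aCob_of_mem (cupC_mem_left e hz b)
  | succ s =>
    obtain ⟨y, hy, h1⟩ := hz
    obtain rfl : s' = s + σ + 1 := by omega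
    refine ⟨cupC rfl y b, isWt_cupC _ hy hb hw, ?_⟩
    rw [d_cupC rfl e (by omega), ← sub_sub, ← cupC_sub_left]
    exact sub_mem (cupC_mem_left e h1 b)
      (Submodule.smul_of_tower_mem _ _ (cupC_mem_right _ _ hd))

lemma aCob_cup_right {s σ s' : ℕ} (e : s + σ = s') {w v w' : ℤ} (hw : w + v = w')
    {z : Cob Laz s} (hz : Cob.IsWt w z) (hd : Cob.d s z ∈ IC p h (s + 1)) {b : Cob Laz σ}
    (hb : ACob p h v b) : ACob p h w' (cupC e z b) := by
  cases σ with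
  | zero => exact aCob_of_mem (cupC_mem_right e z hb)
  | succ σ =>
    obtain ⟨y, hy, h1⟩ := hb
    obtain rfl : s' = s + σ + 1 := by omega
    refine ⟨((-1 : ℤ) ^ s) • cupC rfl z y,
      (Cob.wt Laz (s + σ) w').zsmul_mem (isWt_cupC _ hz hy hw) _, ?_⟩
    have h2 : (-1 : ℤ) ^ s * (-1) ^ s = 1 := by rw [← mul_pow]; norm_num
    rw [map_zsmul, d_cupC rfl (by omega) e, smul_add, smul_smul, h2, one_smul,
      add_comm (_ • _), ← sub_sub, ← cupC_sub_right]
    exact sub_mem (cupC_mem_right e z h1)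
      (Submodule.smul_of_tower_mem _ _ (cupC_mem_left _ hd y))

end Alg

/-- `z` is a homogeneous cocycle modulo `3`. -/
structure Cy {s : ℕ} (w : ℤ) (z : Cob Laz s) : Prop where
  wt : Cob.IsWt w z
  d : Cob.d s z ∈ IC 3 1 (s + 1)

namespace Cy

variable {s : ℕ} {w : ℤ} {z z' : Cob Laz s}

lemma zero : Cy w (0 : Cob Laz s) :=
  ⟨(Cob.wt Laz s w).zero_mem, by rw [map_zero]; exact zero_mem _⟩

lemma add (h : Cy w z) (h' : Cy w z') : Cy w (z + z') :=
  ⟨(Cob.wt Laz s w).add_mem h.wt h'.wt, by rw [map_add]; exact add_mem h.d h'.d⟩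

lemma zsmul (c : ℤ) (h : Cy w z) : Cy w (c • z) :=
  ⟨(Cob.wt Laz s w).zsmul_mem h.wt c, by
    rw [map_zsmul]; exact Submodule.smul_of_tower_mem _ c h.d⟩

lemma neg (h : Cy w z) : Cy w (-z) := by simpa using h.zsmul (-1)

lemma sub (h : Cy w z) (h' : Cy w z') : Cy w (z - z') := by
  rw [sub_eq_add_neg]
  exact h.add h'.neg

lemma cup {σ s' : ℕ} {v w' : ℤ} {b : Cob Laz σ} (h : Cy w z) (hb : Cy v b) (e : s + σ = s')
    (hw : w + v = w') : Cy w' (cupC e z b) :=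
  ⟨isWt_cupC e h.wt hb.wt hw, d_cupC_mem e h.d hb.d⟩

lemma of_d (hw : Cob.IsWt w z) (hd : Cob.d s z = 0) : Cy w z :=
  ⟨hw, by rw [hd]; exact zero_mem _⟩

lemma aCob (h : Cy w z) (hw : ¬ (2 ∣ w ∧ 2 * (s : ℤ) ≤ w)) : ACob 3 1 w z :=
  aCob_of_algVan (algVan_three hw) h.wt h.d

end Cy

lemma cy_t {t : Cob Laz 1} (ht : IsT1 3 t) : Cy 2 t := Cy.of_d (tW ht).2 (d_tW ht)

lemma cy_b {t : Cob Laz 1} (ht : IsT1 3 t) : Cy 6 (bcls 3 t) := Cy.of_d (bW ht).2 (d_bW ht)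

section Gen

variable {T : Type u} [Category.{v} T] [Preadditive T] [HasZeroObject T] [HasShift T ℤ]
  [∀ n : ℤ, (shiftFunctor T n).Additive] [Pretriangulated T] [MonoidalCategory T]
  [SymmetricCategory T] [TensorTriangulated T] [HasCoproducts.{0} T] (D : MUData T)
  (U : UnitCof D.R) {M : T} (i : 𝟙_ T ⟶ M)

/-- The differential `d z = z'` in the couple of `M`, for cocycles modulo `3`. -/
def DF {s s' : ℕ} (w w' : ℤ) (z : Cob Laz s) (z' : Cob Laz s') : Prop :=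
  ∃ (hz : Cy w z) (hz' : Cy w' z') (m : ℤ) (h : m + 1 + (s : ℤ) = 2 * w)
    (h' : m + (s' : ℤ) = 2 * w'), Dif (cls D U i h ⟨z, hz.wt⟩) (cls D U i h' ⟨z', hz'.wt⟩)

variable {D U i}

lemma cls_wt {s : ℕ} {n w w' : ℤ} (e : w = w') {h : n + (s : ℤ) = 2 * w}
    {h' : n + (s : ℤ) = 2 * w'} {z : Cob.wt Laz s w} {z' : Cob.wt Laz s w'} (hz : z.1 = z'.1) :
    cls D U i h z = cls D U i h' z' := by
  subst e
  rw [Subtype.ext hz]

variable {s s' : ℕ} {w w' : ℤ} {z y : Cob Laz s} {z' y' : Cob Laz s'}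

lemma DF.src (h : DF D U i w w' z z') : Cy w z := h.1

lemma DF.tgt (h : DF D U i w w' z z') : Cy w' z' := h.2.1

lemma DF.dif (H : DF D U i w w' z z') {m : ℤ} (h : m + 1 + (s : ℤ) = 2 * w)
    (h' : m + (s' : ℤ) = 2 * w') :
    Dif (cls D U i h ⟨z, H.src.wt⟩) (cls D U i h' ⟨z', H.tgt.wt⟩) := by
  obtain ⟨_, _, m', h1, _, h2⟩ := H
  obtain rfl : m' = m := by omega
  exact h2

lemma DF.deg (H : DF D U i w w' z z') : 2 * w' + 1 + s = 2 * w + s' := by
  obtain ⟨_, _, m', h1, h2, -⟩ := H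
  omega

lemma DF.lt (H : DF D U i w w' z z') : s + 1 ≤ s' := by
  obtain ⟨_, _, m', h1, h2, h3⟩ := H
  exact h3.1

lemma DF.add (h : DF D U i w w' z z') (h' : DF D U i w w' y y') :
    DF D U i w w' (z + y) (z' + y') := by
  obtain ⟨h1, h2, m, e, e', h3⟩ := h
  refine ⟨h1.add h'.src, h2.add h'.tgt, m, e, e', ?_⟩
  have h4 := h3.add (h'.dif e e')
  rwa [← map_add, ← map_add] at h4

lemma DF.zsmul (c : ℤ) (h : DF D U i w w' z z') : DF D U i w w' (c • z) (c • z') := by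
  obtain ⟨h1, h2, m, e, e', h3⟩ := h
  refine ⟨h1.zsmul c, h2.zsmul c, m, e, e', ?_⟩
  have h4 := h3.zsmul c
  rwa [← map_zsmul, ← map_zsmul] at h4

lemma DF.neg (h : DF D U i w w' z z') : DF D U i w w' (-z) (-z') := by
  simpa using h.zsmul (-1)

lemma DF.sub (h : DF D U i w w' z z') (h' : DF D U i w w' y y') :
    DF D U i w w' (z - y) (z' - y') := by
  rw [sub_eq_add_neg, sub_eq_add_neg]
  exact h.add h'.neg

lemma DF.null (H : DF D U i w w' z z') {m : ℤ} (h' : m + (s' : ℤ) = 2 * w') :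
    Null (CC D U M) s (cls D U i h' ⟨z', H.tgt.wt⟩) :=
  (H.dif (by have := H.deg; omega) h').null

/-- A class with `k = 0` has the differential zero. -/
lemma DF.of_k (hz : Cy w z) {m : ℤ} (h : m + 1 + (s : ℤ) = 2 * w) (h' : m + (s' : ℤ) = 2 * w')
    (hs : s + 1 ≤ s') (hk : (CC D U M).k s (m + 1) m rfl (cls D U i h ⟨z, hz.wt⟩) = 0) :
    DF D U i w w' z (0 : Cob Laz s') := by
  refine ⟨hz, Cy.zero, m, h, h', ?_⟩
  rw [show cls D U i h' ⟨0, Cy.zero.wt⟩ = 0 from map_zero _]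
  exact (Dif.zero hs).congr_k (by rw [hk, map_zero])

lemma DF.of_j (hz : Cy w z) {n : ℤ} (h : n + (s : ℤ) = 2 * w) (hs : s + 1 ≤ s')
    (e : 2 * w' + 1 + s = 2 * w + s') {x : (CC D U M).D s n}
    (hx : (CC D U M).j s n x = cls D U i h ⟨z, hz.wt⟩) : DF D U i w w' z (0 : Cob Laz s') := by
  obtain ⟨m, rfl⟩ : ∃ m, n = m + 1 := ⟨n - 1, by ring⟩
  exact DF.of_k hz h (by omega) hs (by rw [← hx, Couple.k_j])

lemma DF.of_null (hz : Cy w z) {n : ℤ} (h : n + (s : ℤ) = 2 * w) (hs : s + 1 ≤ s')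
    (e : 2 * w' + 1 + s = 2 * w + s') {r : ℕ}
    (hx : Null (CC D U M) r (cls D U i h ⟨z, hz.wt⟩)) : DF D U i w w' z (0 : Cob Laz s') := by
  obtain ⟨_, x, -, hx⟩ := hx
  exact DF.of_j hz h hs e hx

/-- A target of a differential is a permanent cycle. -/
lemma DF.dd (H : DF D U i w w' z z') {s'' : ℕ} {w'' : ℤ} (hs : s' + 1 ≤ s'')
    (e : 2 * w'' + 1 + s' = 2 * w' + s'') : DF D U i w' w'' z' (0 : Cob Laz s'') :=
  DF.of_null H.tgt (n := 2 * w' - s') (by ring) hs e (H.null _)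

/-- Permanent multipliers. -/
lemma DF.acts (H : DF D U i w w' z z') {σ : ℕ} {a v : ℤ} {f : CMap (CC D U M) (CC D U M) σ a}
    {b : Cob Laz σ} (hb : Cy v b) (hf : Acts i i f ⟨b, hb.wt⟩) (ha : 2 * v = a + σ) {r r' : ℕ}
    {u u' : ℤ} (e : s + σ = r) (e' : s' + σ = r') (hu : w + v = u) (hu' : w' + v = u') :
    DF D U i u u' (cupC e z b) (cupC e' z' b) := by
  obtain ⟨h1, h2, m, h3, h4, h5⟩ := H
  have h6 := f.dif e e' rfl h5
  have h7 : m + a + 1 + (r : ℤ) = 2 * u := by omega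
  have h8 : m + a + (r' : ℤ) = 2 * u' := by omega
  rw [hf s r _ _ w u e _ hu h3 h7, hf s' r' _ _ w' u' e' _ hu' h4 h8] at h6
  exact ⟨h1.cup hb e hu, h2.cup hb e' hu', m + a, h7, h8, h6⟩

variable (H : Cyc D 3 1 i)

include H

lemma DF.of_aCob (hz : Cy w z) (h : ACob 3 1 w z) (hs : s + 1 ≤ s')
    (e : 2 * w' + 1 + s = 2 * w + s') : DF D U i w w' z (0 : Cob Laz s') :=
  DF.of_null hz (n := 2 * w - s) (by ring) hs e (null_of_aCob H _ h)

lemma DF.congr_src (h : DF D U i w w' z z') (hy : Cy w y) (h1 : ACob 3 1 w (y - z)) :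
    DF D U i w w' y z' := by
  simpa using (DF.of_aCob H (hy.sub h.src) h1 h.lt h.deg).add h

lemma DF.congr_tgt (h : DF D U i w w' z z') (hs : s + 2 ≤ s') (hy : Cy w' y')
    (h1 : ACob 3 1 w' (y' - z')) : DF D U i w w' z y' := by
  obtain ⟨h2, h3, m, e, e', h4⟩ := h
  refine ⟨h2, hy, m, e, e', h4.of_null_target ?_⟩
  rw [← map_sub]
  exact (null_of_aCob H e' h1).mono (by omega)

/-- Every cocycle has a `d₅`. -/
lemma exists_DF (hz : Cy w z) (hs : s + 5 = s') (hw : w + 2 = w') :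
    ∃ z' : Cob Laz s', DF D U i w w' z z' := by
  by_cases h2 : 2 ∣ w
  swap
  · exact ⟨0, DF.of_aCob H hz (hz.aCob fun h => h2 h.1) (by omega) (by omega)⟩
  have e : 2 * w - s - 1 + 1 + (s : ℤ) = 2 * w := by ring
  have e' : 2 * w - s - 1 + (s' : ℤ) = 2 * w' := by omega
  obtain ⟨x, hx⟩ := exists_dif_of_lifts (Lifts.of_alg H (t' := s') (by omega) (by omega)
    (lifts_two rfl _ (isCocycle_cls (U := U) H e (z := ⟨z, hz.wt⟩) hz.d))
    fun _ _ _ _ _ => algVan_three (by omega))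
  obtain ⟨z', h1, rfl⟩ := exists_cocycle H e' x hx.isCocycle_target
  exact ⟨z'.1, hz, ⟨z'.2, h1⟩, _, e, e', hx⟩

/-- The value of `d₅` is unique. -/
lemma DF.unique (h : DF D U i w w' z z') (h' : DF D U i w w' z y') (hs : s + 5 = s') :
    ACob 3 1 w' (z' - y') := by
  have h0 := h.deg
  by_cases h2 : 2 ∣ w'
  swap
  · exact (h.tgt.sub h'.tgt).aCob fun h => h2 h.1
  obtain ⟨h1, h3, m, e, e', h4⟩ := h
  have h5 := h4.unique (h'.dif e e')
  rw [← map_sub] at h5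
  exact aCob_of_null H e' (h3.sub h'.tgt).d (Null.of_alg H (by omega) (by omega) h5
    fun _ _ _ _ _ => algVan_three (by omega))

end Gen

end Vale.Agent.P236K.Core
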