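import Vale.Agent.P236K.D3.Plumb
import Vale.Agent.P236K.Core.DF

/-!
# P236K, block Core: the assembly of `CoreC`

* `ThAlg`: the cochains of `θ₃`, with `θ₃ ^ 3 = 0` on the `E₂`-term of the Moore object;
* `K10`, `Kil 14`, `Kil 18`, `K22`: the permanent cycles of the stem `322` die;
* `coreC_of : J2Alg → ThAlg → KAll → CoreC`.
-/

open CategoryTheory MonoidalCategory Limits Pretriangulated MonObj

set_option linter.unusedSectionVars false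

universe v u

namespace Vale.Agent.P236K.Core

open Vale.Agent.P251 Vale.Agent.P251.T Vale.Agent.P251.F Vale.Agent.P251.I
  Vale.Agent.P251.M Vale.Agent.P257.H314 Vale.Agent.P257.H712 Vale.Agent.P251.H
  Vale.Agent.P236K.SS Vale.Agent.P236Z
open Vale.Agent.P251.S hiding IC

/-- The third power of a cochain of degree two. -/
noncomputable def cb3 (x : Cob Laz 2) : Cob Laz 6 :=
  cupC (s := 4) (σ := 2) rfl (cupC (s := 2) (σ := 2) rfl x x) x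

lemma aCob_cup_sub {s σ s' : ℕ} (e : s + σ = s') {w v w' : ℤ} (hw : w + v = w')
    {x x' : Cob Laz s} {y y' : Cob Laz σ} (hx : Cy w x) (hy : Cy v y') (h : ACob 3 1 w (x' - x))
    (h' : ACob 3 1 v (y' - y)) : ACob 3 1 w' (cupC e x' y' - cupC e x y) := by
  have h4 := aCob_add (aCob_cup_left e hw h hy.wt hy.d) (aCob_cup_right e hw hx.wt hx.d h')
  rwa [cupC_sub_left, cupC_sub_right, sub_add_sub_cancel] at h4

lemma aCob_cb3 {x x' : Cob Laz 2} (hx : Cy 54 x) (hx' : Cy 54 x') (h : ACob 3 1 54 (x' - x))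
    (h3 : ACob 3 1 162 (cb3 x)) : ACob 3 1 162 (cb3 x') := by
  have h1 : (54 : ℤ) + 54 = 108 := by norm_num
  have h2 : (108 : ℤ) + 54 = 162 := by norm_num
  have h4 : ACob 3 1 162 (cb3 x' - cb3 x) :=
    aCob_cup_sub (s := 4) _ h2 (hx.cup hx _ h1) hx' (aCob_cup_sub (s := 2) _ h1 hx hx' h h) h
  have h5 := aCob_add h4 h3
  rwa [sub_add_cancel] at h5

/-- The cochains of `θ₃`: `d h = 3 x`, `h b ^ 3 = 0` and `x ^ 3 = 0` in the cohomology mod `3`. -/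
def ThAlg : Prop := ∀ (t : Cob Laz 1) (ht : IsT1 3 t), ∃ (h : Cob Laz 1) (x : Cob Laz 2),
  Cob.IsWt 54 h ∧ Cob.IsWt 54 x ∧ Cob.d 1 h = (3 : ℤ) • x ∧ ¬ ACob 3 3 54 h ∧
    ACob 3 1 72 (cupC (s := 1) (σ := 6) (s' := 7) rfl h (b3W ht).1) ∧ ACob 3 1 162 (cb3 x)

/-! ### Couples -/

section Couple

variable {C : Couple.{u, v}}

lemma lifts_succ_of_null {r t : ℕ} {m : ℤ} (h : r ≤ t) (y : C.D t m)
    (hy : Null C r (C.j t m y)) : Lifts (C.proj m h y) (t + 1) :=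
  Lifts.succ_of_kill ⟨h, y, rfl⟩ fun h' y' hy' => by
    have h1 : Null C r (C.j t m (y' - y)) := ⟨h, _, by rw [proj_sub, hy', sub_self], rfl⟩
    have h2 := h1.add hy
    rwa [map_sub, sub_add_cancel] at h2

end Couple

section Gen

variable {T : Type u} [Category.{v} T] [Preadditive T] [HasZeroObject T] [HasShift T ℤ]
  [∀ n : ℤ, (shiftFunctor T n).Additive] [Pretriangulated T] [MonoidalCategory T]
  [SymmetricCategory T] [TensorTriangulated T] [HasCoproducts.{0} T] [MonoidalClosed T]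
  [IsTriangulated T] [HasProducts.{0} T] [StableCat T] (D : MUData T) (U : UnitCof D.R)
  {M : T} (i : 𝟙_ T ⟶ M)

lemma e332 : (322 : ℤ) + ((10 : ℕ) : ℤ) = 2 * 166 := by norm_num

/-- The product with `v₁` of a cochain of degree `10` and weight `164`. -/
noncomputable def v10 (z : Cob.wt Laz 10 164) : Cob.wt Laz 10 166 :=
  cupW (add_zero 10) (by norm_num) z D3.v1

/-- The level `10`: a permanent cycle `v₁ z` in the stem `322` is hit from filtration `≥ 2`. -/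
def K10 : Prop := ∀ (y : (CC D U M).D 10 322) (z : Cob.wt Laz 10 164),
  Cob.d 10 z.1 ∈ IC 3 1 11 → (CC D U M).j 10 322 y = cls D U i e332 (v10 z) →
    Null (CC D U M) 2 ((CC D U M).j 10 322 y)

variable (M) in
/-- The level `s`: every permanent cycle in the stem `322` is hit from filtration `≥ 2`. -/
def Kil (s : ℕ) : Prop := ∀ y : (CC D U M).D s 322, Null (CC D U M) 2 ((CC D U M).j s 322 y)

variable (M) in
/-- The end game. -/
def K22 : Prop := ∀ y : (CC D U M).D 22 322,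
  (CC D U M).proj 322 (show 2 ≤ 22 by norm_num) y = 0

variable {D U i}

lemma j_of_three {δ : M ⟶ (𝟙_ T)⟦(1 : ℤ)⟧} (hM : Dist ((3 : ℤ) • 𝟙 (𝟙_ T)) i δ) {s : ℕ}
    {n m w : ℤ} (e : n = m + 1) (h1 : n + (s : ℤ) = 2 * w) (h2 : m + ((s + 1 : ℕ) : ℤ) = 2 * w)
    {h : Cob.wt Laz s w} {x : Cob.wt Laz (s + 1) w} (hx : Cob.dwt Laz s w h = (3 : ℤ) • x)
    {th : (CC D U (𝟙_ T)).D (s + 1) m}
    (hth : (3 : ℤ) • th = (CC D U (𝟙_ T)).k s n m e (cls D U (𝟙 _) h1 h)) :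
    (CC D U (𝟙_ T)).j (s + 1) m th = cls D U (𝟙 _) h2 x := by
  have h3 := d_cls D U (𝟙 (𝟙_ T)) e h1 h2 h
  rw [Couple.d_apply, ← hth, hx, map_zsmul, map_zsmul, ← sub_eq_zero, ← smul_sub] at h3
  rw [← sub_eq_zero]
  refine (eE U (𝟙_ T) h2).injective ?_
  rw [map_zero]
  refine B.torsionFree_W D U (p := 3) (by norm_num) hM (s + 1) w _ ?_
  rw [Nat.cast_ofNat, ← map_zsmul, h3, map_zero]

lemma kil_step {δ : M ⟶ (𝟙_ T)⟦(1 : ℤ)⟧} (hM : Dist ((3 : ℤ) • 𝟙 (𝟙_ T)) i δ) {m : ℤ} {s : ℕ}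
    (s' : ℕ) (hs : s + 4 = s') (h4 : (4 : ℤ) ∣ m + s) (h : 2 ≤ s) (y : (CC D U M).D s m)
    (hy : Null (CC D U M) 2 ((CC D U M).j s m y)) : Lifts ((CC D U M).proj m h y) s' :=
  Lifts.of_alg (cycM hM) (t := s + 1) (by omega) (by omega) (lifts_succ_of_null h y hy)
    fun _ _ _ _ _ => algVan_three (by omega)

/-- The class `v θ³` dies in filtration two. -/
theorem omega_zero {δ : M ⟶ (𝟙_ T)⟦(1 : ℤ)⟧} (hM : Dist ((3 : ℤ) • 𝟙 (𝟙_ T)) i δ)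
    (th : (CC D U (𝟙_ T)).D 2 106) (x : Cob.wt Laz 2 54)
    (hx : (CC D U (𝟙_ T)).j 2 106 th = cls D U (𝟙 _) D3.e108 x)
    (h3 : ACob 3 1 162 (cb3 x.1)) (k10 : K10 D U i) (k14 : Kil D U M 14) (k18 : Kil D U M 18)
    (k22 : K22 D U M) (y : (CC D U M).D 0 4) (hy : (CC D U M).j 0 4 y = cls D U i D3.e4 D3.v1) :
    (CC D U M).proj 322 (show 2 ≤ 6 by norm_num) (D3.omega D U th y) = 0 := by
  have H : Cyc D 3 1 i := cycM hM
  obtain ⟨g, hg, hA⟩ := exists_acts (p := 3) (by norm_num) hM (v := 2) (by norm_num)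
    D3.e4.symm y hy
  have A := acts_of_j (𝟙 _) (v := 54) (a := 106) (by norm_num) D3.e108.symm th hx
  have e6 : (318 : ℤ) + ((6 : ℕ) : ℤ) = 2 * 162 := by norm_num
  have h1 : Null (CC D U M) 2 ((CC D U M).j 6 318 (mapD i (D3.cube D U th))) := by
    have e1 : (54 : ℤ) + 54 = 108 := by norm_num
    have e2 : (108 : ℤ) + 54 = 162 := by norm_num
    rw [j_mapD, D3.cube, CMap.j_f, CMap.j_f, hx, D3.mulTh,
      A 2 4 106 212 54 108 rfl _ e1 _ (by norm_num), A 4 6 212 318 108 162 rfl _ e2 _ e6,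
      mapE_cls, Category.id_comp]
    exact (null_of_aCob H e6 (z := cupW (s := 4) rfl e2 (cupW (s := 2) rfl e1 x x) x) h3).mono
      (by norm_num)
  obtain ⟨h10, κ, hκ⟩ := kil_step hM 10 rfl (by norm_num) (by norm_num) _ h1
  obtain ⟨z, hz, hj⟩ := exists_cocycle H (w := 164) (by norm_num) _ ((CC D U M).isCocycle_j κ)
  rw [D3.omega_eq D U th y g hg,
    CMap.proj_f _ _ (b := 2) (b' := 2) (c := 6) (c' := 6) rfl rfl (by norm_num), ← hκ,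
    ← CMap.proj_f _ _ (c := 10) (c' := 10) rfl rfl h10 h10]
  generalize hy10 : CMap.fD _ 10 10 318 322 _ _ κ = y10
  obtain ⟨h14, y14, e14⟩ := kil_step hM 14 rfl (by norm_num) h10 y10 (k10 y10 z hz (by
    rw [← hy10, CMap.j_f, ← hj, hA 10 10 318 322 164 166 rfl _ (by norm_num) _ e332, v10]))
  obtain ⟨h18, y18, e18⟩ := kil_step hM 18 rfl (by norm_num) h14 y14 (k14 y14)
  obtain ⟨h22, y22, e22⟩ := kil_step hM 22 rfl (by norm_num) h18 y18 (k18 y18)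
  rw [← e14, ← e18, ← e22]
  exact k22 y22

end Gen

open Vale.Agent.P251.St

/-- The four levels, in every model. -/
def KAll : Prop := ∀ (T : SHCat) (_ : Susp T) (D : MUData T.C) (U : UnitCof D.R) (M : T.C)
  (i : 𝟙_ T.C ⟶ M) (δ : M ⟶ (𝟙_ T.C)⟦(1 : ℤ)⟧), Dist ((3 : ℤ) • 𝟙 (𝟙_ T.C)) i δ →
    K10 D U i ∧ Kil D U M 14 ∧ Kil D U M 18 ∧ K22 D U M

/-- **The assembly of the core.** -/
theorem coreC_of (hA : J2Alg) (hT : ThAlg) (hK : KAll) : D3.CoreC := by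
  intro T S D U t ht M i δ hM
  obtain ⟨k10, k14, k18, k22⟩ := hK T S D U M i δ hM
  obtain ⟨h₀, x₀, hw, hw', hd, hn, hb, h3⟩ := hT t ht
  have hd0 : Cob.d 2 x₀ ∈ IC 3 1 3 := by
    rw [Cob.eq_zero_of_smul (m := 3) (x := Cob.d 2 x₀) (by norm_num)
      (by rw [← map_zsmul, ← hd, Cob.d_d])]
    exact zero_mem _
  have hx54 := hw'
  rw [← w0_two] at hw hw' hn
  obtain ⟨z, g, c, hN⟩ := St5.exists_nrm (j := 2) ht ⟨h₀, hw⟩ ⟨x₀, hw'⟩ (Subtype.ext hd)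
  have hb' := aCob_adjust w0_two (b3W ht).2 (d_b3W ht) ⟨h₀, hw⟩ z g hb
  have hc : ¬ (3 : ℤ) ∣ c := fun hc => hn ⟨z.1, z.2, by
    have h1 : (3 : ℤ) • g.1 ∈ IC 3 3 1 :=
      IC_mono (IC_mono ((mem_IC_three_iff ((3 : ℤ) • g)).2 ⟨g, rfl⟩))
    have h2 : h₀ - Cob.d 0 z.1 - (3 : ℤ) • g.1 + (3 : ℤ) • g.1 ∈ IC 3 3 1 :=
      add_mem (hN.mem hc) h1
    rwa [sub_add_cancel] at h2⟩
  have hg : Cob.IsWt 54 g.1 := w0_two ▸ g.2
  have hx' : Cob.IsWt 54 (x₀ - Cob.d 1 g.1) :=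
    w0_two ▸ ((⟨x₀, hw'⟩ : Cob.wt Laz 2 (Det.w0 2)) - Cob.dwt Laz 1 _ g).2
  have hd' : Cob.d 2 (x₀ - Cob.d 1 g.1) ∈ IC 3 1 3 := by
    rwa [map_sub, Cob.d_d, sub_zero]
  have h4 : ACob 3 1 162 (cb3 (x₀ - Cob.d 1 g.1)) :=
    aCob_cb3 ⟨hx54, hd0⟩ ⟨hx', hd'⟩ ⟨-g.1, (Cob.wt Laz 1 54).neg_mem hg, by
      rw [map_neg, sub_sub_cancel_left, sub_self]
      exact zero_mem _⟩ h3
  generalize (⟨h₀, hw⟩ : Cob.wt Laz 1 (Det.w0 2)) - Cob.dwt Laz 0 _ z - (3 : ℤ) • g = h at hN hb'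
  have h5 : (Cob.dwt Laz 1 _ h).1 ∈ IC 3 1 2 := (mem_IC_three_iff _).2 ⟨_, hN.dh⟩
  obtain ⟨th, hth⟩ := exists_bd (D := D) (U := U) hM rfl D3.e107 h
    (survive_107 hA hM ht D3.e107 h h5 hb')
  refine ⟨h, _, c, hc, hN, th, hth, omega_zero hM th ⟨_, hx'⟩ ?_ h4 k10 k14 k18 k22⟩
  have h6 : (106 : ℤ) + ((1 + 1 : ℕ) : ℤ) = 2 * Det.w0 2 := by rw [w0_two]; norm_num
  rw [j_of_three hM rfl D3.e107 h6 hN.dh hth]
  exact cls_wt w0_two rfl

end Vale.Agent.P236K.Core
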