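import Vale.Agent.P236K.SS.One

/-!
# P236K, Core: the high filtrations

* `CMap.kill_all`: if a map of couples whose image dies at the level `q` is onto on the `E₂`-terms
  of one stem and injective on those of the previous stem, everything dies at the level `q`;
* `exists_acts_kill`: a lift of `cls b` which dies at the level `q` gives such a multiplier on the
  couple of the Moore object.
-/

open CategoryTheory MonoidalCategory Limits Pretriangulated MonObj

set_option linter.unusedSectionVars false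

universe v u v' u'

namespace Vale.Agent.P236K.SS

open Vale.Agent.P251 Vale.Agent.P251.T Vale.Agent.P251.F Vale.Agent.P251.I
  Vale.Agent.P251.M Vale.Agent.P257.H314 Vale.Agent.P257.H712 Vale.Agent.P251.H
open Vale.Agent.P251.S hiding IC
open Vale.Agent.P257.H820 (bV shR)
open Vale.Agent.P236Z

/-- Everything of filtration at least `r + σ` dies at the level `q`. -/
theorem CMap.kill_all {C : Couple.{u, v}} {C' : Couple.{u', v'}} {σ : ℕ} {a : ℤ}
    (f : CMap C C' σ a) {m m' n' : ℤ} (e : m + a = m') (e' : m + 1 + a = n') {q r T : ℕ}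
    (hq : q + 1 ≤ r + σ)
    (hK : ∀ (s s' : ℕ) (hs : s + σ = s') (h : q ≤ s') (z : C.D s (m + 1)),
      C'.proj n' h (f.fD s s' (m + 1) n' hs e' z) = 0)
    (hS : ∀ b, r ≤ b → f.Surj b (m + 1)) (hI : ∀ t, r + 2 ≤ t → f.Inj t m)
    (hD : ∀ t, T ≤ t → ∀ y : C.D t m, y = 0) (hD' : ∀ t, T ≤ t → ∀ y : C'.D t n', y = 0)
    {s' : ℕ} (hs' : r + σ ≤ s') (h : q ≤ s') (y : C'.D s' n') : C'.proj n' h y = 0 := by
  obtain rfl : n' = m' + 1 := by omega
  have key : ∀ (d s' : ℕ), T ≤ s' + d → r + σ ≤ s' → ∀ (h : q ≤ s') (y : C'.D s' (m' + 1)),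
      C'.proj (m' + 1) h y = 0 := by
    intro d
    induction d with
    | zero =>
      intro s' hT _ h y
      rw [hD' s' hT y, C'.proj_zero']
    | succ d ih =>
      intro s' hT hs' h y
      obtain ⟨s, rfl⟩ : ∃ s, s' = s + σ := ⟨s' - σ, by omega⟩
      obtain ⟨x, hx, hn⟩ := hS s (by omega) (s + σ) (m' + 1) rfl e' _ (C'.isCocycle_j y)
      have h1 := Null.k_eq_zero (m := m') rfl hn
      rw [map_sub, C'.k_j, zero_sub, neg_eq_zero] at h1
      obtain ⟨z, rfl⟩ := exists_j_eq rfl x (T + s + 3)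
        (CMap.survive_lifts (f := f) e (r := s) (r' := s + σ) rfl rfl (by omega)
          (fun b hb _ => hS b (by omega)) (fun t ht _ => hI t (by omega)) x hx (by
            rw [h1]
            exact Lifts.zero (by omega))) (hD _ (by omega))
      obtain ⟨h2, c, hc, hj⟩ := hn
      obtain ⟨y', hy'⟩ := C'.exact_j (s + σ) (m' + 1)
        (y - f.fD s (s + σ) (m + 1) (m' + 1) rfl e' z - c) (by
          rw [map_sub, map_sub, f.j_f, hj, sub_self])
      have h3 : C'.proj (m' + 1) h c = 0 := by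
        rw [← proj_proj C' (show q ≤ s + σ - 1 by omega) h2, hc, C'.proj_zero']
      have h4 := ih (s + σ + 1) (by omega) (by omega) (by omega) y'
      rw [C'.proj_succ (m' + 1) h, hy', proj_sub, proj_sub, h3, hK, sub_zero, sub_zero] at h4
      exact h4
  exact key T s' (by omega) hs' h y

variable {T : Type u} [Category.{v} T] [Preadditive T] [HasZeroObject T] [HasShift T ℤ]
  [∀ n : ℤ, (shiftFunctor T n).Additive] [Pretriangulated T] [MonoidalCategory T]
  [SymmetricCategory T] [TensorTriangulated T]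

section Tensor

variable {R : T} [MonObj R] {U : UnitCof R}

@[reassoc]
lemma red_bV {V : T} (i : 𝟙_ T ⟶ V) (s : ℕ) (Y : T) :
    Dt.red i (U.cobar.B s Y) ≫ (bV U V s Y).hom = U.cobar.Bm s (Dt.red i Y) := by
  induction s generalizing Y with
  | zero => exact Category.comp_id _
  | succ s ih =>
    rw [P257.H820.bV_succ]
    refine ((reassoc_of% ih (U.J ⊗ Y)) _).trans ?_
    rw [CobarData.Bm_succ, ← CobarData.Bm_comp]
    congr 1
    change ((ρ_ (U.J ⊗ Y)).inv ≫ (U.J ⊗ Y) ◁ i) ≫ (α_ U.J Y V).hom =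
      U.J ◁ ((ρ_ Y).inv ≫ Y ◁ i)
    simp

/-- Projections commute with `- ⊗ V`. -/
lemma proj_tensor {P P' Y V Z : T} (μ₀ : Y ⊗ V ⟶ Z) {n n' : ℤ} {q s : ℕ} (h : q ≤ s)
    (y : (TC U P Y).D s n) (w : (TC U P' Z).D s n')
    (hw : ∃ e : P'⟦n' + (s : ℤ)⟧ ⟶ P⟦n + (s : ℤ)⟧ ⊗ V, eD U P' rfl w =
      e ≫ (eD U P rfl y ▷ V) ≫ (bV U V s Y).hom ≫ U.cobar.Bm s μ₀) :
    ∃ e : P'⟦n' + (q : ℤ)⟧ ⟶ P⟦n + (q : ℤ)⟧ ⊗ V, eD U P' rfl ((TC U P' Z).proj n' h w) =
      e ≫ (eD U P rfl ((TC U P Y).proj n h y) ▷ V) ≫ (bV U V q Y).hom ≫ U.cobar.Bm q μ₀ := by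
  induction s, h using Nat.le_induction with
  | base => rwa [Couple.proj_self, Couple.proj_self]
  | succ s h ih =>
    rw [Couple.proj_succ _ n' h, Couple.proj_succ _ n h]
    apply ih
    obtain ⟨e, he⟩ := hw
    have e1 : n' + (s : ℤ) + 1 = n' + ((s + 1 : ℕ) : ℤ) := by push_cast; ring
    have e2 : n + (s : ℤ) + 1 = n + ((s + 1 : ℕ) : ℤ) := by push_cast; ring
    refine ⟨(sh _ 1 _ e1).symm (e ≫ ((shiftFunctorAdd' T _ 1 _ e2).hom.app P ▷ V) ≫
      (shR _ V).hom), ?_⟩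
    apply (sh _ 1 _ e1).injective
    have h1 : ((shiftFunctorAdd' T _ 1 _ e2).hom.app P ≫
        (eD U P rfl ((TC U P Y).i s n y))⟦(1 : ℤ)⟧') = eD U P rfl y ≫ U.bd s Y :=
      eD_i rfl rfl e2 y
    have h2 := P257.H820.wV_c U V s Y
    rw [Category.assoc] at h2
    rw [eD_i rfl rfl e1, he, sh_comp, AddEquiv.apply_symm_apply, Functor.map_comp,
      Functor.map_comp]
    simp only [Category.assoc]
    rw [← P257.H820.shR_nat_left_assoc, ← comp_whiskerRight_assoc, h1, comp_whiskerRight,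
      Category.assoc, reassoc_of% h2, U.bd_naturality]

end Tensor

variable [HasCoproducts.{0} T] {D : MUData T} {U : UnitCof D.R}
  [MonoidalClosed T] [IsTriangulated T] [HasProducts.{0} T] [StableCat T]

/-- A lift of `cls b` which dies at the level `q` gives a multiplier whose products die at the
level `q`. -/
theorem exists_acts_kill {p : ℕ} [Fact p.Prime] (hp : p ≠ 2) {M : T} {i : 𝟙_ T ⟶ M}
    {δ : M ⟶ (𝟙_ T)⟦(1 : ℤ)⟧} (hM : Dist ((p : ℤ) • 𝟙 (𝟙_ T)) i δ) {σ q : ℕ} {a v : ℤ}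
    (hv : 0 ≤ v) (ha : 2 * v = a + σ) {b : Cob.wt Laz σ v}
    (hb : Null (CC D U M) q (cls D U i ha.symm b)) :
    ∃ f : CMap (CC D U M) (CC D U M) σ a, Acts i i f b ∧
      ∀ (s s' : ℕ) (n n' : ℤ) (hs : s + σ = s') (e : n + a = n') (h : q ≤ s')
        (z : (CC D U M).D s n), (CC D U M).proj n' h (f.fD s s' n n' hs e z) = 0 := by
  obtain ⟨hq, y, hy0, hy⟩ := hb
  obtain ⟨μ₀, hμ⟩ := (Dt.dist_red hM M).desc₂ (𝟙 M) (by rw [Category.comp_id, kil_M D hp hM])
  obtain ⟨e₀, he₀⟩ := exists_ext_shift hM (a + (σ : ℤ)) (Dt.red i ((𝟙_ T)⟦a + (σ : ℤ)⟧)) (by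
    rw [Functor.map_zsmul, CategoryTheory.Functor.map_id]
    exact Dt.zsmul_red' hM _)
  obtain ⟨w, hw⟩ : ∃ w : (TC U M M).D σ a, eD U M rfl w =
      e₀ ≫ (eD U (𝟙_ T) rfl y ▷ M) ≫ (bV U M σ M).hom ≫ U.cobar.Bm σ μ₀ :=
    ⟨_, AddEquiv.apply_symm_apply _ _⟩
  obtain ⟨e₁, he₁⟩ := proj_tensor μ₀ hq y w ⟨e₀, hw⟩
  rw [hy0, map_zero, MonoidalPreadditive.zero_whiskerRight, zero_comp, comp_zero] at he₁
  have h1 : ∀ (k : ℤ) (hk : a + (σ : ℤ) = k), i⟦k⟧' ≫ eD U M hk w = eD U (𝟙_ T) hk y := by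
    intro k hk
    subst hk
    rw [hw, reassoc_of% he₀, ← Dt.red_nat_assoc, red_bV_assoc, ← CobarData.Bm_comp, hμ,
      CobarData.Bm_id, Category.comp_id]
  refine ⟨mulW hv ha (eD U M ha.symm w), acts_mulW ha hv _ (by
    rw [h1]
    exact (rep_iff D U i ha.symm y b).2 hy), fun s s' n n' hs e h z => ?_⟩
  apply (eD U (𝟙_ T) rfl).injective
  rw [mulW, eD_proj_mulC _ ha w hs e hq h rfl rfl (by omega), he₁, comp_zero, map_zero]

end Vale.Agent.P236K.SS
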