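import Vale.Agent.P236K.Core.End
import Vale.Agent.P236K.Core.DF
import Vale.Agent.P236K.Alg.BLine
import Vale.Agent.P257.H762.TL

/-!
# P236K, Core: the filtrations from `22` on in the stem `322`

* `CMap.null_of_null`: division of differentials;
* `null_b6`: the class of `b ^ 6` is killed by a class of filtration at least three;
* `end22`: every element of filtration `22` in the stem `322` dies at the level two;
* `j2Alg_of`: reduction of `J2Alg`.
-/

open CategoryTheory MonoidalCategory Limits Pretriangulated MonObj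

set_option linter.unusedSectionVars false

universe v u v' u'

namespace Vale.Agent.P236K.SS

open Vale.Agent.P251 Vale.Agent.P251.T Vale.Agent.P251.F Vale.Agent.P251.I
  Vale.Agent.P251.M Vale.Agent.P257.H314 Vale.Agent.P257.H712 Vale.Agent.P251.H
open Vale.Agent.P251.S hiding IC
open Vale.Agent.P251.B (sphE)
open Vale.Agent.P257.H762 (AI tSm tS Kil)
open Vale.Agent.P236Z Vale.Agent.P236K.Alg

/-- **Division of differentials.** -/
theorem CMap.null_of_null {C : Couple.{u, v}} {C' : Couple.{u', v'}} {σ : ℕ} {a : ℤ}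
    (f : CMap C C' σ a) {m m' : ℤ} (e : m + a = m') {t t' : ℕ} (ht : t + σ = t') (d : ℕ) :
    ∀ (r r' : ℕ), r + σ = r' → r + 1 + d = t → (∀ b, r ≤ b → b + 2 ≤ t → f.Surj b (m + 1)) →
      (∀ c, r + 2 ≤ c → c < t → f.Inj c m) → f.Inj t m → ∀ z : C.E t m, C.IsCocycle z →
      Null C' r' (f.fE t t' m m' ht e z) → Null C r z := by
  induction d with
  | zero =>
    intro r r' hr hd _ _ hI z hz hn
    obtain rfl : r = t - 1 := by omega
    exact hI t' m' ht e z hz (by rwa [show t' - 1 = r' by omega])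
  | succ d ih =>
    intro r r' hr hd hS hI hI' z hz hn
    obtain ⟨x', hx'⟩ := exists_dif_of_null (by omega) hn
    obtain ⟨x, hx, h1⟩ := hS r le_rfl (by omega) r' (m' + 1) hr (by omega) x'
      (hx'.isCocycle (by omega))
    have h2 : Dif (f.fE r r' (m + 1) (m' + 1) hr (by omega) x) (f.fE t t' m m' ht e z) :=
      hx'.of_null_source (q := r' - 1) (by simpa using Null.neg h1)
    have h3 : Lifts (C.k r (m + 1) m rfl x) t := by
      rcases Nat.lt_or_ge t (r + 3) with h | h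
      · obtain rfl : t = r + 2 := by omega
        exact lifts_two rfl x hx
      · exact CMap.survive_lifts e hr ht h (fun b hb hb' => hS b (by omega) hb') hI x hx h2.lifts
    obtain ⟨z₁, hz₁⟩ := exists_dif_of_lifts h3
    have h4 := h2.unique (f.dif hr ht e hz₁)
    rw [← map_sub] at h4
    have h5 := ih (r + 1) (r' + 1) (by omega) (by omega) (fun b hb hb' => hS b (by omega) hb')
      (fun c hc hc' => hI c (by omega) hc') hI' (z - z₁) (IsCocycle.sub hz hz₁.isCocycle_target) h4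
    simpa using (h5.mono (Nat.le_succ r)).add hz₁.null

variable {T : Type u} [Category.{v} T] [Preadditive T] [HasZeroObject T] [HasShift T ℤ]
  [∀ n : ℤ, (shiftFunctor T n).Additive] [Pretriangulated T] [MonoidalCategory T]
  [SymmetricCategory T] [TensorTriangulated T] [HasCoproducts.{0} T] {D : MUData T}
  {U : UnitCof D.R}

section Cyc

variable {p h₀ : ℕ} {V V' : T} {i : 𝟙_ T ⟶ V} {i' : 𝟙_ T ⟶ V'} (H : Cyc D p h₀ i)
  {σ : ℕ} {a v : ℤ} (ha : 2 * v = a + σ) {f g : CMap (CC D U V) (CC D U V') σ a}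
  {b : Cob.wt Laz σ v} (hf : Acts i i' f b) (hg : Acts i i' g b)

include H ha hf hg

lemma Acts.fE_eq {s s' : ℕ} {n n' : ℤ} (hs : s + σ = s') (e : n + a = n')
    (x : (CC D U V).E s n) : f.fE s s' n n' hs e x = g.fE s s' n n' hs e x := by
  rcases Int.even_or_odd' (n + (s : ℤ)) with ⟨w, hw | hw⟩
  · obtain ⟨z, rfl⟩ := cls_surj H hw x
    have h' : n' + (s' : ℤ) = 2 * (w + v) := by omega
    rw [hf s s' n n' w _ hs e rfl hw h', hg s s' n n' w _ hs e rfl hw h']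
  · rw [E_odd H hw x, map_zero, map_zero]

lemma Acts.surj_congr {s : ℕ} {n : ℤ} (h : f.Surj s n) : g.Surj s n := by
  intro s' n' hs e x hx
  obtain ⟨y, hy, hn⟩ := h s' n' hs e x hx
  exact ⟨y, hy, by rwa [← Acts.fE_eq H ha hf hg]⟩

lemma Acts.inj_congr {s : ℕ} {n : ℤ} (h : f.Inj s n) : g.Inj s n := by
  intro s' n' hs e x hx hn
  exact h s' n' hs e x hx (by rwa [Acts.fE_eq H ha hf hg])

end Cyc

variable [MonoidalClosed T] [IsTriangulated T] [HasProducts.{0} T] [StableCat T]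
  {M : T} {i : 𝟙_ T ⟶ M} {δ : M ⟶ (𝟙_ T)⟦(1 : ℤ)⟧} (hM : Dist ((3 : ℤ) • 𝟙 (𝟙_ T)) i δ)
  {t : Cob Laz 1} (ht : IsT1 3 t)

section Steps

variable {f : CMap (CC D U M) (CC D U M) 2 10} (hf : Acts i i f (bW ht))

include hM hf

lemma surj_of_aSurj {s : ℕ} {n : ℤ} (h : ∀ w, n + (s : ℤ) = 2 * w → 2 ∣ w → 9 * (s : ℤ) < w →
    ASurj 3 1 1 (bW ht).1 6 s w) (hs : 1 ≤ s) : f.Surj s n :=
  hf.surj (cycM hM) (cycM hM) (by norm_num) fun w hw => by
    by_cases h2 : 2 ∣ w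
    · by_cases h3 : 9 * (s : ℤ) < w
      · exact h w hw h2 h3
      · exact aSurj_line ht le_rfl hs (by omega)
    · exact aSurj_of_van (algVan_three (by omega))

lemma inj_of_aInj {s : ℕ} {n : ℤ} (h : ∀ w, n + (s : ℤ) = 2 * w → 2 ∣ w → 9 * (s : ℤ) < w + 9 →
    AInj 3 1 1 (bW ht).1 6 s w) (hs : 2 ≤ s) : f.Inj s n :=
  hf.inj (cycM hM) (cycM hM) (by norm_num)
    (fun z hz => d_cupC_mem rfl hz (by rw [d_bW]; exact zero_mem _)) fun w hw => by
    by_cases h2 : 2 ∣ w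
    · by_cases h3 : 9 * (s : ℤ) < w + 9
      · exact h w hw h2 h3
      · exact aInj_line ht le_rfl hs (by omega)
    · exact aInj_of_van (algVan_three (by omega))

omit hM in
/-- The powers of `b`. -/
lemma exists_pow {A B : T} {β : A ⟶ B} (x : (CC D U (𝟙_ T)).D 2 10)
    (hx : (CC D U (𝟙_ T)).j 2 10 x = cls D U (𝟙 _) (by norm_num) (bW ht)) (hβ : SE (und x) β)
    (k : ℕ) : ∀ (σ : ℕ) (a v : ℤ) (_ : σ = 2 * k + 2) (_ : a = 10 * k + 10)
      (h : a + (σ : ℤ) = 2 * v),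
      ∃ (c : Cob.wt Laz σ v) (g : CMap (CC D U M) (CC D U M) σ a) (y : (CC D U (𝟙_ T)).D σ a),
        Cob.d σ c.1 = 0 ∧ Acts i i g c ∧ (CC D U (𝟙_ T)).j σ a y = cls D U (𝟙 _) h c ∧
        SE (und y) (tSm (𝟙 (𝟙_ T)) β (k + 1)) ∧
        (∀ s n, (∀ j ≤ k, f.Surj (s + 2 * j) (n + 10 * j)) → g.Surj s n) ∧
        ∀ s n, (∀ j ≤ k, f.Inj (s + 2 * j) (n + 10 * j)) → g.Inj s n := by
  induction k with
  | zero =>
    intro σ a v hσ ha h
    obtain rfl : σ = 2 := hσ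
    obtain rfl : a = 10 := ha
    obtain rfl : v = 6 := by omega
    exact ⟨bW ht, f, x, d_bW ht, hf, hx, hβ.trans (SE.of_AI (AI.unit_left β).symm),
      fun s n H => by simpa using H 0 le_rfl, fun s n H => by simpa using H 0 le_rfl⟩
  | succ k ih =>
    intro σ a v hσ ha h
    obtain ⟨c, g, y, hd, hg, hy, hy', hS, hI⟩ := ih (2 * k + 2) (10 * k + 10) (6 * k + 6) rfl rfl
      (by push_cast; ring)
    have e1 : 2 * k + 2 + 2 = σ := by omega
    have e2 : 10 * (k : ℤ) + 10 + 10 = a := by push_cast at ha; omega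
    have e3 : 6 * (k : ℤ) + 6 + 6 = v := by push_cast at ha; omega
    refine ⟨cupW e1 e3 c (bW ht), g.comp f e1 e2,
      (mD D U (v := 6) (by norm_num) (by norm_num) x).fD _ _ _ _ e1 e2 y,
      d_cupC_zero _ hd (d_bW ht), hg.comp hf (by push_cast; ring) e1 e2 e3, ?_,
      (SE_und_mD (v := 6) (by norm_num) (by norm_num) x e1 e2 y).trans (hy'.tensor hβ),
      fun s n H => ?_, fun s n H => ?_⟩
    · rw [CMap.j_f, hy, mD]
      exact acts_of_j (𝟙 _) (v := 6) (a := 10) (by norm_num) (by norm_num) x hx _ _ _ _ _ _ e1 e2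
        e3 _ h c
    · refine (hS s n fun j hj => H j (by omega)).comp e1 e2 (by omega) ?_
      have h1 := H (k + 1) le_rfl
      rwa [show s + 2 * (k + 1) = s + (2 * k + 2) by ring,
        show n + 10 * ((k + 1 : ℕ) : ℤ) = n + (10 * k + 10) by push_cast; ring] at h1
    · refine (hI s n fun j hj => H j (by omega)).comp e1 e2 ?_
      have h1 := H (k + 1) le_rfl
      rwa [show s + 2 * (k + 1) = s + (2 * k + 2) by ring,
        show n + 10 * ((k + 1 : ℕ) : ℤ) = n + (10 * k + 10) by push_cast; ring] at h1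

end Steps

variable (D U) in
include hM in
/-- The relation `β₁ ^ 7 = 0` modulo `3`. -/
theorem exists_beta_seven (F : SpaceFunctor T) :
    ∃ (x : (CC D U (𝟙_ T)).D 2 10) (A B : T) (β : A ⟶ B),
      (CC D U (𝟙_ T)).j 2 10 x = cls D U (𝟙 _) (by norm_num) (bW ht) ∧ SE (und x) β ∧
      tSm (𝟙 (𝟙_ T)) β 7 ⊗ₘ i = 0 := by
  obtain ⟨a₀, ha₀⟩ := P257.H762.exists_alpha_one D U (p := 3) (by norm_num) ht (v := 2) rfl
    (isWt_t ht)
  obtain ⟨x₀, hx₀⟩ := B.exists_beta_one D U (p := 3) (by norm_num) ht (w := 6) rfl (isWt_b ht)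
  have h2 : (10 : ℤ) + ((1 + 1 : ℕ) : ℤ) = 2 * 6 := by norm_num
  obtain ⟨x, hx, hx'⟩ := exists_rep_of_sphE (U := U) (σ := 2) h2 (bW ht) x₀ hx₀
  have hT := P257.H163.todaRel F D U (p := 3) (by norm_num) hM t ht (isWt_t ht) (isWt_b ht)
    a₀ ha₀ x₀ hx₀
  refine ⟨x, _, _, x₀ ≫ U.bd 1 (𝟙_ T) ≫ (U.bd 0 (𝟙_ T))⟦(1 : ℤ)⟧', hx', ?_, ?_⟩
  · refine ((SE.sh (t' := 11) (k := 1) (by norm_num) _).trans
      (SE.sh (t' := 2 * 6) (k := 1) (by norm_num) _)).trans (SE.of_AI ?_)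
    rw [sh_und_two h2, hx, Category.assoc, Category.assoc, ← Category.assoc]
    exact AI.of_iso_comp ((sα T 6).symm ≪≫ sphE T 6) _
  · have hK : Kil ((3 : ℕ) : ℤ) M := kil_M D (p := 3) (by norm_num) hM
    have h3 := P257.H762.toda_beta D U (p := 3) (by norm_num) ht (v := 2) (w := 6) rfl rfl
      (isWt_t ht) (isWt_b ht) a₀ ha₀ x₀ hx₀ hT (hK.tensor _)
      (i ⊗ₘ tSm (𝟙 (𝟙_ T)) (x₀ ≫ U.bd 1 (𝟙_ T) ≫ (U.bd 0 (𝟙_ T))⟦(1 : ℤ)⟧') 3) (by
        refine ((AI.braid _ _).trans (AI.assoc _ _ _)).eq_zero ?_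
        obtain ⟨g, hg⟩ := hT
        have h4 : 𝟙 M ⊗ₘ (tSm (𝟙 (𝟙_ T)) (x₀ ≫ U.bd 1 (𝟙_ T) ≫ (U.bd 0 (𝟙_ T))⟦(1 : ℤ)⟧') 3 ⊗ₘ
            (a₀ ≫ U.bd 0 (𝟙_ T))) = 0 := hK.tensorHom ⟨g, hg⟩
        have h5 := congrArg (fun z => (i ▷ _) ≫ z) h4
        simp only [comp_zero] at h5
        rw [← tensorHom_id, tensorHom_comp_tensorHom, Category.comp_id, Category.id_comp] at h5
        exact h5) 4 (by norm_num)
    refine AI.eq_zero ?_ h3
    exact (((P257.H762.AI_tSm_add _ 4 3).tensor (AI.refl i)).trans (AI.assoc _ _ _)).trans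
      ((AI.refl _).tensor (AI.braid _ _))

/-- The algebraic input for the high filtrations. -/
def EndAlg : Prop := ∀ (t : Cob Laz 1) (ht : IsT1 3 t),
  ASurj 3 1 1 (bW ht).1 6 10 136 ∧ ASurj 3 1 1 (bW ht).1 6 12 142 ∧
  ASurj 3 1 1 (bW ht).1 6 14 148 ∧ ASurj 3 1 1 (bW ht).1 6 16 154 ∧
  ASurj 3 1 1 (bW ht).1 6 14 138 ∧ AInj 3 1 1 (bW ht).1 6 15 138 ∧
  ASurj 3 1 1 (bW ht).1 6 3 32 ∧
  ∀ x : Cob Laz 1, Cob.IsWt 36 x → Cob.d 1 x ∈ IC 3 1 2 → ACob 3 1 42 (Cob.cup x (bW ht).1)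

lemma AI_comp_unit {X Y : T} (f : X ⟶ 𝟙_ T) (g : 𝟙_ T ⟶ Y) : AI (f ≫ g) (f ⊗ₘ g) :=
  ⟨(ρ_ X).symm, (λ_ Y).symm, by
    rw [MonoidalCategory.tensorHom_def, Iso.symm_hom, Iso.symm_hom,
      ← rightUnitor_inv_naturality_assoc, Category.assoc, leftUnitor_inv_naturality,
      unitors_inv_equal]⟩

variable (D U) in
include hM in
/-- The multiplier `b ^ 6`, whose products die at the level three. -/
theorem exists_b6 (F : SpaceFunctor T) (h1 : ASurj 3 1 1 (bW ht).1 6 3 32)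
    (h2 : ∀ x : Cob Laz 1, Cob.IsWt 36 x → Cob.d 1 x ∈ IC 3 1 2 →
      ACob 3 1 42 (Cob.cup x (bW ht).1)) :
    ∃ (f : CMap (CC D U M) (CC D U M) 2 10) (g : CMap (CC D U M) (CC D U M) 12 60),
      Acts i i f (bW ht) ∧
      (∀ s n, (∀ j ≤ 5, f.Surj (s + 2 * j) (n + 10 * j)) → g.Surj s n) ∧
      (∀ s n, (∀ j ≤ 5, f.Inj (s + 2 * j) (n + 10 * j)) → g.Inj s n) ∧
      ∀ (s s' : ℕ) (n n' : ℤ) (hs : s + 12 = s') (e : n + 60 = n') (h : 3 ≤ s')
        (z : (CC D U M).D s n), (CC D U M).proj n' h (g.fD s s' n n' hs e z) = 0 := by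
  have H : Cyc D 3 1 i := cycM hM
  obtain ⟨f, hf⟩ := exists_mul_b D U hM ht
  obtain ⟨x, A, B, β, hx, hβ, h7⟩ := exists_beta_seven D U hM ht F
  have e6 : (60 : ℤ) + ((12 : ℕ) : ℤ) = 2 * 36 := by norm_num
  have e7 : (70 : ℤ) + ((14 : ℕ) : ℤ) = 2 * 42 := by norm_num
  obtain ⟨c, g, y, hd, hg, hy, hy', hS, hI⟩ := exists_pow ht hf x hx hβ 5 12 60 36 rfl rfl e6
  have n0 : Null (CC D U M) 0 (f.fE 12 14 60 70 rfl rfl (cls D U i e6 c)) := by
    refine ⟨by norm_num, mapD i ((mD D U (v := 6) (by norm_num) (by norm_num) x).fD 12 14 60 70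
      rfl rfl y), (und_eq_zero_iff _).1 ?_, ?_⟩
    · rw [und_mapD]
      refine ((SE.of_AI (AI_comp_unit _ i)).trans (SE.tensor ?_ (SE.refl i))).eq_zero h7
      exact (SE_und_mD (v := 6) (by norm_num) (by norm_num) x rfl rfl y).trans (hy'.tensor hβ)
    · rw [j_mapD, CMap.j_f, hy, mD, acts_of_j (𝟙 _) (v := 6) (a := 10) (by norm_num)
        (by norm_num) x hx 12 14 60 70 36 42 rfl rfl rfl e6 e7, mapE_cls, Category.id_comp,
        hf 12 14 60 70 36 42 rfl rfl rfl e6 e7]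
  have n1 := Null.succ_of_alg H (by norm_num) n0 fun w hw => algVan_three (by omega)
  have n2 := Null.succ_of_dif (by norm_num) n1 fun u hu => hu.null_of_k (by
    have e1 : (70 : ℤ) + 1 + ((1 : ℕ) : ℤ) = 2 * 36 := by norm_num
    have e2 : (80 : ℤ) + 1 + ((3 : ℕ) : ℤ) = 2 * 42 := by norm_num
    obtain ⟨z, hz, rfl⟩ := exists_cocycle H e1 u (hu.isCocycle (by norm_num))
    obtain ⟨u', hu'⟩ := CMap.survive (f := f) (m := 70) (m' := 80) (r := 1) (r' := 3) (T := 71)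
      (q := 2) rfl rfl (by norm_num)
      (fun b hb _ => surj_of_aSurj hM ht hf (fun w hw _ _ => by omega) (by omega))
      (fun s hs _ => inj_of_aInj hM ht hf (fun w hw _ _ => by omega) (by omega))
      (CC_D_eq_zero (bigCell_M (p := 3) hM) (by norm_num)) _ (isCocycle_cls H e1 hz) (by
        rw [hf 1 3 _ _ 36 42 rfl _ rfl e1 e2]
        exact null_of_aCob H e2 (h2 z.1 z.2 hz))
    rw [← hu', Couple.k_j])
  have n5 := Null.of_alg H (r' := 5) (by norm_num) (by norm_num) n2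
    fun s w _ _ hw => algVan_three (by omega)
  have n6 : Null (CC D U M) 3 (cls D U i e6 c) := f.null_of_null (m := 60) rfl rfl 8 3 5 rfl rfl
    (fun b hb _ => surj_of_aSurj hM ht hf (fun w hw _ _ => by
      obtain rfl : b = 3 := by omega
      obtain rfl : w = 32 := by omega
      exact h1) (by omega))
    (fun s hs _ => inj_of_aInj hM ht hf (fun w hw _ _ => by omega) (by omega))
    (inj_of_aInj hM ht hf (fun w hw _ _ => by omega) (by omega)) _
    (isCocycle_cls H e6 (by rw [hd]; exact zero_mem _)) n5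
  obtain ⟨g', hg', hK⟩ := exists_acts_kill (p := 3) (by norm_num) hM (by norm_num) e6.symm n6
  exact ⟨f, g', hf, fun s n h => Acts.surj_congr H e6.symm hg hg' (hS s n h),
    fun s n h => Acts.inj_congr H e6.symm hg hg' (hI s n h), hK⟩

variable (D U) in
include hM in
/-- **The high filtrations in the stem `322`.** -/
theorem end22 (hA : EndAlg) (F : SpaceFunctor T) (h : 2 ≤ 22) (y : (CC D U M).D 22 322) :
    (CC D U M).proj 322 h y = 0 := by
  obtain ⟨t, ht⟩ := T1 3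
  obtain ⟨a1, a2, a3, a4, a5, a6, a7, a8⟩ := hA t ht
  obtain ⟨f, g, hf, hS, hI, hK⟩ := exists_b6 D U hM ht F a7 a8
  have h3 : (CC D U M).proj 322 (show 3 ≤ 22 by norm_num) y = 0 :=
    g.kill_all (m := 261) (m' := 321) (q := 3) (r := 10) (T := 323) rfl rfl (by norm_num)
      (fun s s' hs h z => hK s s' _ _ hs _ h z)
      (fun b hb => hS b _ fun j hj => surj_of_aSurj hM ht hf (fun w hw h2 h9 => by
        push_cast at hw h9
        have h5 : (b = 10 ∧ j = 0 ∧ w = 136) ∨ (b = 10 ∧ j = 1 ∧ w = 142) ∨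
            (b = 10 ∧ j = 2 ∧ w = 148) ∨ (b = 10 ∧ j = 3 ∧ w = 154) ∨
            (b = 14 ∧ j = 0 ∧ w = 138) := by omega
        rcases h5 with ⟨rfl, rfl, rfl⟩ | ⟨rfl, rfl, rfl⟩ | ⟨rfl, rfl, rfl⟩ | ⟨rfl, rfl, rfl⟩ |
          ⟨rfl, rfl, rfl⟩
        exacts [a1, a2, a3, a4, a5]) (by omega))
      (fun s hs => hI s _ fun j hj => inj_of_aInj hM ht hf (fun w hw h2 h9 => by
        push_cast at hw h9
        have h5 : s = 15 ∧ j = 0 ∧ w = 138 := by omega
        obtain ⟨rfl, rfl, rfl⟩ := h5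
        exact a6) (by omega))
      (fun s hs => CC_D_eq_zero (bigCell_M (p := 3) hM) (by omega))
      (fun s hs => CC_D_eq_zero (bigCell_M (p := 3) hM) (by omega)) le_rfl _ y
  rw [← proj_proj _ (show 2 ≤ 3 by norm_num) (show 3 ≤ 22 by norm_num), h3, Couple.proj_zero']

/-! ### Composition of multiplications, and the reduction of `J2Alg` -/

section Comp

variable {p h σ σ' ρ s : ℕ} [Fact p.Prime] {b : Cob Laz σ} {b' : Cob Laz σ'} {v v' v'' w : ℤ}

lemma ASurj.cast {h' n : ℕ} {w' : ℤ} (H : ASurj p h h' b v s w) (e : s + σ = n) (hw : w + v = w')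
    (c : Cob Laz n) (hc : Cob.IsWt w' c) (hd : Cob.d n c ∈ IC p h' (n + 1)) :
    ∃ z : Cob Laz s, Cob.IsWt w z ∧ Cob.d s z ∈ IC p h (s + 1) ∧ ACob p h' w' (c - cupC e z b) := by
  subst e hw
  exact H c hc hd

lemma AInj.cast {h' n : ℕ} {w' : ℤ} (H : AInj p h h' b v s w) (e : s + σ = n) (hw : w + v = w')
    (z : Cob Laz s) (hz : Cob.IsWt w z) (hd : Cob.d s z ∈ IC p h (s + 1))
    (hc : ACob p h' w' (cupC e z b)) : ACob p h w z := by
  subst e hw
  exact H z hz hd hc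

lemma ASurj.cup (e : σ + σ' = ρ) (hv : v + v' = v'') (hb' : Cob.IsWt v' b')
    (hd' : Cob.d σ' b' ∈ IC p h (σ' + 1)) (H : ASurj p h h b v s w)
    (H' : ASurj p h h b' v' (s + σ) (w + v)) : ASurj p h h (cupC e b b') v'' s w := by
  intro c hc hd
  obtain ⟨z₁, hz₁, hd₁, h1⟩ := H'.cast (n := s + ρ) (by omega) (by omega) c hc hd
  obtain ⟨z, hz, hdz, h2⟩ := H z₁ hz₁ hd₁
  refine ⟨z, hz, hdz, ?_⟩
  have h3 := Core.aCob_add h1 (Core.aCob_cup_left (s' := s + ρ) (by omega) (by omega) h2 hb' hd')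
  rwa [Core.cupC_sub_left, sub_add_sub_cancel, ← cupC_rfl, cupC_assoc rfl _ e rfl] at h3

lemma AInj.cup (e : σ + σ' = ρ) (hv : v + v' = v'') (hb : Cob.IsWt v b)
    (hdb : Cob.d σ b ∈ IC p h (σ + 1)) (H : AInj p h h b v s w)
    (H' : AInj p h h b' v' (s + σ) (w + v)) : AInj p h h (cupC e b b') v'' s w := by
  intro z hz hd hc
  refine H z hz hd (H'.cast (n := s + ρ) (w' := w + v'') (by omega) (by omega) _
    (isWt_cupC rfl hz hb rfl) (d_cupC_mem rfl hd hdb) ?_)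
  rwa [← cupC_rfl, cupC_assoc rfl _ e rfl]

end Comp

lemma aSurj_b3 {t : Cob Laz 1} (ht : IsT1 3 t) {s : ℕ} {w : ℤ}
    (h0 : ASurj 3 1 1 (bW ht).1 6 s w) (h1 : ASurj 3 1 1 (bW ht).1 6 (s + 2) (w + 6))
    (h2 : ASurj 3 1 1 (bW ht).1 6 (s + 4) (w + 12)) : ASurj 3 1 1 (b3W ht).1 18 s w :=
  have hd : Cob.d 2 (bW ht).1 ∈ IC 3 1 (2 + 1) := by rw [d_bW]; exact zero_mem _
  ASurj.cup (σ := 4) (σ' := 2) (v := 12) rfl rfl (bW ht).2 hd
    (ASurj.cup (σ := 2) (σ' := 2) (v := 6) rfl rfl (bW ht).2 hd h0 h1) h2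

lemma aInj_b3 {t : Cob Laz 1} (ht : IsT1 3 t) {s : ℕ} {w : ℤ}
    (h0 : AInj 3 1 1 (bW ht).1 6 s w) (h1 : AInj 3 1 1 (bW ht).1 6 (s + 2) (w + 6))
    (h2 : AInj 3 1 1 (bW ht).1 6 (s + 4) (w + 12)) : AInj 3 1 1 (b3W ht).1 18 s w :=
  have hd : Cob.d 2 (bW ht).1 ∈ IC 3 1 (2 + 1) := by rw [d_bW]; exact zero_mem _
  AInj.cup (σ := 4) (σ' := 2) (v := 12) rfl rfl
    (isWt_cupC (s := 2) (σ := 2) rfl (bW ht).2 (bW ht).2 rfl)
    (d_cupC_mem (s := 2) (σ := 2) rfl hd hd)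
    (AInj.cup (σ := 2) (σ' := 2) (v := 6) rfl rfl (bW ht).2 hd h0 h1) h2

/-- `J2Alg` from its first clause and two single multiplications by `b`. -/
theorem j2Alg_of (H : ∀ (t : Cob Laz 1) (ht : IsT1 3 t),
    (∃ x : Cob Laz 1, Cob.IsWt 54 x ∧ Cob.d 1 x ∈ IC 3 1 2 ∧ ¬ ACob 3 3 54 x ∧
      ACob 3 1 72 (cupC (s := 1) (σ := 6) (s' := 7) rfl x (b3W ht).1)) ∧
    ASurj 3 1 1 (bW ht).1 6 5 56 ∧ AInj 3 1 1 (bW ht).1 6 6 56) : J2Alg := by
  intro t ht
  obtain ⟨h1, h2, h3⟩ := H t ht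
  refine ⟨h1, fun s w hw h4 h5 _ => ?_, fun s w hw h4 h5 _ => ?_,
    fun s w hw _ h5 _ => algVan_bline le_rfl (by omega)⟩
  · refine aSurj_b3 ht ?_ (aSurj_line ht le_rfl (by omega) (by push_cast; omega))
      (aSurj_line ht le_rfl (by omega) (by push_cast; omega))
    by_cases h6 : s = 5
    · obtain rfl : w = 56 := by omega
      subst h6
      exact h2
    · exact aSurj_line ht le_rfl (by omega) (by omega)
  · refine aInj_b3 ht ?_ (aInj_line ht le_rfl (by omega) (by push_cast; omega))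
      (aInj_line ht le_rfl (by omega) (by push_cast; omega))
    by_cases h6 : s = 6
    · obtain rfl : w = 56 := by omega
      subst h6
      exact h3
    · exact aInj_line ht le_rfl (by omega) (by omega)

end Vale.Agent.P236K.SS
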