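import Vale.Agent.P236K.Core.Asm

/-!
# P236K, block Core: the levels `10`, `14`, `18` from facts on `d₅`

* `Rel`: relations between cochains, `DF D U i` is one;
* `F10 R`, `F14 R t`, `F18 R t`: the facts on `d₅`;
* `L9 R t`: the rule which gives `d₉` from two differentials `d₅`;
* `k10_of`, `kil14_of`, `kil18_of`, `kAll_of`, `coreC_of_facts`.
-/

open CategoryTheory MonoidalCategory Limits Pretriangulated MonObj

set_option linter.unusedSectionVars false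

universe v u

namespace Vale.Agent.P236K.Core

open Vale.Agent.P251 Vale.Agent.P251.T Vale.Agent.P251.F Vale.Agent.P251.I
  Vale.Agent.P251.M Vale.Agent.P257.H314 Vale.Agent.P257.H712 Vale.Agent.P251.H
  Vale.Agent.P236K.SS Vale.Agent.P236Z
open Vale.Agent.P251.S hiding IC

/-- Relations between cochains. -/
abbrev Rel : Type := ∀ (s s' : ℕ) (_ _ : ℤ), Cob Laz s → Cob Laz s' → Prop

/-- The value `- z b + e t` of a differential `d₉`. -/
noncomputable def val9 (t : Cob Laz 1) {r r' s : ℕ} (h : r + 2 = s) (h' : r' + 1 = s)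
    (z : Cob Laz r) (e : Cob Laz r') : Cob Laz s :=
  cupC h' e t - cupC h z (bcls 3 t)

section Facts

variable (R : Rel) (t : Cob Laz 1)

/-- The `d₅`-cycles among the multiples of `v₁` in `(322, 10)` are values of `d₅`. -/
def F10 : Prop := ∀ z : Cob Laz 10, Cy 164 z →
  R 10 15 166 168 (cupC (add_zero 10) z D3.v1.1) 0 →
    ∃ y, R 5 10 164 166 y (cupC (add_zero 10) z D3.v1.1)

/-- The `d₅`-cycles in `(322, 14)` are values of `d₅` up to multiples of one value of `d₉`. -/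
def F14 : Prop := ∃ (x : Cob Laz 4) (y : Cob Laz 8) (z : Cob Laz 12), Cy 162 z ∧
  R 4 9 162 164 x (cupC rfl y t) ∧ R 8 13 162 164 y (cupC rfl z t) ∧
  ∀ e : Cob Laz 13, Cy 166 e → R 14 19 168 170 (val9 t rfl rfl z e) 0 →
    ∀ c : Cob Laz 14, R 14 19 168 170 c 0 →
      ∃ (k : ℤ) (u : Cob Laz 9), R 9 14 166 168 u (c - k • val9 t rfl rfl z e)

/-- The `d₅`-cycles in `(322, 18)` are values of `d₅` up to multiples of one value of `d₉`. -/
def F18 : Prop := ∃ (x : Cob Laz 6) (y : Cob Laz 10) (z : Cob Laz 14), Cy 158 z ∧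
  R 6 11 158 160 x (cupC rfl y t) ∧ R 10 15 158 160 y (cupC rfl z t) ∧
  ∀ e : Cob Laz 15, Cy 162 e → R 16 21 164 166 (val9 t rfl rfl z e) 0 →
    ∀ c : Cob Laz 18, R 18 23 170 172 c 0 → ∃ (k : ℤ) (u : Cob Laz 13),
      R 13 18 168 170 u (c - k • cupC (s := 16) rfl (val9 t rfl rfl z e) (bcls 3 t))

/-- The rule for `d₉`, for an even degree `r`. -/
def L9 : Prop := ∀ (s r s1 r1 r4 r5 r6 : ℕ) (w w2 w4 w6 : ℤ) (e1 : s + 1 = s1) (e2 : r + 1 = r1)
  (e3 : r4 + 1 = r5) (e4 : r4 + 2 = r6) (e5 : r5 + 1 = r6), s + 4 = r → r + 4 = r4 → 2 ∣ r →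
  2 ∣ w → w + 2 = w2 → w + 4 = w4 → w + 6 = w6 →
  ∀ (x : Cob Laz s) (y : Cob Laz r) (z : Cob Laz r4), Cy w z → R s r1 w w2 x (cupC e2 y t) →
    R r r5 w w2 y (cupC e3 z t) →
      ∃ e : Cob Laz r5, Cy w4 e ∧ R s1 r6 w2 w6 (cupC e1 x t) (val9 t e4 e5 z e)

end Facts

section Gen

variable {T : Type u} [Category.{v} T] [Preadditive T] [HasZeroObject T] [HasShift T ℤ]
  [∀ n : ℤ, (shiftFunctor T n).Additive] [Pretriangulated T] [MonoidalCategory T]
  [SymmetricCategory T] [TensorTriangulated T] [HasCoproducts.{0} T] [MonoidalClosed T]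
  [IsTriangulated T] [HasProducts.{0} T] [StableCat T] (D : MUData T) (U : UnitCof D.R)
  {M : T} (i : 𝟙_ T ⟶ M)

/-- The differentials of the couple of `M` as a relation. -/
def RD : Rel := fun _ _ w w' z z' => DF D U i w w' z z'

variable {D U i} {δ : M ⟶ (𝟙_ T)⟦(1 : ℤ)⟧} (hM : Dist ((3 : ℤ) • 𝟙 (𝟙_ T)) i δ)

lemma cy_v1 : Cy 2 D3.v1.1 := ⟨D3.v1.2, d_v_mem 3 1⟩

theorem k10_of (h : F10 (RD D U i)) : K10 D U i := by
  intro y z hz hy
  have h1 : Cy 164 z.1 := ⟨z.2, hz⟩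
  obtain ⟨u, hu⟩ := h z.1 h1
    (DF.of_j (h1.cup cy_v1 _ rfl) e332 (by norm_num) (by norm_num) hy)
  rw [hy]
  exact (DF.null hu e332).mono (by norm_num)

include hM

lemma kil_of {s s5 r q : ℕ} {w w2 w' u : ℤ} (e : (322 : ℤ) + (s : ℕ) = 2 * w) (hs : s + 5 = s5)
    (hw : w + 2 = w2) (hr : 2 ≤ r) (hq : 2 ≤ q) {x : Cob Laz q} {a : Cob Laz s}
    (ha : DF D U i u w x a)
    (h : ∀ c : Cob Laz s, DF D U i w w2 c (0 : Cob Laz s5) →
      ∃ (k : ℤ) (y : Cob Laz r), DF D U i w' w y (c - k • a)) : Kil D U M s := by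
  intro y
  obtain ⟨c, hc, hj⟩ := exists_cocycle (cycM hM) e _ ((CC D U M).isCocycle_j y)
  obtain ⟨k, y', h1⟩ := h c.1 (DF.of_j ⟨c.2, hc⟩ e (by omega) (by omega) hj.symm)
  have h2 := ((h1.null e).mono hr).add (Null.zsmul k ((ha.null e).mono hq))
  rw [← map_zsmul, ← map_add] at h2
  rw [← hj]
  convert h2 using 2
  exact Subtype.ext (sub_add_cancel _ _).symm

theorem kil14_of {t : Cob Laz 1} (h9 : L9 (RD D U i) t) (h : F14 (RD D U i) t) :
    Kil D U M 14 := by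
  obtain ⟨x, y, z, hz, h1, h2, h3⟩ := h
  obtain ⟨e, he, h4⟩ := h9 4 8 5 9 12 13 14 162 164 166 168 rfl rfl rfl rfl rfl rfl rfl
    (by norm_num) (by norm_num) rfl rfl rfl x y z hz h1 h2
  exact kil_of hM (by norm_num) rfl rfl (by norm_num) (by norm_num) h4
    (h3 e he (DF.dd h4 (by norm_num) (by norm_num)))

theorem kil18_of {t : Cob Laz 1} (ht : IsT1 3 t) (h9 : L9 (RD D U i) t) (h : F18 (RD D U i) t) :
    Kil D U M 18 := by
  obtain ⟨x, y, z, hz, h1, h2, h3⟩ := h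
  obtain ⟨e, he, h4⟩ := h9 6 10 7 11 14 15 16 158 160 162 164 rfl rfl rfl rfl rfl rfl rfl
    (by norm_num) (by norm_num) rfl rfl rfl x y z hz h1 h2
  obtain ⟨f, hf⟩ := exists_mul_b D U hM ht
  exact kil_of hM (by norm_num) rfl rfl (by norm_num) (by norm_num)
    (DF.acts h4 (cy_b ht) hf (by norm_num) (r := 9) (u := 166) rfl rfl rfl rfl)
    (h3 e he (DF.dd h4 (by norm_num) (by norm_num)))

end Gen

open Vale.Agent.P251.St

/-- A property of the relation of differentials holds in every model. -/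
def Every (P : Rel → Cob Laz 1 → Prop) : Prop :=
  ∀ (T : SHCat) (_ : Susp T) (D : MUData T.C) (U : UnitCof D.R) (M : T.C) (i : 𝟙_ T.C ⟶ M)
    (δ : M ⟶ (𝟙_ T.C)⟦(1 : ℤ)⟧), Dist ((3 : ℤ) • 𝟙 (𝟙_ T.C)) i δ →
      ∀ t : Cob Laz 1, IsT1 3 t → P (RD D U i) t

/-- The facts on `d₅`. -/
def FAll : Prop := Every fun R t => F10 R ∧ F14 R t ∧ F18 R t

/-- The end game, in every model. -/
def K22All : Prop := ∀ (T : SHCat) (_ : Susp T) (D : MUData T.C) (U : UnitCof D.R) (M : T.C)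
  (i : 𝟙_ T.C ⟶ M) (δ : M ⟶ (𝟙_ T.C)⟦(1 : ℤ)⟧), Dist ((3 : ℤ) • 𝟙 (𝟙_ T.C)) i δ → K22 D U M

theorem kAll_of (hF : FAll) (h9 : Every L9) (h22 : K22All) : KAll := by
  intro T S D U M i δ hM
  obtain ⟨t, ht⟩ := T1 3
  obtain ⟨h1, h2, h3⟩ := hF T S D U M i δ hM t ht
  have h4 := h9 T S D U M i δ hM t ht
  exact ⟨k10_of h1, kil14_of hM h4 h2, kil18_of hM ht h4 h3, h22 T S D U M i δ hM⟩

theorem coreC_of_facts (hA : J2Alg) (hT : ThAlg) (hF : FAll) (h9 : Every L9) (h22 : K22All) :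
    D3.CoreC := coreC_of hA hT (kAll_of hF h9 h22)

end Vale.Agent.P236K.Core
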