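import Vale.Agent.P236K.Core.End2
import Vale.Agent.P236K.Core.Lev

/-!
# P236K, Core: `K22All` from `EndAlg`
-/

namespace Vale.Agent.P236K.Core

open Vale.Agent.P236K.SS

theorem k22All_of (hA : EndAlg) : K22All := by
  intro T S D U M i δ hM y
  have := CategoryTheory.locallySmall_self.{0} T.C
  exact end22 D U hM hA S.toSpaceFunctor _ y

end Vale.Agent.P236K.Core
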