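import Vale.Agent.P236K.Core.Last
import Vale.Agent.P236K.Core.D5Out
import Vale.Agent.P236K.Cert.F89
import Vale.Agent.P236K.Cert.P96L

/-!
# P236K, block Core: the final statement from the tests which need the values of the nodes
-/

noncomputable section

namespace Vale.Agent.P236K.Core

open Vale.Agent.P236K.Alg Vale.Agent.P236K.Cert D5 Pl

theorem allB_nv (l : ℕ → Lay) (nv nv' : ℕ → ℕ → ℕ) (fm ms fm' ms' : ℕ → ℕ) (u : ℕ → ℕ → ℕ)
    (r : ℕ → ℕ → List ℕ) (p b S T : ℕ) (L : Rows) (Γ : Ctx) (K : List ℕ) (E : Mz) (o o' : Lvl)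
    (D : ThD) : allB ⟨l, nv, fm, ms, u, r, p, b, S, T⟩ L Γ K E o o' D =
      allB ⟨l, nv', fm', ms', u, r, p, b, S, T⟩ L Γ K E o o' D := rfl

/-- **The final statement for the tables of weight at most 89.** -/
theorem final89 {nv : ℕ → ℕ → ℕ} {fm ms : ℕ → ℕ} {L : Rows} {D : ThD} {b b2 b0 b1 : Bool}
    (tw : ℕ → ℕ → BT) (unp : ℕ → ℕ → ℕ)
    (hv : ∀ s < 24, nv s = (D96.np s (lyS (s + 1)) (tw s) (unp s)).nv)
    (bot : (D96.np 0 (lyS 1) (tw 0) (unp 0)).sv 0 = 0)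
    (stp : ∀ s, s + 1 < 24 → Stp (D96.np s (lyS (s + 1)) (tw s) (unp s))
      (D96.np (s + 1) (lyS (s + 1 + 1)) (tw (s + 1)) (unp (s + 1))) (lyS s).gl)
    (c : ∀ s ≤ 24, ∀ t ≤ 89, (FN nv fm ms).chk s t = true) (hP : Prods (FN nv fm ms) L)
    (hD : D.prods (FN nv fm ms) b b2 b0 b1 = true)
    (hB : allB (FN (fun _ _ => 0) id id) L D5D.Gam D5D.ks D5D.E10 D5D.o14 D5D.o18 D = true) :
    St.FINAL :=
  final_of_dat (F := FN nv fm ms) (N₀ := 193) D96 P96.lev0 tw unp (fit89 nv fm ms) hv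
    (num89 nv fm ms) (lay89 nv fm ms) bot stp c hP hD
    ((allB_nv _ _ _ _ _ _ _ _ _ _ _ _ _ _ _ _ _ _ _ _).trans hB) D5D.out

end Vale.Agent.P236K.Core
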