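import Vale.Agent.P236K.Core.All
import Vale.Agent.P236K.Cert.Chain
import Vale.Agent.P236K.Cert.Fact
import Vale.Agent.P236K.Cert.FProd
import Vale.Agent.P236K.Cert.FAp
import Vale.Agent.P236K.Cert.Cok

/-!
# P236K, block Core: the final statement from the tables and the tests
-/

noncomputable section

namespace Vale.Agent.P236K.Core

open Vale.Agent.P236K.Alg Vale.Agent.P236K.Cert D5

theorem apStmt' : ApStmt := apStmt_of (mtStmt efStmt) actStmt decStmt'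

variable {F : FT} {L : Rows} {Γ : Ctx} {K : List ℕ} {E : Mz} {o o' : Lvl} {D : ThD}
  {b b2 b0 b1 : Bool}

/-- **The final statement from the data modulo `I` and the tests.** -/
theorem final_of_lev {n N₀ S₀ : ℕ} {τ₀ : Tw F3 (Fin n)} {Cn : Fin n → Ex → Prop}
    (H : Lev0 τ₀ Cn N₀ S₀) (Q : ℕ → NP) (hL : ∀ s < F.S, F.L (s + 1) = (Q s).L)
    (hv : ∀ s < F.S, F.nv s = (Q s).nv) (num : F.numB N₀ S₀ = true)
    (lay : ∀ s ≤ F.S, F.layB N₀ s = true)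
    (fit : ∀ s ≤ F.S, FitG τ₀ (F.L s).gl s ∧ FitW τ₀ (F.L s))
    (cok : ∀ s < F.S, COK τ₀ Cn (Q s) (F.L s).gl) (bot : (Q 0).sv (τ₀.g0 * 268435456) = 0)
    (stp : ∀ s, s + 1 < F.S → Stp (Q s) (Q (s + 1)) (F.L s).gl)
    (c : ∀ s ≤ F.S, ∀ t ≤ F.T, F.chk s t = true) (hP : Prods F L)
    (hD : D.prods F b b2 b0 b1 = true) (hB : allB F L Γ K E o o' D = true) (h : OutOk Γ E o o') :
    St.FINAL := by
  have hS : F.S ≤ S₀ := by
    simp only [FT.numB, Bool.and_eq_true, Nat.ble_eq] at num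
    exact num.2
  exact final_of_env (goodStmt apStmt') (prodStmt apStmt')
    (env_of H H.isLift F Q hL hv num lay fit cok bot stp) (fun r hr => H.exa (by omega)) c hP hD hB h

/-- the layouts fit the tables -/
def fitB (P : Pl.Dat) (F : FT) (w : ℕ → ℕ) : Prop :=
  P.wB w = true ∧ F.S ≤ P.S ∧ ∀ s ≤ F.S, (F.L s).gl = P.gl s ∧ (F.L s).w = w ∧
    (F.L s).N ≤ P.B.T ∧ (F.L s).gl.length ≤ 190

/-- **The same for tables.** -/
theorem final_of_dat {N₀ : ℕ} (P : Pl.Dat) (H : Lev0 P.tau P.Cn N₀ P.S) (tw : ℕ → ℕ → BT)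
    (unp : ℕ → ℕ → ℕ) {w : ℕ → ℕ} (hw : fitB P F w)
    (hv : ∀ s < F.S, F.nv s = (P.np s (F.L (s + 1)) (tw s) (unp s)).nv)
    (num : F.numB N₀ P.S = true) (lay : ∀ s ≤ F.S, F.layB N₀ s = true)
    (bot : (P.np 0 (F.L 1) (tw 0) (unp 0)).sv 0 = 0)
    (stp : ∀ s, s + 1 < F.S → Stp (P.np s (F.L (s + 1)) (tw s) (unp s))
      (P.np (s + 1) (F.L (s + 1 + 1)) (tw (s + 1)) (unp (s + 1))) (F.L s).gl)
    (c : ∀ s ≤ F.S, ∀ t ≤ F.T, F.chk s t = true) (hP : Prods F L)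
    (hD : D.prods F b b2 b0 b1 = true) (hB : allB F L Γ K E o o' D = true) (h : OutOk Γ E o o') :
    St.FINAL := by
  obtain ⟨h1, h2, h3⟩ := hw
  have hW : ∀ s ≤ F.S, FitW P.tau0 (F.L s) := fun s hs => P.fitW ((h3 s hs).2.1 ▸ h1)
  refine final_of_lev (P.lev0' H) (fun s => P.np s (F.L (s + 1)) (tw s) (unp s)) (fun _ _ => rfl) hv
    num lay (fun s hs => ⟨(h3 s hs).1 ▸ P.fitG (by omega), hW s hs⟩) (fun s hs => ?_)
    (by rwa [P.g0_val, zero_mul]) stp c hP hD hB h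
  rw [(h3 s hs.le).1]
  exact P.cok (by omega) (h3 _ hs).1 (hW _ hs) (h3 _ hs).2.2.1 (h3 _ hs).2.2.2 _ _

end Vale.Agent.P236K.Core
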