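import Vale.Agent.P236K.Core.Out
import Vale.Agent.P236K.Alg.Crd
import Vale.Agent.P236K.Alg.Ops
import Vale.Agent.P236K.Alg.BLine
import Vale.Agent.P236K.Cert.BarSpec

/-!
# P236K, block Core: nodes from bases, and the system of the fifth differentials

* `cOf τ a m s w n r` : the coordinates with respect to a basis `Bas τ a m s w n r`;
* `isNd_cOf`, `dim_cOf`, `sur_cOf`, `injC_cOf`, `repC_cOf` : their properties;
* `sysOf` : the system of the fifth differentials, `Spec.lk`, `Spec.edge0`, `Spec.edge1`;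
* `Ops` : the seven operators, `exists_ops`.
-/

set_option linter.unusedSectionVars false

noncomputable section

namespace Vale.Agent.P236K.Core

open Vale.Agent.P251.F Vale.Agent.P257.H314 Vale.Agent.P236K.SS Vale.Agent.P236K.Alg
  Vale.Agent.P236K.Cert D5 Finset
open Vale.Agent.P251.S (IC)

/-- extension by zero -/
def extN (n : ℕ) : (Fin n → F) →+ V where
  toFun x i := if h : i < n then x ⟨i, h⟩ else 0
  map_zero' := funext fun i => by split_ifs <;> rfl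
  map_add' x y := funext fun i => by
    rw [Pi.add_apply]
    split_ifs
    · rfl
    · exact (add_zero _).symm

theorem extN_lt {n i : ℕ} (h : i < n) (x : Fin n → F) : extN n x i = x ⟨i, h⟩ := dif_pos h

theorem extN_ge {n i : ℕ} (h : n ≤ i) (x : Fin n → F) : extN n x i = 0 := dif_neg (by omega)

theorem extN_inj {n : ℕ} {x : Fin n → F} (h : extN n x = 0) : x = 0 :=
  funext fun i => (extN_lt i.2 x).symm.trans (congrFun h i)

theorem extN_res {n : ℕ} {x : V} (h : ∀ j, n ≤ j → x j = 0) : extN n (fun i => x i) = x :=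
  funext fun i => by
    rcases Nat.lt_or_ge i n with h1 | h1
    · exact extN_lt h1 _
    · rw [extN_ge h1, h i h1]

theorem lc_range {W : Type} [AddCommGroup W] [Module F W] (n : ℕ) (x : V) (r : ℕ → W) :
    lc (fun i : Fin n => x i) (fun i => r i) = ∑ i ∈ range n, x i • r i :=
  Fin.sum_univ_eq_sum_range (fun i => x i • r i) n

theorem lc_extN {W : Type} [AddCommGroup W] [Module F W] {n : ℕ} (x : Fin n → F) (r : ℕ → W) :
    lc x (fun i => r i) = ∑ i ∈ range n, extN n x i • r i := by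
  rw [← lc_range]
  exact congrArg (lc · _) (funext fun i => (extN_lt i.2 x).symm)

section Bas

variable {G : Type} [Fintype G] [DecidableEq G] {τ : Tw F3 G} {a m s n : ℕ} {w : ℤ}
  {r : ℕ → G → Av F3}

theorem exists_crd (h : Bas τ a m s w n r) :
    ∃ R : τ.Crd 3 a m s w n, ∀ i, R.rep i = r i := by
  let Q : Submodule F (G → Av F3) := AddSubgroup.toZModSubmodule 3 (τ.WT 3 (U1 m) w s)
  let φ : (Fin n → F) →ₗ[F] (G → Av F3) := Fintype.linearCombination F fun i => r i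
  have hφ : ∀ x, φ x = lc x fun i => r i := fun x => rfl
  obtain ⟨g, hg⟩ := (Q.mkQ ∘ₗ φ).exists_leftInverse_of_injective (LinearMap.ker_eq_bot'.2
    fun x hx => funext fun i => by
      have h1 : φ x ∈ Q := (Submodule.Quotient.mk_eq_zero Q).1 hx
      rw [hφ, lc_extN] at h1
      exact (extN_lt i.2 x).symm.trans (h.ind _ h1 i i.2))
  refine ⟨⟨(g ∘ₗ Q.mkQ).toAddMonoidHom, fun i => r i, fun u _ hu => ?_, fun i => h.mem i i.2,
    fun i => ?_, fun y hy => ?_⟩, fun _ => rfl⟩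
  · change g (Q.mkQ u) = 0
    rw [show Q.mkQ u = 0 from (Submodule.Quotient.mk_eq_zero Q).2 hu, map_zero]
  · have h1 := LinearMap.congr_fun hg (Pi.single i 1)
    rw [LinearMap.comp_apply, LinearMap.comp_apply, hφ, lc_single, one_smul] at h1
    exact h1
  · obtain ⟨c, hc⟩ := h.span y hy
    exact ⟨fun i => c i, by rwa [lc_range]⟩

open Classical in
/-- the coordinates with respect to a basis -/
def cOf (τ : Tw F3 G) (a m s : ℕ) (w : ℤ) (n : ℕ) (r : ℕ → G → Av F3) : Cob Laz s →+ V :=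
  if h : Bas τ a m s w n r then (extN n).comp (exists_crd h).choose.c else 0

theorem exists_cOf (h : Bas τ a m s w n r) : ∃ R : τ.Crd 3 a m s w n, (∀ i, R.rep i = r i) ∧
    ∀ z, cOf τ a m s w n r z = extN n (R.c z) :=
  ⟨_, (exists_crd h).choose_spec, fun z => by rw [cOf, dif_pos h]; rfl⟩

theorem wz0 : wz 3 0 = 2 := rfl

variable {N : ℤ} (h : Bas τ a m s w n r)

include h

theorem dim_cOf (z : Cob Laz s) {j : ℕ} (hj : n ≤ j) : cOf τ a m s w n r z j = 0 := by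
  obtain ⟨R, -, e⟩ := exists_cOf h
  rw [e, extN_ge hj]

variable (H : τ.Ok 3 N (U1 a)) (hw : w ≤ N)

include H hw

/-- the defining property of the coordinates -/
theorem Ps_sub_cOf {z : Cob Laz s} (hz : Cy w z) :
    τ.Ps 3 s z - ∑ i ∈ range n, cOf τ a m s w n r z i • r i ∈ τ.WT 3 (U1 m) w s := by
  obtain ⟨R, hR, e⟩ := exists_cOf h
  have h1 := R.Ps_sub H hw hz.wt hz.d
  rwa [funext hR, lc_extN, ← e] at h1

theorem cOf_eq {z : Cob Laz s} (hz : Cy w z) {x : V} (hx : ∀ j, n ≤ j → x j = 0)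
    (h1 : τ.Ps 3 s z - ∑ i ∈ range n, x i • r i ∈ τ.WT 3 (U1 m) w s) :
    cOf τ a m s w n r z = x := by
  have h2 := sub_mem h1 (Ps_sub_cOf h H hw hz)
  rw [sub_sub_sub_cancel_left, ← Finset.sum_sub_distrib] at h2
  simp only [← sub_smul] at h2
  funext j
  rcases Nat.lt_or_ge j n with hj | hj
  · exact sub_eq_zero.1 (h.ind (fun i => cOf τ a m s w n r z i - x i) h2 j hj)
  · rw [dim_cOf h z hj, hx j hj]

theorem isNd_cOf (hm : m ≤ a) (hs : ∀ q < s, τ.Exa 3 N q) : IsNd m w (cOf τ a m s w n r) := by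
  obtain ⟨R, -, e⟩ := exists_cOf h
  have e' : w - 2 * m + m * wz 3 0 = w := by rw [wz0]; ring
  refine ⟨fun z hz h1 => ?_, fun z hz => ?_, fun z hz h1 => ?_⟩
  · rw [e, R.c_cob H hw hm hz.wt h1, map_zero]
  · rw [e, R.c_v H (isV_vj m) e' hz.wt, map_zero]
  · obtain ⟨z', h2, h3, h4⟩ := R.c_ker H hw hm hs e' (isV_vj m) hz.wt hz.d (extN_inj (e z ▸ h1))
    exact ⟨z', ⟨h2, h3⟩, h4⟩

theorem injC_cOf (hm : m ≤ a) (hs : ∀ q < s, τ.Exa 3 N q) {w' : ℤ} (e' : w' + 2 * m = w)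
    (ht : Tors 3 F3 s w' m) : InjC w (cOf τ a m s w n r) := by
  obtain ⟨R, -, e⟩ := exists_cOf h
  exact fun z hz h1 => R.c_inj H hw hm hs (by rw [wz0]; omega) ht hz.wt hz.d (extN_inj (e z ▸ h1))

theorem sur_cOf {i : ℕ} (hm : m + i = a) (hs : ∀ q ≤ s, τ.Exa 3 N q) {w' : ℤ}
    (e' : w' + 2 * a = w) (ht : Tors 3 F3 (s + 1) w' i) {x : V} (hx : ∀ j, n ≤ j → x j = 0) :
    x ∈ imC w (cOf τ a m s w n r) := by
  obtain ⟨R, -, e⟩ := exists_cOf h
  obtain ⟨z, h1, h2, h3⟩ := R.c_surj H hw hm hs (by rw [wz0]; omega) ht fun i => x i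
  exact ⟨z, ⟨h1, h2⟩, by rw [e, h3, extN_res hx]⟩

end Bas

/-- `P` is the matrix of the operator `L` -/
def MulF {G : Type} [Fintype G] [DecidableEq G] (τ : Tw F3 G) (m : ℕ)
    (L : (G → Av F3) → G → Av F3) (n : ℕ) (r : ℕ → G → Av F3) (s' : ℕ) (w' : ℤ) (n' : ℕ)
    (r' : ℕ → G → Av F3) (P : List (List ℕ)) : Prop :=
  ∀ i < n, (P.getD i []).length ≤ n' ∧
    L (r i) - ∑ l ∈ range n', vec (P.getD i []) l • r' l ∈ τ.WT 3 (U1 m) w' s'

theorem repC_cOf {G : Type} [Fintype G] [DecidableEq G] {τ : Tw F3 G} {a m s s' σ n n' : ℕ}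
    {w w' v N : ℤ} {r r' : ℕ → G → Av F3} (h : Bas τ a m s w n r) (h' : Bas τ a m s' w' n' r')
    (H : τ.Ok 3 N (U1 a)) (hw : w ≤ N) (hw' : w' ≤ N) (hm : m ≤ a) (e : s + σ = s')
    (e' : w + v = w') {y : Cob Laz σ} (hy : Cy v y) {P : List (List ℕ)}
    (hP : MulF τ m (τ.Lx 3 σ (cm 3 F3 σ y)) n r s' w' n' r' P) :
    RepC e w y (cOf τ a m s w n r) (cOf τ a m s' w' n' r') (mat P) := by
  intro z hz
  obtain ⟨R, hR, e₁⟩ := exists_cOf h
  obtain ⟨R', hR', e₂⟩ := exists_cOf h'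
  have h1 := R.c_mul H hw hm R' hw' e e' hy.wt hy.d (M := fun i l => vec (P.getD i []) l)
    (fun i => by
      have h2 := H.Lx_all (cm_mem (k := F3) hy.wt) (R.mem i).1
      rw [e, show v + w = w' by omega] at h2
      have h3 := (hP i i.2).2
      rw [← hR, ← lc_range, ← funext hR'] at h3
      have h4 := R'.cob _ (sub_mem h2 (R'.lc_mem _).1) h3
      rwa [map_sub, R'.ka_lc, sub_eq_zero] at h4) hz.wt hz.d
  rw [e₂, h1, map_lc, mat_eq_sum P (le_max_left _ n), e₁,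
    ← Finset.sum_subset (Finset.range_subset_range.2 (le_max_right P.length n))
      fun i _ hi => by rw [extN_ge (by simpa using hi), zero_smul], ← lc_extN]
  exact congrArg _ (funext fun i => extN_res fun j hj => vec_of_le ((hP i i.2).1.trans hj))

/-- the family of the coordinates -/
def cF {G : Type} [Fintype G] [DecidableEq G] (τ : Tw F3 G) (a m : ℕ) (n : ℕ → ℕ → ℕ)
    (r : ℕ → ℕ → ℕ → G → Av F3) (s : ℕ) (w : ℤ) : Cob Laz s →+ V :=
  cOf τ a m s w (n s (w / 2).toNat) (r s (w / 2).toNat)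

theorem cF_eq {G : Type} [Fintype G] [DecidableEq G] (τ : Tw F3 G) (a m : ℕ) (n : ℕ → ℕ → ℕ)
    (r : ℕ → ℕ → ℕ → G → Av F3) (s t : ℕ) :
    cF τ a m n r s (2 * (t : ℤ)) = cOf τ a m s (2 * (t : ℤ)) (n s t) (r s t) := by
  rw [cF, show (2 * (t : ℤ) / 2).toNat = t by omega]

/-! ### matrices -/

theorem mat_map_axL (c : ℕ) (M : List (List ℕ)) (x : V) :
    mat (M.map fun r => axL c r []) x = (c : F) • mat M x := by
  induction M generalizing x with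
  | nil => rw [mat_nil, smul_zero]; rfl
  | cons r M ih =>
    rw [List.map_cons, mat_cons, mat_cons, ih, vec_axL, vec_nil, add_zero, smul_add, smul_comm]

theorem RepC.comp {W W' W'' : Type} [AddCommGroup W] [AddCommGroup W'] [AddCommGroup W'']
    {s σ σ' ρ s' s'' : ℕ} {e : s + σ = s'} {e' : s' + σ' = s''} (h₁ : σ + σ' = ρ)
    (h₂ : s + ρ = s'') {w v w' : ℤ} {y : Cob Laz σ} {y' : Cob Laz σ'} {c : Cob Laz s →+ W}
    {c' : Cob Laz s' →+ W'} {c'' : Cob Laz s'' →+ W''} {P : W → W'} {P' : W' → W''}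
    (h : RepC e w y c c' P) (h' : RepC e' w' y' c' c'' P') (hw : w + v = w') (hy : Cy v y) :
    RepC h₂ w (cupC h₁ y y') c c'' fun x => P' (P x) := fun z hz => by
  rw [← cupC_assoc e e' h₁ h₂, h' _ (hz.cup hy e hw), h z hz]

/-! ### the system -/

/-- the system of the fifth differentials -/
def sysOf (c : ∀ s : ℕ, ℤ → (Cob Laz s →+ V)) (d : ℕ → ℤ → V →ₗ[F] V) (u : ℤ)
    (hu : u = 1 ∨ u = -1) : Sys where
  d s t := d s (2 * (t : ℤ))
  im s t := imC (2 * (t : ℤ)) (c s (2 * (t : ℤ)))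
  u := u
  hu := by rcases hu with rfl | rfl <;> norm_num

section Sys

variable {R : ∀ (s s' : ℕ) (_ _ : ℤ), Cob Laz s → Cob Laz s' → Prop} {j : ℕ}
  {c : ∀ s : ℕ, ℤ → (Cob Laz s →+ V)} {d : ℕ → ℤ → V →ₗ[F] V} {u : ℤ} {hu : u = 1 ∨ u = -1}

variable (j c) in
/-- the node `(s, t)` -/
def Nd (s t : ℕ) : Prop := IsNd j (2 * (t : ℤ)) (c s (2 * (t : ℤ)))

variable (c) in
/-- the matrix `P` represents the product with `y` from `(s, t)` to `(s', t')` -/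
def Mx {σ : ℕ} (y : Cob Laz σ) (s t s' t' : ℕ) (P : List (List ℕ)) : Prop :=
  ∃ e : s + σ = s', RepC e (2 * (t : ℤ)) y (c s (2 * (t : ℤ))) (c s' (2 * (t' : ℤ))) (mat P)

theorem two_succ (t : ℕ) : 2 * (t : ℤ) + 2 = 2 * ((t + 1 : ℕ) : ℤ) := by push_cast; ring

theorem Mx.comp {σ σ' ρ s t s' t' s'' t'' τ : ℕ} {y : Cob Laz σ} {y' : Cob Laz σ'}
    {P P' : List (List ℕ)} (h : Mx c y s t s' t' P) (h' : Mx c y' s' t' s'' t'' P')
    (h₁ : σ + σ' = ρ) (ht : t + τ = t') (hy : Cy (2 * (τ : ℤ)) y) :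
    Mx c (cupC h₁ y y') s t s'' t'' (P.map fun r => vm r P') := by
  obtain ⟨e, h⟩ := h
  obtain ⟨e', h'⟩ := h'
  exact ⟨by omega, fun z hz => (h.comp h₁ (by omega) h' (by omega) hy z hz).trans
    (mat_map_vm _ _ _).symm⟩

theorem Mx.smul {σ s t s' t' : ℕ} {y : Cob Laz σ} {P : List (List ℕ)} (h : Mx c y s t s' t' P)
    (k : ℕ) : Mx c ((k : ℤ) • y) s t s' t' (P.map fun r => axL k r []) := by
  obtain ⟨e, h⟩ := h
  exact ⟨e, fun z hz => by
    rw [cupC_zsmul_right, map_zsmul, h z hz, mat_map_axL, natCast_zsmul, Nat.cast_smul_eq_nsmul]⟩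

theorem sysOf_dim {s t n : ℕ} (h : ∀ z k, n ≤ k → c s (2 * (t : ℤ)) z k = 0) :
    (sysOf c d u hu).Dim s t n := by
  rintro _ ⟨z, -, rfl⟩
  exact h z

theorem sysOf_sur {s t n : ℕ}
    (h : ∀ x : V, (∀ k, n ≤ k → x k = 0) → x ∈ imC (2 * (t : ℤ)) (c s (2 * (t : ℤ)))) :
    (sysOf c d u hu).Sur s t n :=
  fun i hi => h _ fun k hk => Pi.single_eq_of_ne (by omega) _

variable (H : Spec R j c d) (X : D5Ax R) {s t s' t' : ℕ}

include H X

theorem Spec.lk : Lk R j c (sysOf c d u hu) where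
  ax := X
  im := by rintro s t _ rfl; rfl
  d := by rintro s s' t _ w' hs rfl hw; exact H s s' _ w' hs hw

theorem Spec.map (A : Nd j c s t) (B : Nd j c (s + 5) (t + 1)) : (sysOf c d u hu).Map s t :=
  fun _ hx => H.mem X rfl (two_succ t) A B hx

theorem Spec.dD (A : Nd j c s t) (B : Nd j c (s + 5) (t + 1)) (C : Nd j c (s + 10) (t + 2)) :
    (sysOf c d u hu).DD s t :=
  fun _ hx => H.dd X rfl (two_succ t) A B rfl (two_succ (t + 1)) C hx

theorem Spec.edge0 {σ τ : ℕ} {y : Cob Laz σ} (Y : R σ (σ + 5) (2 * (τ : ℤ)) (2 * τ + 2) y 0)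
    (ht : t + τ = t') (A : Nd j c s t) (B : Nd j c (s + 5) (t + 1)) (A' : Nd j c s' t')
    (B' : Nd j c (s' + 5) (t' + 1)) {P Q : List (List ℕ)} (hP : Mx c y s t s' t' P)
    (hQ : Mx c y (s + 5) (t + 1) (s' + 5) (t' + 1) Q) :
    (sysOf c d u hu).Edge ⟨s, t, s', t', P, Q, []⟩ := by
  obtain ⟨e₀, hP⟩ := hP
  obtain ⟨e₁, hQ⟩ := hQ
  intro x hx
  rw [mat_nil, smul_zero, add_zero]
  exact H.leib0 X rfl (two_succ t) A B (by positivity) Y (by omega) (by push_cast; omega) A' B'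
    hP hQ hx

theorem Spec.edge1 {σ σ' τ : ℕ} {y : Cob Laz σ} {y' : Cob Laz σ'} (hσ : σ + 5 = σ')
    (Y : R σ σ' (2 * (τ : ℤ)) (2 * τ + 2) y (u • y')) (ht : t + τ = t') (A : Nd j c s t)
    (B : Nd j c (s + 5) (t + 1)) (A' : Nd j c s' t') (B' : Nd j c (s' + 5) (t' + 1))
    {P Q S : List (List ℕ)} (hP : Mx c y s t s' t' P)
    (hQ : Mx c y (s + 5) (t + 1) (s' + 5) (t' + 1) Q) (hS : Mx c y' s t (s' + 5) (t' + 1) S) :
    (sysOf c d u hu).Edge ⟨s, t, s', t', P, Q, S.map fun r => axL (s % 2 + 1) r []⟩ := by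
  obtain ⟨e₀, hP⟩ := hP
  obtain ⟨e₁, hQ⟩ := hQ
  obtain ⟨e₂, hS⟩ := hS
  intro x hx
  refine (H.leibu X rfl (two_succ t) A B hσ rfl (by positivity) Y (by omega) (by push_cast; omega)
    A' B' hP hQ hS hx).trans (congrArg _ ?_)
  have h1 : ((s % 2 + 1 : ℕ) : F) = (-1) ^ s := by
    rcases Nat.even_or_odd s with h | h
    · rw [h.neg_one_pow, Nat.even_iff.1 h]
      rfl
    · rw [h.neg_one_pow, Nat.odd_iff.1 h]
      rfl
  rw [mat_map_axL, h1, smul_smul, ← Int.cast_smul_eq_zsmul F, mul_comm]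
  push_cast
  rfl

end Sys

/-! ### the operators -/

section Ops

open Vale.Agent.P251.I (IsT1 bcls)

variable {R : Rel} {t : Cob Laz 1}

theorem Op.cy {σ : ℕ} {v : ℤ} {x : Bi F3} {y : Cob Laz σ} (h : Op σ v x y) : Cy v y :=
  ⟨h.wt, h.d⟩

theorem op_vj (j : ℕ) : Op 0 (2 * (j : ℤ)) (vP _ j) (vj j) := (isV_vj j).op

theorem op_t (ht : IsT1 3 t) : Op 1 (2 * ((1 : ℕ) : ℤ)) (-tB _ 1) t :=
  ⟨(cy_t ht).wt, (cy_t ht).d, cm_t' ht⟩

theorem op_b (ht : IsT1 3 t) : Op 2 (2 * ((3 : ℕ) : ℤ)) (-bB _ 1) (bcls 3 t) :=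
  ⟨(cy_b ht).wt, (cy_b ht).d, cm_b' ht⟩

/-- the image of `b ^ 3 t` -/
def xB3t : Bi F3 :=
  -tB _ 1 * sh 3 _ 1 (-bB _ 1 * sh 3 _ 2 (-bB _ 1 * sh 3 _ 2 (-bB _ 1)))

theorem op_b3t (ht : IsT1 3 t) : Op 7 (2 * ((10 : ℕ) : ℤ)) xB3t (b3tW ht).1 :=
  (((op_b ht).cup (op_b ht) (n := 4) rfl rfl).cup (op_b ht) (n := 6) rfl rfl).cup (op_t ht) rfl rfl

variable (R) in
/-- `y` is a cocycle with the image `x` and a cycle for `d₅` -/
structure Op0 (σ τ : ℕ) (x : Bi F3) (y : Cob Laz σ) : Prop where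
  op : Op σ (2 * (τ : ℤ)) x y
  d : R σ (σ + 5) (2 * (τ : ℤ)) (2 * τ + 2) y 0

variable (X : D5Ax R)

include X

theorem op0_vj (j : ℕ) : Op0 R 0 j (vP _ j) (vj j) := ⟨op_vj j, X.vj j⟩

theorem op0_line {σ τ : ℕ} {x : Bi F3} {y : Cob Laz σ} (h : Op σ (2 * (τ : ℤ)) x y)
    (hl : τ < σ + 4) : Op0 R σ τ x y :=
  ⟨h, X.of_line (Op.cy h) rfl rfl (by omega)⟩

theorem op0_bline {σ τ : ℕ} {x : Bi F3} {y : Cob Laz σ} (h : Op σ (2 * (τ : ℤ)) x y)
    (hl : 2 * τ < 3 * σ + 12) : Op0 R σ τ x y :=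
  ⟨h, X.of_van (Op.cy h) rfl rfl (algVan_bline le_rfl (by push_cast; omega))⟩

theorem op0_t (ht : IsT1 3 t) : Op0 R 1 1 (-tB _ 1) t := op0_line X (op_t ht) (by norm_num)

theorem op0_b (ht : IsT1 3 t) : Op0 R 2 3 (-bB _ 1) (bcls 3 t) :=
  op0_line X (op_b ht) (by norm_num)

theorem exists_op0_h1 : ∃ y, Op0 R 1 3 (tB _ 3) y := by
  obtain ⟨y, h⟩ := exists_op_h1
  exact ⟨y, op0_line X h (by norm_num)⟩

theorem exists_op0_bt2 : ∃ y, Op0 R 1 7 (be1 3 _ 0 (bt2 _)) y := by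
  obtain ⟨y, h⟩ := exists_op_bt2
  exact ⟨y, op0_bline X h (by norm_num)⟩

/-- the seed -/
theorem exists_op_seed (hA : J1Alg) (ht : IsT1 3 t) : ∃ (y : Cob Laz 2) (u : ℤ),
    (u = 1 ∨ u = -1) ∧ Op 2 (2 * ((9 : ℕ) : ℤ)) (bB _ 3) y ∧
      R 2 7 (2 * ((9 : ℕ) : ℤ)) (2 * (9 : ℕ) + 2) y (u • (b3tW ht).1) := by
  obtain ⟨y, h⟩ := exists_op_b1
  obtain ⟨u, hu, h1⟩ := X.seed_of hA ht (Op.cy h) h.not_aCob_b1
  exact ⟨y, u, hu, h, h1⟩

end Ops

end Vale.Agent.P236K.Core
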