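import Vale.Agent.P236K.Core.Lev
import Vale.Agent.P236K.Core.D5T
import Vale.Agent.P236K.Core.D5C
import Vale.Agent.P236K.SS.L9

/-!
# P236K, block Core: from the output of the `d₅` checker to the facts `F10`, `F14`, `F18`

* `every_L9 : Every L9`;
* `Lk R j c S`: the system `S` describes `d₅` in the coordinates `c`;
* `Lk.f10`, `Lk.f14`, `Lk.f18`.
-/

open CategoryTheory MonoidalCategory Limits Pretriangulated MonObj

set_option linter.unusedSectionVars false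

universe v u

namespace Vale.Agent.P236K.Core

open Vale.Agent.P251 Vale.Agent.P251.T Vale.Agent.P251.F Vale.Agent.P251.I
  Vale.Agent.P251.M Vale.Agent.P257.H314 Vale.Agent.P257.H712 Vale.Agent.P251.H
  Vale.Agent.P236K.SS Vale.Agent.P236Z
open Vale.Agent.P251.S hiding IC
open D5 (Sys vec mat dot)

theorem every_L9 : Every L9 := by
  intro T S D U M i δ hM t ht s r s1 r1 r4 r5 r6 w w2 w4 w6 e1 e2 e3 e4 e5 h1 h2 h3 hw f2 f4 f6
    x y z hz ⟨hx, _, m, g1, g2, H1⟩ ⟨hy, _, m', g3, g4, H2⟩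
  have g5 : m + 3 + 1 + (s1 : ℤ) = 2 * w2 := by omega
  have g6 : m + 3 + (r6 : ℤ) = 2 * w6 := by omega
  have f5 : w4 + 2 = w6 := by omega
  obtain ⟨e, he, H⟩ := SS.L9 hM (t := tW ht) ht (b := bW ht) rfl (by omega) h2 e1 e2 e3 e4 e5 hw
    f2 f2 f5 f6 g1 g2 g3 g4 g5 g6 (x := ⟨x, hx.wt⟩) (y := ⟨y, hy.wt⟩) (z := ⟨z, hz.wt⟩) hy.d hz.d
    H1 H2
  have h4 : Cy w4 e.1 := ⟨e.2, he⟩
  obtain ⟨k, rfl⟩ := h3
  rw [pow_succ, pow_mul, neg_one_sq, one_pow, _root_.one_mul, neg_one_zsmul, neg_add_eq_sub,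
    ← map_sub] at H
  exact ⟨e.1, h4, hx.cup (cy_t ht) e1 f2,
    (h4.cup (cy_t ht) e5 f5).sub (hz.cup (cy_b ht) e4 f6), _, g5, g6, H⟩

lemma exists_zsmul (k : ZMod 3) : ∃ n : ℤ, ∀ x : D5.V, n • x = k • x := by
  obtain ⟨n, rfl⟩ := ZMod.intCast_surjective k
  exact ⟨n, fun x => (Int.cast_smul_eq_zsmul _ n x).symm⟩

lemma mat_map_vm (A B : List (List ℕ)) (x : D5.V) :
    mat (A.map fun r => D5.vm r B) x = mat B (mat A x) := by
  induction A generalizing x with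
  | nil => rw [List.map_nil, D5.mat_nil, map_zero]
  | cons r A ih =>
    rw [List.map_cons, D5.mat_cons, D5.mat_cons, ih, D5.vec_vm, map_add, map_smul]

/-- The system `S` describes the differentials `R` in the coordinates `c`. -/
structure Lk (R : Rel) (j : ℕ) (c : ∀ s : ℕ, ℤ → (Cob Laz s →+ D5.V)) (S : Sys) : Prop where
  ax : D5Ax R
  im : ∀ (s t : ℕ) (w : ℤ), w = 2 * t → S.im s t = imC w (c s w)
  d : ∀ (s s' t : ℕ) (w w' : ℤ), s + 5 = s' → w = 2 * t → w + 2 = w' → IsNd j w (c s w) →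
    IsNd j w' (c s' w') → ∀ z z', R s s' w w' z z' → c s' w' z' = S.d s t (c s w z)

namespace Lk

variable {R : Rel} {j : ℕ} {c : ∀ s : ℕ, ℤ → (Cob Laz s →+ D5.V)} {S : Sys} (L : Lk R j c S)

section One

variable {s s' t : ℕ} {w w' : ℤ} (hs : s + 5 = s') (ht : w = 2 * t) (hw : w + 2 = w')
  (A : IsNd j w (c s w)) (B : IsNd j w' (c s' w'))

include L ht

lemma mem {z : Cob Laz s} (hz : Cy w z) : c s w z ∈ S.im s t := by
  rw [L.im s t w ht]
  exact hz.mem_imC _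

lemma exists_cy {x : D5.V} (hx : x ∈ S.im s t) : ∃ z, Cy w z ∧ c s w z = x := by
  rwa [L.im s t w ht] at hx

include hs hw A B

lemma eq_zero {z : Cob Laz s} (h : R s s' w w' z 0) : S.d s t (c s w z) = 0 := by
  rw [← L.d s s' t w w' hs ht hw A B z 0 h, map_zero]

lemma dif (hI : InjC w' (c s' w')) {z : Cob Laz s} {z' : Cob Laz s'} (hz : Cy w z)
    (hz' : Cy w' z') (h : c s' w' z' = S.d s t (c s w z)) : R s s' w w' z z' := by
  obtain ⟨y, h1⟩ := L.ax.ex hz hs hw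
  exact L.ax.ctgt h1 hs hz'
    (hI.aCob hz' (L.ax.tgt h1) (h.trans (L.d s s' t w w' hs ht hw A B z y h1).symm))

/-- The cycles killed by the functionals are values of the differential. -/
lemma kill {s'' : ℕ} {w'' : ℤ} (hs' : s' + 5 = s'') (hw' : w' + 2 = w'')
    (C : IsNd j w'' (c s'' w'')) (hI : InjC w' (c s' w')) {E : List (List ℕ)} (hK : S.Kill s t E)
    {z : Cob Laz s'} (h : R s' s'' w' w'' z 0) (h0 : ∀ l ∈ E, dot l (c s' w' z) = 0) :
    ∃ y, R s s' w w' y z := by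
  subst hs
  have ht' : w' = 2 * ((t + 1 : ℕ) : ℤ) := by push_cast; omega
  obtain ⟨_, hy, e⟩ := hK _ (L.mem ht' (L.ax.src h)) (L.eq_zero hs' ht' hw' B C h) h0
  obtain ⟨y, hy', rfl⟩ := L.exists_cy ht hy
  exact ⟨y, L.dif rfl ht hw A B hI hy' (L.ax.src h) e.symm⟩

/-- The same up to multiples of one cycle. -/
lemma kill_one {s'' : ℕ} {w'' : ℤ} (hs' : s' + 5 = s'') (hw' : w' + 2 = w'')
    (C : IsNd j w'' (c s'' w'')) (hI : InjC w' (c s' w')) {l : List ℕ} (hK : S.Kill s t [l])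
    {a : Cob Laz s'} (ha : R s' s'' w' w'' a 0) (hl : dot l (c s' w' a) ≠ 0)
    (z : Cob Laz s') (h : R s' s'' w' w'' z 0) : ∃ (k : ℤ) (y : Cob Laz s),
      R s s' w w' y (z - k • a) := by
  obtain ⟨k, hk⟩ := exists_zsmul (dot l (c s' w' z) / dot l (c s' w' a))
  have h1 := L.ax.sub h (L.ax.zsmul k ha)
  rw [smul_zero, sub_zero] at h1
  refine ⟨k, L.kill hs ht hw A B hs' hw' C hI hK h1 fun l' hl' => ?_⟩
  rw [List.mem_singleton.1 hl', map_sub, map_zsmul, hk, map_sub, map_smul, smul_eq_mul,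
    div_mul_cancel₀ _ hl, sub_self]

end One

include L

/-- The two differentials needed for one differential `d₉`. -/
lemma chain {s r r1 q q1 t : ℕ} {w w2 : ℤ} (hs : s + 5 = r1) (hr : r + 5 = q1) (e1 : r + 1 = r1)
    (e2 : q + 1 = q1) (ht : w = 2 * t) (hw : w + 2 = w2) {a : Cob Laz 1} (ha : Cy 2 a)
    (A : IsNd j w (c s w)) (A' : IsNd j w2 (c r1 w2)) (B : IsNd j w (c r w))
    (B' : IsNd j w2 (c q1 w2)) (I : InjC w2 (c r1 w2)) (I' : InjC w2 (c q1 w2))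
    {P Q : List (List ℕ)} (hP : RepC e1 w a (c r w) (c r1 w2) (mat P))
    (hQ : RepC e2 w a (c q w) (c q1 w2) (mat Q)) {x y z : List ℕ}
    (h1 : S.Val s t x (D5.vm y P)) (h2 : S.Val r t y (D5.vm z Q)) (h3 : vec z ∈ S.im q t) :
    ∃ (x' : Cob Laz s) (y' : Cob Laz r) (z' : Cob Laz q), Cy w z' ∧ c q w z' = vec z ∧
      R s r1 w w2 x' (cupC e1 y' a) ∧ R r q1 w w2 y' (cupC e2 z' a) := by
  obtain ⟨x', hx, ex⟩ := L.exists_cy ht h1.1
  obtain ⟨y', hy, ey⟩ := L.exists_cy ht (Submodule.smul_mem _ S.u h2.1)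
  obtain ⟨z', hz, ez⟩ := L.exists_cy ht h3
  refine ⟨x', y', z', hz, ez, L.dif hs ht hw A A' I hx (hy.cup ha e1 hw) ?_,
    L.dif hr ht hw B B' I' hy (hz.cup ha e2 hw) ?_⟩
  · rw [hP y' hy, ex, ey, h1.2, map_smul, D5.vec_vm]
  · rw [hQ z' hz, ey, ez, map_smul, h2.2, smul_smul, S.hu, one_smul, D5.vec_vm]

/-- **The level `10`.** -/
theorem f10 (n5 : IsNd j 164 (c 5 164)) (n10 : IsNd j 166 (c 10 166))
    (n15 : IsNd j 168 (c 15 168)) (i10 : InjC 166 (c 10 166)) {P E : List (List ℕ)}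
    (hP : RepC (add_zero 10) 164 (vj 1) (c 10 164) (c 10 166) (mat P)) (hK : S.Kill 5 82 E)
    (hE : (E.all fun l => D5.zeroL (D5.mv P l)) = true) : F10 R := by
  intro z hz h
  refine L.kill rfl (by norm_num) (by norm_num) n5 n10 rfl (by norm_num) n15 i10 hK h
    fun l hl => ?_
  rw [show D3.v1.1 = vj 1 from vj_one.symm, hP z hz, ← D5.dot_mv,
    D5.dot_zeroL (List.all_eq_true.1 hE l hl)]

/-- **The level `14`.** -/
theorem f14 {t : Cob Laz 1} (ht : IsT1 3 t) (n4 : IsNd j 162 (c 4 162))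
    (n9 : IsNd j 164 (c 9 164)) (n8 : IsNd j 162 (c 8 162)) (n13 : IsNd j 164 (c 13 164))
    (n9' : IsNd j 166 (c 9 166)) (n14 : IsNd j 168 (c 14 168)) (n19 : IsNd j 170 (c 19 170))
    (i9 : InjC 164 (c 9 164)) (i13 : InjC 164 (c 13 164)) (i14 : InjC 168 (c 14 168))
    {P Q A B : List (List ℕ)} (hP : RepC rfl 162 t (c 8 162) (c 9 164) (mat P))
    (hQ : RepC rfl 162 t (c 12 162) (c 13 164) (mat Q))
    (hA : RepC rfl 166 t (c 13 166) (c 14 168) (mat A))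
    (hB : RepC rfl 162 (bcls 3 t) (c 12 162) (c 14 168) (mat B)) {x y z l : List ℕ}
    (h1 : S.Val 4 81 x (D5.vm y P)) (h2 : S.Val 8 81 y (D5.vm z Q)) (h3 : vec z ∈ S.im 12 81)
    (hK : S.Kill 9 83 [l]) (hN : S.NZ 14 84 l A (D5.vm z B)) : F14 R t := by
  obtain ⟨x', y', z', hz, ez, d1, d2⟩ := L.chain (s := 4) (r := 8) (q := 12) rfl rfl rfl rfl
    (by norm_num) (by norm_num) (cy_t ht) n4 n9 n8 n13 i9 i13 hP hQ h1 h2 h3
  refine ⟨x', y', z', hz, d1, d2, fun e he h => L.kill_one rfl (by norm_num) (by norm_num) n9' n14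
    rfl (by norm_num) n19 i14 hK h ?_⟩
  have h4 : c 14 168 (val9 t rfl rfl z' e) = (-1 : ZMod 3) • vec (D5.vm z B) +
      mat A (c 13 166 e) := by
    rw [val9, map_sub, hA e he, hB z' hz, ez, D5.vec_vm, neg_one_smul, neg_add_eq_sub]
  have h5 := L.mem (t := 84) (by norm_num) (L.ax.src h)
  have h6 := L.eq_zero (t := 84) rfl (by norm_num) (by norm_num) n14 n19 h
  rw [h4] at h5 h6 ⊢
  exact hN _ _ (by decide) h5 h6

/-- **The level `18`.** -/
theorem f18 {t : Cob Laz 1} (ht : IsT1 3 t) (n6 : IsNd j 158 (c 6 158))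
    (n11 : IsNd j 160 (c 11 160)) (n10 : IsNd j 158 (c 10 158)) (n15 : IsNd j 160 (c 15 160))
    (n13 : IsNd j 168 (c 13 168)) (n18 : IsNd j 170 (c 18 170)) (n23 : IsNd j 172 (c 23 172))
    (i11 : InjC 160 (c 11 160)) (i15 : InjC 160 (c 15 160)) (i18 : InjC 170 (c 18 170))
    {P Q A B B' : List (List ℕ)} (hP : RepC rfl 158 t (c 10 158) (c 11 160) (mat P))
    (hQ : RepC rfl 158 t (c 14 158) (c 15 160) (mat Q))
    (hA : RepC rfl 162 t (c 15 162) (c 16 164) (mat A))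
    (hB : RepC rfl 158 (bcls 3 t) (c 14 158) (c 16 164) (mat B))
    (hB' : RepC rfl 164 (bcls 3 t) (c 16 164) (c 18 170) (mat B')) {x y z l : List ℕ}
    (h1 : S.Val 6 79 x (D5.vm y P)) (h2 : S.Val 10 79 y (D5.vm z Q)) (h3 : vec z ∈ S.im 14 79)
    (hK : S.Kill 13 84 [l])
    (hN : S.NZ 18 85 l (A.map fun r => D5.vm r B') (D5.vm (D5.vm z B) B')) : F18 R t := by
  obtain ⟨x', y', z', hz, ez, d1, d2⟩ := L.chain (s := 6) (r := 10) (q := 14) rfl rfl rfl rfl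
    (by norm_num) (by norm_num) (cy_t ht) n6 n11 n10 n15 i11 i15 hP hQ h1 h2 h3
  refine ⟨x', y', z', hz, d1, d2, fun e he h => ?_⟩
  have h0 := L.ax.mul0 h (L.ax.of_line (cy_b ht) rfl rfl (by norm_num)) rfl (by norm_num)
    (u := 170) (u' := 172) (r := 18) (r' := 23) (by norm_num) (by norm_num) rfl rfl
  rw [cupC_zero_left] at h0
  refine L.kill_one rfl (by norm_num) (by norm_num) n13 n18 rfl (by norm_num) n23 i18 hK h0 ?_
  have h4 : c 18 170 (cupC (s := 16) rfl (val9 t rfl rfl z' e) (bcls 3 t)) =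
      (-1 : ZMod 3) • vec (D5.vm (D5.vm z B) B') +
        mat (A.map fun r => D5.vm r B') (c 15 162 e) := by
    rw [hB' _ (L.ax.src h), val9, map_sub, hA e he, hB z' hz, ez, D5.vec_vm, D5.vec_vm,
      neg_one_smul, neg_add_eq_sub, map_sub, mat_map_vm]
  have h5 := L.mem (t := 85) (by norm_num) (L.ax.src h0)
  have h6 := L.eq_zero (t := 85) rfl (by norm_num) (by norm_num) n18 n23 h0
  rw [h4] at h5 h6 ⊢
  exact hN _ _ (by decide) h5 h6

end Lk

end Vale.Agent.P236K.Core
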