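import Vale.Agent.P236K.Core.Asm
import Vale.Agent.P236K.Alg.Ops
import Vale.Agent.P236K.Alg.CrdB

/-!
# P236K, block Core: `ThAlg` from facts on `W / v₁ ^ 3`

* `xB c = [t ^ 27] + c β'_7`, an exact cocycle which is not a coboundary modulo `I₃`;
* `thB c₂ c₀ c₁ = c₂ b₂ + c₀ v₂ ^ 6 b₀ + c₁ v₁ ^ 2 v₂ ^ 4 b₁`, a cocycle modulo `v₁ ^ 3`;
* `thAlg_of_W`.
-/

set_option linter.unusedSectionVars false

noncomputable section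

namespace Vale.Agent.P236K.Alg

open Vale.Agent.P217 Vale.Agent.P251.F Vale.Agent.P251.I Vale.Agent.P257.H80 MvPolynomial Finset
open Vale.Agent.P236K.SS (cupC ACob b3W)
open Vale.Agent.P251.S (IC)

section bi

variable {k : Type} [CommRing k] [PL 3 k]

theorem mem_of_div {a : Av k} {y : Gam k} {j : ℕ} {w w' : ℤ} (ha : WA 3 w a)
    (e : w' + j * wz 3 0 = w) (h : etaA 3 k a = C a + C (X 0 ^ j) * y) :
    be1 3 k 0 y ∈ CK 3 k Uall 1 w' := by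
  have h1 : dB 3 k 0 (lv k 0 a) ∈ CK 3 k Uall 1 w :=
    inv_all.dP_CK 2 ⟨lev_lv 0 a, wt_lv.2 ha, mem_JM_all _⟩
  rw [dB_lv, h, add_sub_cancel_left, map_mul, be1_C, al_zero, ← vP_eq] at h1
  obtain ⟨z, hz, h2⟩ := exists_div (j := j)
    ⟨h1.1, h1.2.1, Ideal.mul_mem_right _ _ (vP_JM j)⟩ e
  rw [← sub_eq_zero, ← mul_sub] at h2
  rwa [sub_eq_zero.1 (vP_cancel h2)]

variable (k) in
/-- `β'_7` modulo `v₁ ^ 3` -/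
def bt7' : Gam k := C (X 1 ^ 6) * X 0 ^ 3 - C (X 0 ^ 2 * X 1 ^ 6) * X 0 ^ 1 -
  C (X 0 ^ 2 * X 1 ^ 4) * X 0 ^ 9

variable (k) in
/-- `β'_7 = (η v₂ ^ 7 - v₂ ^ 7) / v₁` -/
def bt7 : Gam k := bt7' k + C (X 0 ^ 3) * (C (X 0 ^ 5 * X 1 ^ 4) * X 0 ^ 3 -
  C (X 1 ^ 3) * bt1 k ^ 4 + C (X 0 ^ 2 * X 1) * bt1 k ^ 6 + C (X 0 ^ 3) * bt1 k ^ 7)

theorem etaA_v2_cube (h3 : ((3 : ℕ) : k) = 0) :
    etaA 3 k (X 1) ^ 3 = C (X 1) ^ 3 + C (X 0) ^ 3 * bt1 k ^ 3 := by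
  rw [etaA_v2 h3, ← mul_pow]
  exact add_pow_three_pow (three_Gam h3) _ _ 1

theorem etaA_v2_seven (h3 : ((3 : ℕ) : k) = 0) :
    etaA 3 k (X 1 ^ 7) = C (X 1 ^ 7) + C (X 0 ^ 1) * bt7 k := by
  have h := three_Gam h3
  have h1 : bt1 k = X 0 ^ 3 - C (X 0) ^ 2 * X 0 := by rw [bt1, map_pow]
  have h2 : bt1 k ^ 3 = X 0 ^ 9 - C (X 0) ^ 6 * X 0 ^ 3 := by
    rw [h1]
    linear_combination (-(X 0 ^ 7 * C (X 0) ^ 2) + X 0 ^ 5 * C (X 0) ^ 4 : Gam k) * h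
  rw [show (X 1 : Av k) ^ 7 = (X 1 ^ 3) ^ 2 * X 1 by ring, map_mul, map_pow, map_pow,
    etaA_v2_cube h3, etaA_v2 h3, bt7, bt7']
  simp only [map_pow, map_mul]
  linear_combination (C (X 0) * C (X 1) ^ 6 : Gam k) * h1 - (C (X 0) ^ 3 * C (X 1) ^ 4) * h2 +
    (C (X 0) ^ 3 * C (X 1) ^ 4 * bt1 k ^ 3 + C (X 0) ^ 4 * C (X 1) ^ 3 * bt1 k ^ 4) * h

variable (k) in
/-- the cocycle `h₃ + c β'_7` -/
def xB (c : ℤ) : Bi k := tB k 27 + c • be1 3 k 0 (bt7 k)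

theorem xB_mem (h3 : ((3 : ℕ) : k) = 0) (c : ℤ) : xB k c ∈ CK 3 k Uall 1 54 :=
  add_mem (tB_mem 27) (zsmul_mem (mem_of_div (wa_v2 7) (by decide) (etaA_v2_seven h3)) c)

theorem dB_xB (h3 : ((3 : ℕ) : k) = 0) (c : ℤ) : dB 3 k 1 (xB k c) = 0 := by
  rw [xB, map_add, map_zsmul, dB_of_div h3 (etaA_v2_seven h3), smul_zero, add_zero]
  exact dB_tB h3 3

theorem dB_lv_mul_mem {a : Av k} {y : Gam k} {j s : ℕ} (h : etaA 3 k a = C a + C (X 0 ^ j) * y)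
    {x : Bi k} (hx : dB 3 k s x = 0) : dB 3 k s (lv k 0 a * x) ∈ JM k (U1 j) := by
  rw [dB_lv_mul, hx, mul_zero, zero_add, h, add_sub_cancel_left, map_mul, be1_C, al_zero, ← vP_eq,
    mul_assoc]
  exact Ideal.mul_mem_right _ _ (vP_JM j)

variable (k) in
/-- a cocycle modulo `v₁ ^ 3` -/
def thB (c2 c0 c1 : ℤ) : Bi k :=
  c2 • bB k 9 + c0 • (lv k 0 (X 1 ^ 6) * bB k 1) + c1 • (lv k 0 (X 0 ^ 2 * X 1 ^ 4) * bB k 3)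

theorem lv_mul_mem {a : Av k} {w v w' : ℤ} (ha : WA 3 w a) {s : ℕ} {x : Bi k}
    (hx : x ∈ CK 3 k Uall s v) (e : w + v = w') : lv k 0 a * x ∈ CK 3 k Uall s w' :=
  ⟨((lev_lv 0 a).mono (Nat.zero_le s)).mul hx.1, e ▸ (wt_lv.2 ha).mul hx.2.1, mem_JM_all _⟩

theorem thB_mem (c2 c0 c1 : ℤ) : thB k c2 c0 c1 ∈ CK 3 k Uall 2 54 :=
  add_mem (add_mem (zsmul_mem (bB_mem 9) _)
    (zsmul_mem (lv_mul_mem (wa_v2 6) (bB_mem 1) (by norm_num)) _))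
    (zsmul_mem (lv_mul_mem ((wa_v1 2).mul (wa_v2 4)) (bB_mem 3) (by norm_num)) _)

theorem dB_thB (h3 : ((3 : ℕ) : k) = 0) (c2 c0 c1 : ℤ) :
    dB 3 k 2 (thB k c2 c0 c1) ∈ JM k (U1 3) := by
  have h1 : etaA 3 k (X 1 ^ 6) = C (X 1 ^ 6) + C (X 0 ^ 3) *
      (2 * C (X 1) ^ 3 * bt1 k ^ 3 + C (X 0) ^ 3 * bt1 k ^ 6) := by
    rw [show (X 1 : Av k) ^ 6 = (X 1 ^ 3) ^ 2 by ring, map_pow, map_pow, etaA_v2_cube h3]
    simp only [map_pow]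
    ring
  have h2 : etaA 3 k (X 0 ^ 2 * X 1 ^ 4) = C (X 0 ^ 2 * X 1 ^ 4) + C (X 0 ^ 3) *
      (C (X 1) ^ 3 * bt1 k + C (X 0) ^ 2 * bt1 k ^ 3 * (C (X 1) + C (X 0) * bt1 k)) := by
    rw [show (X 1 : Av k) ^ 4 = X 1 ^ 3 * X 1 by ring, map_mul, map_mul, map_pow, map_pow,
      etaA_v2_cube h3, etaA_v1 h3, etaA_v2 h3]
    simp only [map_pow, map_mul]
    ring
  rw [thB, map_add, map_add, map_zsmul, map_zsmul, map_zsmul,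
    show dB 3 k 2 (bB k 9) = 0 from dB_bB h3 2, smul_zero, zero_add]
  exact add_mem (zsmul_mem (dB_lv_mul_mem h1 (dB_bB h3 0)) _)
    (zsmul_mem (dB_lv_mul_mem h2 (dB_bB h3 1)) _)

end bi

/-- `h₃ + c β'_7` is not a coboundary modulo `I₃` -/
theorem Op.not_aCob_x {c : ℤ} {y : Cob Laz 1} (h : Op 1 54 (xB _ c) y) : ¬ ACob 3 3 54 y := by
  rintro ⟨z, -, h1⟩
  let x : TP 3 (ZMod 3) := ⟨ph0 _, fun _ _ => 1⟩
  have e : (evT (RingHom.id _) x).comp (be1 3 (ZMod 3) 0) =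
      (eval fun _ => (1 : ZMod 3)).comp (mA (cc (ZMod 3))) := by
    refine ringHom_ext' (ringHom_ext (fun c => ?_) fun i => ?_) fun i => ?_
    · simp
    · simp [al_zero, x]
    · simp [x]
  have e' := RingHom.congr_fun e
  simp only [RingHom.comp_apply] at e'
  have h2 := evT_JM (RingHom.id _) x (U := Uv 2) (fun e ⟨i, _, he⟩ =>
    map_monomial_eq_zero _ (j := 1) (by rw [pow_one]; exact ph0_X i) he) ((cpt_I 3 2).cm_JC h1)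
  rw [map_sub, h.cm, cm_d, ← (lev_cm z).lv_rA, dB_lv, xB, tB, map_sub, map_add, map_zsmul,
    map_zsmul, e', e', e', map_sub, red_etaA h33, mA_C, sub_self] at h2
  simp [bt7, bt7'] at h2

namespace Tw

section gen

variable {k G : Type} [CommRing k] [PL 3 k] [Fintype G] [DecidableEq G] (τ : Tw k G)

/-- the action of `xB c` modulo `v₁ ^ 3` -/
def LX (c : ℤ) (u : G → Av k) : G → Av k := τ.Lh 27 u + c • ((X 1 ^ 6 : Av k) • τ.Lh 3 u -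
  (X 0 ^ 2 * X 1 ^ 6 : Av k) • τ.Lh 1 u - (X 0 ^ 2 * X 1 ^ 4 : Av k) • τ.Lh 9 u)

/-- the action of `thB c₂ c₀ c₁` -/
def LT (c2 c0 c1 : ℤ) (u : G → Av k) : G → Av k :=
  c2 • τ.LB 9 u + c0 • ((X 1 ^ 6 : Av k) • τ.LB 1 u) + c1 • ((X 0 ^ 2 * X 1 ^ 4 : Av k) • τ.LB 3 u)

variable {τ}

theorem Lx_xB_sub (c : ℤ) (u : G → Av k) :
    τ.Lx 3 1 (xB k c) u - τ.LX c u ∈ JW k G (U1 3) := by
  rw [xB, Lx_add, Lx_zsmul, Lx_tB, Lx_be1, LX, add_sub_add_left_eq_sub, ← smul_sub, bt7, act_add,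
    act_C_mul, bt7', act_sub, act_sub, act_C_mul, act_C_mul, act_C_mul, Lh_apply, Lh_apply,
    Lh_apply, add_sub_cancel_left]
  exact zsmul_mem (smul_mem_JW 3 _) c

theorem Lx_thB (c2 c0 c1 : ℤ) (u : G → Av k) :
    τ.Lx 3 2 (thB k c2 c0 c1) u = τ.LT c2 c0 c1 u := by
  have h : ∀ (a : Av k) (e : ℕ), τ.Lx 3 2 (lv k 0 a * bB k e) u = a • τ.LB e u := fun a e =>
    funext fun g => by rw [Lx_lv_mul _ _ (bB_mem e).1, Lx_bB, Pi.smul_apply, smul_eq_mul]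
  rw [thB, Lx_add, Lx_add, Lx_zsmul, Lx_zsmul, Lx_zsmul, Lx_bB, h, h, LT]

end gen

variable {G : Type} [Fintype G] [DecidableEq G] {τ : Tw (ZMod 3) G} {N : ℤ} {a : ℕ}
  (H : τ.Ok 3 N (U1 a))

include H

/-- composition of rows: the cocycle `x` acts on an equation modulo coboundaries -/
theorem Ok.row_comp {j σ s : ℕ} {v w w' : ℤ} (hj : j ≤ a) (hw : w' ≤ N) (e : v + w = w')
    {x : Bi (ZMod 3)} (hx : x ∈ CK 3 _ Uall σ v) (hd : dB 3 _ σ x ∈ JM _ (U1 j))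
    {u u' y : G → Av (ZMod 3)} (hu : u ∈ τ.WK 3 Uall s w) (hu' : u' ∈ τ.WK 3 Uall s w)
    (h : u - u' ∈ τ.WT 3 (U1 j) w s) (h' : τ.Lx 3 σ x u' - y ∈ τ.WT 3 (U1 j) w' (s + σ)) :
    τ.Lx 3 σ x u - y ∈ τ.WT 3 (U1 j) w' (s + σ) := by
  have h1 := add_mem ((H.hyp1 h33 hj hw).Lx_WT e hx hd (sub_mem hu hu') h) h'
  rwa [map_sub, sub_add_sub_cancel] at h1

theorem Ok.LB_mem (e : ℕ) {s : ℕ} {w w' : ℤ} (hw : 6 * e + w = w') {u : G → Av (ZMod 3)}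
    (hu : u ∈ τ.WK 3 Uall s w) : τ.LB e u ∈ τ.WK 3 Uall (s + 2) w' := by
  rw [← Lx_bB, ← hw]
  exact H.Lx_all (bB_mem e) hu

theorem Ok.row_b {j s : ℕ} {w w' : ℤ} (hj : j ≤ a) (hw : w' ≤ N) (e : 6 + w = w')
    {u u' y : G → Av (ZMod 3)} (hu : u ∈ τ.WK 3 Uall s w) (hu' : u' ∈ τ.WK 3 Uall s w)
    (h : u - u' ∈ τ.WT 3 (U1 j) w s) (h' : τ.LB 1 u' - y ∈ τ.WT 3 (U1 j) w' (s + 2)) :
    τ.LB 1 u - y ∈ τ.WT 3 (U1 j) w' (s + 2) := by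
  rw [← Lx_bB] at h' ⊢
  exact H.row_comp hj hw e (bB_mem 1)
    (by rw [show dB 3 _ 2 (bB (ZMod 3) 1) = 0 from dB_bB h33 0]; exact zero_mem _) hu hu' h h'

/-- three rows for `b` -/
theorem Ok.row_bbb {j s : ℕ} {w w1 w2 w3 : ℤ} (hj : j ≤ a) (hw : w3 ≤ N) (e1 : 6 + w = w1)
    (e2 : 6 + w1 = w2) (e3 : 6 + w2 = w3) {u u0 u1 u2 y : G → Av (ZMod 3)}
    (hu : u ∈ τ.WK 3 Uall s w) (m0 : u0 ∈ τ.WK 3 Uall s w) (m1 : u1 ∈ τ.WK 3 Uall (s + 2) w1)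
    (m2 : u2 ∈ τ.WK 3 Uall (s + 4) w2) (h0 : u - u0 ∈ τ.WT 3 (U1 j) w s)
    (h1 : τ.LB 1 u0 - u1 ∈ τ.WT 3 (U1 j) w1 (s + 2))
    (h2 : τ.LB 1 u1 - u2 ∈ τ.WT 3 (U1 j) w2 (s + 4))
    (h3 : τ.LB 1 u2 - y ∈ τ.WT 3 (U1 j) w3 (s + 6)) :
    τ.LB 1 (τ.LB 1 (τ.LB 1 u)) - y ∈ τ.WT 3 (U1 j) w3 (s + 6) :=
  H.row_b hj hw e3 (H.LB_mem 1 e2 (H.LB_mem 1 e1 hu)) m2
    (H.row_b hj (by omega) e2 (H.LB_mem 1 e1 hu) m1
      (H.row_b hj (by omega) e1 hu m0 h0 h1) h2) h3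

omit H in
theorem Ps_cup_b3 {t : Cob Laz 1} (ht : IsT1 3 t) {s n : ℕ} (e : s + 6 = n) (z : Cob Laz s) :
    τ.Ps 3 n (cupC e z (b3W ht).1) = -τ.LB 1 (τ.LB 1 (τ.LB 1 (τ.Ps 3 s z))) := by
  rw [Ps_cupC]
  refine (Lx_bbb h33 ht _).trans ?_
  simp only [Lb_eq, map_neg, neg_neg]

/-- one more factor `x`, where `x = l θ` in the cohomology modulo `v₁ ^ j` -/
theorem Ok.step {j σ s : ℕ} {v w w' : ℤ} (hj : j ≤ a) (hw : w' ≤ N) (e : v + w = w')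
    {x θ : Bi (ZMod 3)} (hx : x ∈ CK 3 _ Uall σ v) (hθ : θ ∈ CK 3 _ Uall σ v)
    (hd : dB 3 _ σ θ ∈ JM _ (U1 j)) {l m : ℤ} (hc : x - l • θ ∈ CT 3 _ (U1 j) v σ)
    {y r r' : G → Av (ZMod 3)} (hy : y ∈ τ.WZ 3 (U1 j) w s) (hr : r ∈ τ.WK 3 Uall s w)
    (h : y - m • r ∈ τ.WT 3 (U1 j) w s) (h' : τ.Lx 3 σ θ r - r' ∈ τ.WT 3 (U1 j) w' (s + σ)) :
    τ.Lx 3 σ x y - (l * m) • r' ∈ τ.WT 3 (U1 j) w' (s + σ) := by
  have h1 := (H.hyp1 h33 hj hw).Lx_CT e (sub_mem hx (zsmul_mem hθ l)) hc hy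
  have h2 := H.row_comp hj hw e hθ hd hy.1 (zsmul_mem hr m) h (y := m • r') (by
    rw [map_zsmul, ← smul_sub]
    exact zsmul_mem h' m)
  have h3 := add_mem h1 (zsmul_mem h2 l)
  rwa [Lx_sub, Lx_zsmul, smul_sub, sub_add_sub_cancel, smul_smul] at h3

/-- the kernel of `b ^ 3` in degree two and weight `54` is spanned by `r` -/
def KerB (τ : Tw (ZMod 3) G) (a : ℕ) (r : G → Av (ZMod 3)) : Prop :=
  ∀ u ∈ τ.WZ 3 (U1 a) 54 2, τ.LB 1 (τ.LB 1 (τ.LB 1 u)) ∈ τ.WT 3 (U1 3) 72 8 →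
    ∃ l : ℤ, u - l • r ∈ τ.WT 3 (U1 3) 54 2

/-- a cocycle killed by `b ^ 3` has the third power zero -/
theorem Ok.aCob_cb3 (ha : 3 ≤ a) (hN : 162 ≤ N) (hs : ∀ r < 6, τ.Exa 3 N r)
    (T6 : Tors 3 (ZMod 3) 6 156 3) {c2 c0 c1 : ℤ} {r1 r2 : G → Av (ZMod 3)}
    (m1 : r1 ∈ τ.WK 3 Uall 2 54) (m2 : r2 ∈ τ.WK 3 Uall 4 108)
    (h1 : τ.LT c2 c0 c1 τ.one - r1 ∈ τ.WT 3 (U1 3) 54 2)
    (h2 : τ.LT c2 c0 c1 r1 - r2 ∈ τ.WT 3 (U1 3) 108 4)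
    (h3 : τ.LT c2 c0 c1 r2 ∈ τ.WT 3 (U1 3) 162 6) (hK : τ.KerB a r1) {t : Cob Laz 1}
    (ht : IsT1 3 t) {x : Cob Laz 2} (hx : Core.Cy 54 x)
    (hb : ACob 3 1 72 (cupC (s := 2) (σ := 6) (s' := 8) rfl x (b3W ht).1)) :
    ACob 3 1 162 (Core.cb3 x) := by
  have e1 : (54 : ℤ) + 54 = 108 := by norm_num
  have e2 : (108 : ℤ) + 54 = 162 := by norm_num
  have h4 := neg_mem (H.rho_cob (by omega) ha (SS.isWt_cupC _ hx.wt (b3W ht).2 (by norm_num)) hb)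
  rw [Ps_cup_b3, neg_neg] at h4
  obtain ⟨l, hl⟩ := hK _ (H.rho_map (by omega) le_rfl hx.wt hx.d) h4
  have hc : cm 3 _ 2 x - l • thB _ c2 c0 c1 ∈ CT 3 (ZMod 3) (U1 3) 54 2 := by
    refine (H.hyp1 h33 ha (by omega)).CT_of_WT (fun r hr => hs r (by omega))
      (sub_mem (cm_mem hx.wt) (zsmul_mem (thB_mem _ _ _) l)) ?_ ?_
    · rw [map_sub, dB_cm hx.d, map_zsmul]
      exact sub_mem (zero_mem _) (zsmul_mem (dB_thB h33 _ _ _) l)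
    · have h5 := sub_mem hl (zsmul_mem h1 l)
      rw [smul_sub, sub_sub_sub_cancel_right, ← Lx_thB] at h5
      rwa [map_sub, map_zsmul, Th_eq_Lx _ (thB _ _ _ _)]
  have hx2 := hx.cup hx (s' := 4) rfl e1
  have hx3 := hx2.cup hx (s' := 6) rfl e2
  have h5 := H.step ha (by omega) e1 (cm_mem hx.wt) (thB_mem c2 c0 c1) (dB_thB h33 _ _ _) hc
    (H.rho_map (by omega) ha hx.wt hx.d) m1 hl (r' := r2) (by rwa [Lx_thB])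
  rw [← Ps_cupC (n := 4) rfl] at h5
  have h6 := H.step ha hN ((add_comm _ _).trans e2) (cm_mem hx.wt) (thB_mem c2 c0 c1)
    (dB_thB h33 _ _ _) hc (H.rho_map (by omega) ha hx2.wt hx2.d) m2 h5 (r' := 0)
    (by rwa [Lx_thB, sub_zero])
  rw [← Ps_cupC (n := 6) rfl, smul_zero, sub_zero] at h6
  exact H.rho_inj hN ha hs (by decide) T6 hx3.wt hx3.d h6

/-- `x b ^ 3` is a coboundary -/
theorem Ok.aCob_xb3 (ha : 3 ≤ a) (hN : 72 ≤ N) (hs : ∀ r < 7, τ.Exa 3 N r)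
    (T7 : Tors 3 (ZMod 3) 7 66 3) {c : ℤ} {x0 x1 x2 : G → Av (ZMod 3)}
    (m0 : x0 ∈ τ.WK 3 Uall 1 54) (m1 : x1 ∈ τ.WK 3 Uall 3 60) (m2 : x2 ∈ τ.WK 3 Uall 5 66)
    (h0 : τ.LX c τ.one - x0 ∈ τ.WT 3 (U1 3) 54 1) (h1 : τ.LB 1 x0 - x1 ∈ τ.WT 3 (U1 3) 60 3)
    (h2 : τ.LB 1 x1 - x2 ∈ τ.WT 3 (U1 3) 66 5) (h3 : τ.LB 1 x2 ∈ τ.WT 3 (U1 3) 72 7)
    {t : Cob Laz 1} (ht : IsT1 3 t) {y : Cob Laz 1} (h : Op 1 54 (xB _ c) y) :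
    ACob 3 1 72 (cupC (s := 1) (σ := 6) (s' := 7) rfl y (b3W ht).1) := by
  refine H.rho_inj hN ha hs (by decide) T7 (SS.isWt_cupC _ h.wt (b3W ht).2 (by norm_num))
    (SS.d_cupC_mem _ h.d (by rw [SS.d_b3W]; exact zero_mem _)) ?_
  have h4 := add_mem (mem_WT_of_JW (w := 54) (s := 1) (Lx_xB_sub (τ := τ) c τ.one)) h0
  rw [sub_add_sub_cancel, ← h.cm, ← Ps_eq_Lx] at h4
  have h5 := H.row_bbb ha hN (by norm_num) (by norm_num) (by norm_num) (H.Ps_mem h.wt) m0 m1 m2 h4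
    h1 h2 (y := 0) (by rwa [sub_zero])
  rw [Ps_cup_b3]
  exact neg_mem (by rwa [sub_zero] at h5)

omit H in
/-- linear combinations of rows -/
theorem row_sum {V : Type} [AddCommGroup V] [Module (ZMod 3) V] (L : V →+ V) {S : AddSubgroup V}
    {n m : ℕ} {r r' : ℕ → V} {R : ℕ → ℕ → ZMod 3}
    (h : ∀ i < n, L (r i) - ∑ l ∈ range m, R i l • r' l ∈ S) (c : ℕ → ZMod 3) :
    L (∑ i ∈ range n, c i • r i) - ∑ l ∈ range m, (∑ i ∈ range n, c i * R i l) • r' l ∈ S := by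
  have h1 := sum_mem (t := range n) fun i hi => ZMod.smul_mem (h i (mem_range.1 hi)) (c i)
  simp only [smul_sub, sum_sub_distrib, smul_sum, smul_smul] at h1
  rw [sum_comm] at h1
  simpa only [map_sum, ZMod.map_smul, sum_smul] using h1

/-- `KerB` from a spanning family, the rows of `b ^ 3`, an independent family and a matrix -/
theorem Ok.kerB_of (ha : 3 ≤ a) (hN : 72 ≤ N) {n m i0 : ℕ} {r r' : ℕ → G → Av (ZMod 3)}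
    (mem : ∀ i < n, r i ∈ τ.WK 3 Uall 2 54)
    (span : ∀ u ∈ τ.WZ 3 (U1 a) 54 2, ∃ c : ℕ → ZMod 3,
      u - ∑ i ∈ range n, c i • r i ∈ τ.WT 3 (U1 3) 54 2)
    (ind : ∀ c : ℕ → ZMod 3, ∑ l ∈ range m, c l • r' l ∈ τ.WT 3 (U1 3) 72 8 → ∀ l < m, c l = 0)
    {R Q : ℕ → ℕ → ZMod 3} {θ : ℕ → ZMod 3}
    (rows : ∀ i < n, τ.LB 1 (τ.LB 1 (τ.LB 1 (r i))) - ∑ l ∈ range m, R i l • r' l ∈
      τ.WT 3 (U1 3) 72 8) (h0 : i0 < n)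
    (hQ : ∀ i < n, ∀ j < n, ∑ l ∈ range m, R i l * Q l j =
      (if i = j then 1 else 0) - if i = i0 then θ j else 0) :
    τ.KerB a (∑ i ∈ range n, θ i • r i) := by
  intro u hu h1
  obtain ⟨c, hc⟩ := span u hu
  have m0 : ∑ i ∈ range n, c i • r i ∈ τ.WK 3 Uall 2 54 :=
    sum_mem fun i hi => ZMod.smul_mem (mem i (mem_range.1 hi)) _
  have m1 := H.LB_mem 1 (w' := 60) (by norm_num) m0
  have h6 := row_sum ((τ.LB 1).comp ((τ.LB 1).comp (τ.LB 1))) (S := τ.WT 3 (U1 3) 72 8)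
    (n := n) (r := r) (m := m) (r' := r') (R := R) rows c
  rw [AddMonoidHom.comp_apply, AddMonoidHom.comp_apply] at h6
  have h2 := H.row_bbb ha hN (by norm_num) (by norm_num) (by norm_num) hu.1 m0 m1
    (H.LB_mem 1 (w' := 66) (by norm_num) m1) hc (by rw [sub_self]; exact zero_mem _)
    (by rw [sub_self]; exact zero_mem _) h6
  have h3 := sub_mem h1 h2
  rw [sub_sub_cancel] at h3
  obtain ⟨l, hl⟩ := ZMod.intCast_surjective (c i0)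
  refine ⟨l, ?_⟩
  have h4 : ∀ j ∈ range n, c j • r j = (l : ZMod 3) • θ j • r j := fun j hj => by
    have h5 : ∑ i ∈ range n, c i * ∑ l ∈ range m, R i l * Q l j = 0 := by
      simp only [mul_sum, ← mul_assoc]
      rw [sum_comm]
      exact sum_eq_zero fun l hl => by rw [← sum_mul, ind _ h3 l (mem_range.1 hl), zero_mul]
    rw [sum_congr rfl fun i hi => by rw [hQ i (mem_range.1 hi) j (mem_range.1 hj)]] at h5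
    simp only [mul_sub, sum_sub_distrib, mul_ite, mul_one, mul_zero, sum_ite_eq', hj,
      mem_range.2 h0, if_true, sub_eq_zero] at h5
    rw [h5, hl, smul_smul]
  rwa [← Int.cast_smul_eq_zsmul (ZMod 3), smul_sum, ← sum_congr rfl h4]

end Tw

end Vale.Agent.P236K.Alg

namespace Vale.Agent.P236K.Core

open Vale.Agent.P251.F Vale.Agent.P251.I Vale.Agent.P236K.SS Vale.Agent.P236K.Alg
open Vale.Agent.P251.S (IC)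

lemma three_cancel {n : ℕ} {z : Cob Laz n} (h : (3 : ℤ) • z = 0) : z = 0 := by
  rw [zsmul_eq_mul, mul_eq_zero] at h
  exact h.resolve_left (by norm_num)

/-- The Bockstein of a cocycle killed by `b ^ 3` is killed by `b ^ 3`. -/
lemma exists_bock {t : Cob Laz 1} (ht : IsT1 3 t) {h : Cob Laz 1} (hh : Cy 54 h)
    (hb : ACob 3 1 72 (cupC (s := 1) (σ := 6) (s' := 7) rfl h (b3W ht).1)) :
    ∃ x : Cob Laz 2, Cy 54 x ∧ Cob.d 1 h = (3 : ℤ) • x ∧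
      ACob 3 1 72 (cupC (s := 2) (σ := 6) (s' := 8) rfl x (b3W ht).1) := by
  obtain ⟨x, hx⟩ := (mem_IC_three_iff (Cob.dwt Laz 1 54 ⟨h, hh.wt⟩)).1 hh.d
  have e1 : Cob.d 1 h = (3 : ℤ) • x.1 := congrArg Subtype.val hx
  obtain ⟨y, hy, h1⟩ := hb
  obtain ⟨g, hg⟩ := (mem_IC_three_iff ⟨_, (Cob.wt Laz 7 72).sub_mem
    (isWt_cupC (s := 1) (σ := 6) rfl hh.wt (b3W ht).2 (by norm_num)) hy.d⟩).1 h1
  have e2 : cupC (s := 1) (σ := 6) (s' := 7) rfl h (b3W ht).1 - Cob.d 6 y = (3 : ℤ) • g.1 :=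
    congrArg Subtype.val hg
  have e3 := congrArg (Cob.d 7) e2
  rw [map_sub, Cob.d_d, sub_zero, d_cupC (s := 1) (σ := 6) (s' := 7) rfl rfl rfl, d_b3W, e1,
    map_zsmul, cupC, cupC, map_zero, mul_zero, smul_zero, add_zero, map_zsmul, smul_mul_assoc,
    ← sub_eq_zero, ← smul_sub] at e3
  refine ⟨x.1, Cy.of_d x.2 (three_cancel ?_), e1, g.1, g.2, ?_⟩
  · rw [← map_zsmul, ← e1, Cob.d_d]
  · rw [cupC, three_cancel e3]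
    exact zero_mem _

variable {G : Type} [Fintype G] [DecidableEq G] {τ : Tw (ZMod 3) G} {N : ℤ} {a : ℕ}

/-- **`ThAlg` from facts on `W`.** -/
theorem thAlg_of_W (H : τ.Ok 3 N (U1 a)) (ha : 3 ≤ a) (hN : 162 ≤ N) (hs : ∀ r < 7, τ.Exa 3 N r)
    (T7 : Tors 3 (ZMod 3) 7 66 3) (T6 : Tors 3 (ZMod 3) 6 156 3) {c c2 c0 c1 : ℤ}
    {x0 x1 x2 r1 r2 : G → Av (ZMod 3)} (n0 : x0 ∈ τ.WK 3 Uall 1 54) (n1 : x1 ∈ τ.WK 3 Uall 3 60)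
    (n2 : x2 ∈ τ.WK 3 Uall 5 66) (m1 : r1 ∈ τ.WK 3 Uall 2 54) (m2 : r2 ∈ τ.WK 3 Uall 4 108)
    (g0 : τ.LX c τ.one - x0 ∈ τ.WT 3 (U1 3) 54 1) (g1 : τ.LB 1 x0 - x1 ∈ τ.WT 3 (U1 3) 60 3)
    (g2 : τ.LB 1 x1 - x2 ∈ τ.WT 3 (U1 3) 66 5) (g3 : τ.LB 1 x2 ∈ τ.WT 3 (U1 3) 72 7)
    (h1 : τ.LT c2 c0 c1 τ.one - r1 ∈ τ.WT 3 (U1 3) 54 2)
    (h2 : τ.LT c2 c0 c1 r1 - r2 ∈ τ.WT 3 (U1 3) 108 4)
    (h3 : τ.LT c2 c0 c1 r2 ∈ τ.WT 3 (U1 3) 162 6) (hK : τ.KerB a r1) : ThAlg := by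
  intro t ht
  obtain ⟨h, hh⟩ := exists_op (xB_mem h33 c) (dB_xB h33 c)
  have hb := H.aCob_xb3 ha (by omega) hs T7 n0 n1 n2 g0 g1 g2 g3 ht hh
  obtain ⟨x, hx, e, hx'⟩ := exists_bock ht ⟨hh.wt, hh.d⟩ hb
  exact ⟨h, x, hh.wt, hx.wt, e, hh.not_aCob_x, hb,
    H.aCob_cb3 ha hN (fun r hr => hs r (by omega)) T6 m1 m2 h1 h2 h3 hK ht hx hx'⟩

end Vale.Agent.P236K.Core
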