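import Vale.Agent.P236K.Core.Out
import Vale.Agent.P236K.Core.End3
import Vale.Agent.P236K.St5.Done

/-!
# P236K, block Core: the reduction of the final statement to algebra

`final_of_alg : J1Alg → BAlg → ThAlg → EndAlg → D5Alg → St.FINAL`; the five hypotheses are
statements on the cobar complex only.
-/

namespace Vale.Agent.P236K.Core

open Vale.Agent.P251 Vale.Agent.P251.F Vale.Agent.P251.I Vale.Agent.P236K.SS
open Vale.Agent.P251.S hiding IC

/-- Two multiplications by `b` near the stem `106`. -/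
def BAlg : Prop := ∀ (t : Cob Laz 1) (ht : IsT1 3 t),
  ASurj 3 1 1 (bW ht).1 6 5 56 ∧ AInj 3 1 1 (bW ht).1 6 6 56

/-- The rules of `d₅` force the three facts. -/
def D5Alg : Prop := ∀ R : Rel, D5Ax R → ∀ t : Cob Laz 1, IsT1 3 t → F10 R ∧ F14 R t ∧ F18 R t

theorem fAll_of (h : D5Alg) : FAll := fun _ S D U _ _ _ hM t ht =>
  h _ (d5Ax D U hM S.toSpaceFunctor) t ht

theorem j2Alg_of_th (hB : BAlg) (hT : ThAlg) : J2Alg := by
  refine j2Alg_of fun t ht => ⟨?_, hB t ht⟩
  obtain ⟨h, x, h1, -, h2, h3, h4, -⟩ := hT t ht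
  exact ⟨h, h1, h2 ▸ three_mem x, h3, h4⟩

theorem coreC_of_alg (hB : BAlg) (hT : ThAlg) (hE : EndAlg) (hD : D5Alg) : D3.CoreC :=
  coreC_of_facts (j2Alg_of_th hB hT) hT (fAll_of hD) every_L9 (k22All_of hE)

/-- **The final statement from algebra.** -/
theorem final_of_alg (hJ : J1Alg) (hB : BAlg) (hT : ThAlg) (hE : EndAlg) (hD : D5Alg) :
    St.FINAL := St5.final_of_core (coreC_of_alg hB hT hE hD) hJ

end Vale.Agent.P236K.Core
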